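import Crest.Agent.N207.L.Br1

/-! # N207/L/Br2 (helper72): `C^7` solutions on annuli are solutions on real paths -/

set_option autoImplicit false
set_option maxHeartbeats 400000
set_option linter.unusedSectionVars false
open Set Filter Topology MeasureTheory
open Crest.Agent.R246.Zon797 (Pr)

noncomputable section

namespace Crest.Agent.N207.J

variable {U U' : E4 → ℂ} {N : ℕ} {x : E4} {M M' : ℝ}

theorem PB.congr (h : PB N U x M) (e : U' =ᶠ[𝓝 x] U) : PB N U' x M :=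
  ⟨h.1.congr_of_eventuallyEq e, fun j hj => by
    rw [(e.iteratedFDeriv ℝ j).eq_of_nhds]; exact h.2 j hj⟩

theorem PB.add (h : PB N U x M) (h' : PB N U' x M') : PB N (fun y => U y + U' y) x (M + M') :=
  ⟨h.1.add h'.1, fun j hj => by
    have hj' : (j : WithTop ℕ∞) ≤ N := by exact_mod_cast hj
    rw [fun_iteratedFDeriv_add_apply (h.1.of_le hj') (h'.1.of_le hj')]
    refine (mul_le_mul_of_nonneg_left (norm_add_le _ _) (by positivity)).trans ?_
    rw [mul_add]
    exact add_le_add (h.2 j hj) (h'.2 j hj)⟩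

theorem PB.smul (h : PB N U x M) (c : ℂ) : PB N (fun y => c * U y) x (‖c‖ * M) :=
  ⟨contDiffAt_const.mul h.1, fun j hj => by
    have hj' : (j : WithTop ℕ∞) ≤ N := by exact_mod_cast hj
    have := iteratedFDeriv_const_smul_apply' (a := c) (h.1.of_le hj')
    simp only [smul_eq_mul] at this
    rw [this, norm_smul, mul_left_comm]
    exact mul_le_mul_of_nonneg_left (h.2 j hj) (norm_nonneg _)⟩

theorem PB.sub (h : PB N U x M) (h' : PB N U' x M') : PB N (fun y => U y - U' y) x (M + M') := by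
  simpa [sub_eq_add_neg] using h.add (h'.smul (-1))

theorem PB.zero (N : ℕ) (x : E4) : PB N (fun _ => 0) x 0 :=
  ⟨contDiffAt_const, fun j _ => by simp⟩

theorem PB.sum {ι : Type*} (s : Finset ι) {U : ι → E4 → ℂ} (h : ∀ i ∈ s, PB N (U i) x M) :
    PB N (fun y => ∑ i ∈ s, U i y) x (s.card * M) := by
  classical
  induction s using Finset.induction_on with
  | empty => simpa using PB.zero N x
  | insert i s hi ih =>
    have := (h i (Finset.mem_insert_self _ _)).add
      (ih fun j hj => h j (Finset.mem_insert_of_mem hj))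
    simp only [Finset.sum_insert hi, Finset.card_insert_of_notMem hi]
    exact this.mono le_rfl (le_of_eq (by push_cast; ring))

theorem PB.eu (h : PB (N + 1) U x M) : PB N (Eu U) x (2 ^ N * M) :=
  h.du _ ContinuousLinearMap.norm_id_le

theorem PB.lp2 (h : PB (N + 2) U x M) : PB N (Lp2 U) x (9 * (2 ^ N * (2 ^ (N + 1) * M))) := by
  have hM := h.nonneg
  have h1 := (h.eu.eu.add ((h.eu.mono (Nat.le_succ N) le_rfl).smul 2)).add
    (PB.sum Finset.univ fun a _ => (h.du (Xv a) (norm_Xv_le a)).du (Xv a) (norm_Xv_le a))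
  have e : (Finset.univ : Finset (Pr 4)).card = 6 := by decide
  refine (h1.congr ?_).mono le_rfl ?_
  · filter_upwards [(h.1.of_le (m := (2 : ℕ)) (by exact_mod_cast Nat.le_add_left 2 N)).eventually
      (by simp)] with y hy using (polar_lap hy).symm
  · rw [e]
    have h2 : (1 : ℝ) ≤ 2 ^ N := one_le_pow₀ one_le_two
    have h3 : 0 ≤ 2 ^ (N + 1) * M := by positivity
    simp only [Complex.norm_ofNat]
    push_cast
    nlinarith

theorem sb_rst {t : ℝ} {n : ℕ} (h : ∀ ω : S3, PB (n + 2) U (Real.exp t • (ω : E4)) M) :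
    Sb n (rst U t) := by
  refine summable_of_sum_le (c := cM (n + 2) * M * 2) (fun _ => by positivity) fun s => ?_
  have hM := (h (prj 0)).nonneg
  have := cM_pos (n + 2)
  refine le_trans (Finset.sum_le_sum (g := fun k : ℕ => cM (n + 2) * M * (1 / ((k : ℝ) + 1) ^ 2))
    fun k _ => ?_) ?_
  · rw [mul_one_div, le_div_iff₀ (by positivity), mul_right_comm, ← pow_add]
    exact mode_le h k
  · rw [← Finset.mul_sum]
    exact mul_le_mul_of_nonneg_left (sum_inv_sq_le s) (by positivity)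

theorem tsum_mdU {t : ℝ} {n : ℕ} (h : ∀ ω : S3, PB (n + 4) U (Real.exp t • (ω : E4)) M) :
    ∑' k, Pc k (mdU U k t) = rst U t := by
  simp only [mdU, Pc_P]
  exact (sb_rst (n := n + 2) h).hasSum.tsum_eq

theorem pm_le {t : ℝ} {n : ℕ} (h : ∀ ω : S3, PB (n + 1) U (Real.exp t • (ω : E4)) M) (k : ℕ) :
    ((k : ℝ) + 1) ^ (n + 1) * ‖pm U k t‖ ≤ cM (n + 2) * M ∧
      ((k : ℝ) + 1) ^ (n + 1) * ‖qm U k t‖ ≤ cM (n + 2) * M := by
  have h1 := mode_le h k
  have h2 := mode_le (fun ω => (h ω).eu) k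
  have hM := (h (prj 0)).nonneg
  have key : ((k : ℝ) + 1) ^ (n + 1) * (‖mdU U k t‖ + ((k : ℝ) + 1)⁻¹ * ‖mdU (Eu U) k t‖)
      ≤ cM (n + 2) * M := by
    have e : ((k : ℝ) + 1) ^ (n + 1) * (((k : ℝ) + 1)⁻¹ * ‖mdU (Eu U) k t‖)
        = ((k : ℝ) + 1) ^ n * ‖mdU (Eu U) k t‖ := by rw [pow_succ]; field_simp
    rw [mul_add, e]
    refine (add_le_add h1 h2).trans ?_
    have e2 : cM (n + 2) = 3 * 2 ^ (n + 1) * cM (n + 1) := rfl
    have e3 : cM (n + 1) = 3 * 2 ^ n * cM n := rfl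
    have p1 : (1 : ℝ) ≤ 2 ^ (n + 1) := one_le_pow₀ one_le_two
    have p2 : 0 ≤ 2 ^ n * cM n * M := by have := cM_pos n; positivity
    rw [e2, e3]
    nlinarith
  exact ⟨(mul_le_mul_of_nonneg_left (norm_pm_le k t) (by positivity)).trans key,
    (mul_le_mul_of_nonneg_left (norm_qm_le k t) (by positivity)).trans key⟩

end Crest.Agent.N207.J

namespace Crest.Agent.N207.L
open J

theorem Bd.of_le {σ : ℕ} {g : ℝ → ℝ} {f : Md} {B : ℝ} (hB : 0 ≤ B)
    (hm : ∀ k x, P k (f k x) = f k x) (hc : ∀ k, Continuous (f k))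
    (h : ∀ (k : ℕ) x, ((k : ℝ) + 1) ^ (σ + 1) * ‖f k x‖ ≤ B * g x) :
    Bd σ g (fun _ => 1) f (2 * B) := by
  refine ⟨by positivity, hm, hc, fun k => B * (1 / ((k : ℝ) + 1)), fun s => ?_, fun k x => ?_⟩
  · simp only [mul_pow, div_pow, one_pow, ← Finset.mul_sum]
    nlinarith [mul_le_mul_of_nonneg_left (sum_inv_sq_le s) (sq_nonneg B), sq_nonneg B]
  · rw [one_pow, mul_one, wt_nat, mul_right_comm, mul_one_div, le_div_iff₀ (by positivity),
      mul_right_comm, ← pow_succ]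
    exact h k x

/-- amplitudes and source of `U` along the real curve `φ` -/
def pU (U : E4 → ℂ) (φ : ℝ → ℝ) : Md := fun k x => pm U k (φ x)
def qU (U : E4 → ℂ) (φ : ℝ → ℝ) : Md := fun k x => qm U k (φ x)
def FU (U : E4 → ℂ) (φ : ℝ → ℝ) : Md := fun k x => mdU (Lp2 U) k (φ x)

theorem cj_rst {U : E4 → ℂ} {t : ℝ} (h : ∀ ω : S3, ContDiffAt ℝ (2 : ℕ) U (Real.exp t • (ω : E4)))
    (j : Jx) (ω : S3) : cj (rst U t) (rst (Eu U) t) (rst (Eu (Eu U)) t) j ω
      = cj1 U (Real.exp t • (ω : E4)) j := by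
  rcases j with _ | a | e
  · exact rst_apply' (fun ω => (h ω).continuousAt) ω
  · rw [cj1, norm_smul_S3 (Real.exp_pos t)]; exact jet1_rst (n := 1) h a ω
  · rw [cj_inr, cj1, norm_smul_S3 (Real.exp_pos t)]; exact jet2_rst h e.1 e.2 ω

section val
variable {U : E4 → ℂ} {φ : ℝ → ℝ} {x M : ℝ} {n : ℕ}

theorem val_U0 (h : ∀ ω : S3, PB (n + 4) U (Real.exp (φ x) • (ω : E4)) M) (F : Md) :
    val (dt (pU U φ) (qU U φ) F 0) x = rst U (φ x) := by
  simp only [val, dt, pU, qU, pm_add_qm]; exact tsum_mdU h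

theorem val_U1 (h : ∀ ω : S3, PB (n + 5) U (Real.exp (φ x) • (ω : E4)) M) (F : Md) :
    val (dt (pU U φ) (qU U φ) F 1) x = rst (Eu U) (φ x) := by
  simp only [val, dt, pU, qU, pm_sub_qm]; exact tsum_mdU fun ω => (h ω).eu

theorem val_U2 (h : ∀ ω : S3, PB (n + 6) U (Real.exp (φ x) • (ω : E4)) M) :
    val (dt (pU U φ) (qU U φ) (FU U φ) 2) x = rst (Eu (Eu U)) (φ x) := by
  simp only [val, dt, pU, qU, FU,
    pm_qm_two fun ω => (h ω).1.of_le (by exact_mod_cast (by omega : 2 ≤ n + 6))]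
  exact tsum_mdU fun ω => (h ω).eu.eu

theorem val_FU (h : ∀ ω : S3, PB (n + 4) (Lp2 U) (Real.exp (φ x) • (ω : E4)) M) :
    val (FU U φ) x = rst (Lp2 U) (φ x) := tsum_mdU h

end val

variable {ι : Type} [Fintype ι]

theorem jets_U {U : ι → E4 → ℂ} {φ : ℝ → ℝ} {x M : ℝ} {n : ℕ}
    (h : ∀ i, ∀ ω : S3, PB (n + 6) (U i) (Real.exp (φ x) • (ω : E4)) M) (ω : S3) :
    jets (fun i => pU (U i) φ) (fun i => qU (U i) φ) (fun i => FU (U i) φ) x ω
      = cjet U (Real.exp (φ x) • (ω : E4)) := by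
  funext j
  simp only [jets, cjet, val_U0 (n := n + 2) (h j.1), val_U1 (n := n + 1) (h j.1), val_U2 (h j.1)]
  exact cj_rst (fun ω => (h j.1 ω).1.of_le (by exact_mod_cast (by omega : 2 ≤ n + 6))) _ _

/-- **converse real bridge** along a real curve `φ` with right derivative `φ'` -/
theorem Sol.of_real {N : NL ι} {U : ι → E4 → ℂ} {I : Set ℝ} (hI : IsOpen I) {φ φ' w : ℝ → ℝ}
    {M : ℝ} (hM : 0 ≤ M) (hc : Continuous φ) (hφ : ∀ x, HasDerivWithinAt φ (φ' x) (Ici x) x)
    (hφI : ∀ x, φ x ∈ I) (hU : ∀ i, ContDiffOn ℝ (2 : ℕ) (U i) (An I))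
    (hb : ∀ i x, ∀ ω : S3, PB 7 (U i) (Real.exp (φ x) • (ω : E4)) (M * w x))
    (hF : ∀ i x, ∀ ω : S3, PB 5 (Lp2 (U i)) (Real.exp (φ x) • (ω : E4)) (M * w x ^ 2))
    (heq : ∀ x, ∀ ω : S3, (fun i => Lp2 (U i) (Real.exp (φ x) • (ω : E4)))
      = N.Q (cjet U (Real.exp (φ x) • (ω : E4)))) :
    Sol N (fun x => φ' x) w (fun _ => 1) (2 * (cM 8 * M)) (fun i => pU (U i) φ)
      (fun i => qU (U i) φ) (fun i => FU (U i) φ) := by
  have c8 := cM_pos 8
  have dp := fun i k x => hasDerivAt_pm hI (hU i) k (hφI x)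
  have dq := fun i k x => hasDerivAt_qm hI (hU i) k (hφI x)
  refine ⟨fun i => Bd.of_le (by positivity) (fun k x => P_pm k _) (fun k => ?_) fun k x => ?_,
    fun i => Bd.of_le (by positivity) (fun k x => P_qm k _) (fun k => ?_) fun k x => ?_,
    fun i => Bd.of_le (by positivity) (fun k x => P_mdU k _) (fun k => ?_) fun k x => ?_,
    fun i k x => ?_, fun i k x => ?_, fun x ω => ?_⟩
  · exact continuous_iff_continuousAt.2 fun x =>
      ContinuousAt.comp (f := φ) (dp i k x).continuousAt hc.continuousAt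
  · rw [mul_assoc]; exact (pm_le (n := 6) (hb i x) k).1
  · exact continuous_iff_continuousAt.2 fun x =>
      ContinuousAt.comp (f := φ) (dq i k x).continuousAt hc.continuousAt
  · rw [mul_assoc]; exact (pm_le (n := 6) (hb i x) k).2
  · exact (continuousOn_mdU (fun y hy => (continuousAt_Lp2
      ((hU i).contDiffAt (An_mem_nhds hI hy))).continuousWithinAt) k).comp_continuous hc hφI
  · rw [mul_assoc]
    exact (mode_le (hF i x) k).trans
      (mul_le_mul_of_nonneg_right (cM_mono (by norm_num)) (by positivity))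
  · rw [Complex.coe_smul]; exact (dp i k x).scomp_hasDerivWithinAt x (hφ x)
  · rw [Complex.coe_smul]; exact (dq i k x).scomp_hasDerivWithinAt x (hφ x)
  · rw [jets_U (n := 1) (fun i => hb i x), ← heq]
    funext i
    rw [val_FU (n := 1) (hF i x), rst_apply' fun ω => (hF i x ω).1.continuousAt]

end Crest.Agent.N207.L
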