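import Crest.Agent.N207.J.Sph5

/-! # N207/L/Defs (helper59): paths, true mode families, the solution predicate of a neck piece

System `r² Δ u = Q(jets u)` on `ℝ⁴ \ 0`, `r = e^t`, along a complex path `t = γ.t x`.
Modes: `u_k = p_k + q_k`, `p' = k p + F/(2k+2)`, `q' = -(k+2) q - F/(2k+2)`. -/

set_option autoImplicit false
set_option linter.unusedSectionVars false
open Set Filter Topology MeasureTheory BoundedContinuousFunction
open Crest.Agent.R246.Zon797 (Pr)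

noncomputable section

namespace Crest.Agent.N207.L
open J

abbrev BH := ℝ →ᵇ H
/-- stored functions of `(x, k)` -/
abbrev CL := lp (fun _ : ℕ => BH) 2
/-- stored amplitudes -/
abbrev D := lp (fun _ : ℕ => H) 2
/-- true mode families -/
abbrev Md := ℕ → ℝ → H

/-- clamp to `[a, b]` -/
def cl (a b x : ℝ) : ℝ := max a (min x b)
/-- right derivative of `cl a b` -/
def ind (a b x : ℝ) : ℝ := if a ≤ x ∧ x < b then 1 else 0

/-- a path with weights; `a`, `b` = ends, `xs` = base point of the constant mode;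
`fin = false`: half line `[a, ∞)` (then `b`, `xs` are not used) -/
structure Pth where
  t : ℝ → ℂ
  τ : ℝ → ℂ
  w : ℝ → ℝ
  om : ℝ → ℝ
  a : ℝ
  b : ℝ
  xs : ℝ
  fin : Bool

namespace Pth

/-- `∫_x^{xs} = ∫_{Ioi x} - ∫_{up}` -/
def up (γ : Pth) : Set ℝ := if γ.fin then Ioi γ.xs else ∅

/-- the point at which `p_k` is prescribed -/
def pt (γ : Pth) (k : ℕ) : ℝ := if k = 0 then γ.xs else γ.b

structure Ok (γ : Pth) (C o : ℝ) : Prop where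
  cont : Continuous γ.t
  der : ∀ x, HasDerivWithinAt γ.t (γ.τ x) (Ici x) x
  rc : ∀ x, ContinuousWithinAt γ.τ (Ici x) x
  li : ∀ x y, IntervalIntegrable γ.τ volume x y
  left : ∀ x, x < γ.a → γ.τ x = 0
  right : γ.fin = true → ∀ x, γ.b ≤ x → γ.τ x = 0
  dec : γ.fin = false → Tendsto γ.w atTop (𝓝 0)
  wc : Continuous γ.w
  w0 : ∀ x, 0 < γ.w x
  w1 : ∀ x, γ.w x ≤ 1
  oc : Continuous γ.om
  o0 : ∀ x, o ≤ γ.om x
  o1 : ∀ x, γ.om x ≤ 1
  slope : ∀ x, ‖γ.τ x‖ * γ.w x ≤ C * (γ.τ x).re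
  re0 : ∀ x, 0 ≤ (γ.τ x).re
  wb : ∀ r s, r ≤ s → γ.w r ≤ Real.exp (3 / 2 * (γ.t s - γ.t r).re) * γ.w s
  wf : ∀ r s, r ≤ s → γ.w s ≤ Real.exp (5 / 8 * (γ.t s - γ.t r).re) * γ.w r
  ob : ∀ r s, r ≤ s → γ.om r ≤ Real.exp (1 / 4 * (γ.t s - γ.t r).re) * γ.om s
  of : ∀ r s, r ≤ s → γ.om s ≤ Real.exp (1 / 4 * (γ.t s - γ.t r).re) * γ.om r
  mono : ∀ s r, (s < r ↔ r ∉ γ.up) → γ.w r ≤ γ.w s
  wmin : γ.fin = true → ∀ x, γ.w γ.xs ≤ γ.w x
  int : Integrable fun r => γ.w r * ‖γ.τ r‖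
  int_le : ∫ r, γ.w r * ‖γ.τ r‖ ≤ C

/-- the same weights and ends, another parametrised curve -/
def re (γ : Pth) (t τ : ℝ → ℂ) : Pth := { γ with t := t, τ := τ }

/-- a holomorphic family of curves with fixed weights and ends -/
structure Fam {Z : Type} [NormedAddCommGroup Z] [NormedSpace ℂ Z] (γ : Pth) (t τ : Z → ℝ → ℂ)
    (U : Set Z) (C o : ℝ) : Prop where
  op : IsOpen U
  ok : ∀ z ∈ U, (γ.re (t z) (τ z)).Ok C o
  ht : ∀ x, DifferentiableOn ℂ (fun z => t z x) U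
  hτ : ∀ x, DifferentiableOn ℂ (fun z => τ z x) U
  dom : ∃ M : ℝ, ∀ z ∈ U, ∀ x, ‖t z x - γ.t x‖ ≤ M ∧ ‖τ z x‖ ≤ M * (γ.τ x).re
  base : γ.Ok C o

end Pth

/-- the true family of a stored element -/
def tru (σ : ℕ) (g om : ℝ → ℝ) (X : CL) : Md :=
  fun k x => ((g x * om x ^ k / wt σ k : ℝ) : ℂ) • P k (X k x)

/-- true amplitudes of a stored amplitude -/
def trD (o : ℝ) (A : D) (k : ℕ) : H := ((o ^ k / wt (6 : ℕ) k : ℝ) : ℂ) • P k (A k)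

/-- size of a true family -/
structure Bd (σ : ℕ) (g om : ℝ → ℝ) (f : Md) (η : ℝ) : Prop where
  nn : 0 ≤ η
  mode : ∀ k x, P k (f k x) = f k x
  cont : ∀ k, Continuous (f k)
  bd : ∃ c : ℕ → ℝ, (∀ s : Finset ℕ, ∑ k ∈ s, c k ^ 2 ≤ η ^ 2) ∧
    ∀ k x, wt σ k * ‖f k x‖ ≤ c k * (g x * om x ^ k)

/-- the function on the sphere at time `x` -/
def val (f : Md) (x : ℝ) : CS := ∑' k, Pc k (f k x)

/-- `u, u', u''` -/
def dt (p q F : Md) : Fin 3 → Md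
  | 0 => fun k x => p k x + q k x
  | 1 => fun k x => (k : ℂ) • p k x - ((k : ℂ) + 2) • q k x
  | 2 => fun k x => (k : ℂ) ^ 2 • p k x + ((k : ℂ) + 2) ^ 2 • q k x + F k x

/-- Cartesian jets `u`, `r ∂_a u`, `r² ∂_a ∂_b u` -/
abbrev Jx := Option (Fin 4 ⊕ Fin 4 × Fin 4)

/-- `r ∂_a` of a function with value `U` and `t`-derivative `U1` -/
def Dd (a : Fin 4) (U U1 : CS) : CS := xc a * U1 + ∑ c : Pr 4, rx c a * R c U

def cj (U U1 U2 : CS) : Jx → CS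
  | none => U
  | some (.inl a) => Dd a U U1
  | some (.inr e) => Dd e.1 (Dd e.2 U U1) (Dd e.2 U1 U2) - xc e.1 * Dd e.2 U U1

/-- the nonlinearity: an analytic germ of order two of the jets -/
structure NL (ι : Type) [Fintype ι] where
  Q : (ι × Jx → ℂ) → ι → ℂ
  an : AnalyticAt ℂ Q 0
  q0 : Q 0 = 0
  q1 : HasFDerivAt Q (0 : (ι × Jx → ℂ) →L[ℂ] ι → ℂ) 0

variable {ι : Type} [Fintype ι]

/-- the jets at `(x, y)` -/
def jets (p q F : ι → Md) (x : ℝ) (y : S3) : ι × Jx → ℂ := fun j =>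
  cj (val (dt (p j.1) (q j.1) (F j.1) 0) x) (val (dt (p j.1) (q j.1) (F j.1) 1) x)
    (val (dt (p j.1) (q j.1) (F j.1) 2) x) j.2 y

/-- solutions of size `η` -/
structure Sol (N : NL ι) (τ : ℝ → ℂ) (w om : ℝ → ℝ) (η : ℝ) (p q F : ι → Md) : Prop where
  bp : ∀ i, Bd 6 w om (p i) η
  bq : ∀ i, Bd 6 w om (q i) η
  bF : ∀ i, Bd 4 (fun x => w x ^ 2) om (F i) η
  dp : ∀ i k x, HasDerivWithinAt (p i k)
    (τ x • ((k : ℂ) • p i k x + (2 * (k : ℂ) + 2)⁻¹ • F i k x)) (Ici x) x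
  dq : ∀ i k x, HasDerivWithinAt (q i k)
    (τ x • (-((k : ℂ) + 2) • q i k x - (2 * (k : ℂ) + 2)⁻¹ • F i k x)) (Ici x) x
  eq : ∀ x y, (fun i => val (F i) x y) = N.Q (jets p q F x y)

/-- data, scaled by the weight at the point where they are prescribed -/
structure Dat (γ : Pth) (p q : ι → Md) (A B : ι → D) : Prop where
  hq : ∀ i k, q i k γ.a = (γ.w γ.a : ℂ) • trD (γ.om γ.a) (A i) k
  hp : γ.fin = true → ∀ i k, p i k (γ.pt k) = (γ.w (γ.pt k) : ℂ) • trD (γ.om γ.b) (B i) k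

/-- uniqueness radius -/
def Uniq (N : NL ι) (C o η : ℝ) : Prop :=
  ∀ γ : Pth, γ.Ok C o → ∀ p q F p' q' F' : ι → Md, ∀ A B : ι → D,
    Sol N γ.τ γ.w γ.om η p q F → Sol N γ.τ γ.w γ.om η p' q' F' → Dat γ p q A B →
    Dat γ p' q' A B → p = p' ∧ q = q' ∧ F = F'

/-- stored triples `(p, q, F)` -/
abbrev Tr (ι : Type) := (ι → CL) × (ι → CL) × (ι → CL)

def Tr.p (S : Tr ι) (γ : Pth) : ι → Md := fun i => tru 6 γ.w γ.om (S.1 i)
def Tr.q (S : Tr ι) (γ : Pth) : ι → Md := fun i => tru 6 γ.w γ.om (S.2.1 i)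
def Tr.F (S : Tr ι) (γ : Pth) : ι → Md := fun i => tru 4 (fun x => γ.w x ^ 2) γ.om (S.2.2 i)

/-- existence and holomorphy on the ball of radius `ε` -/
def Exi (N : NL ι) (C o ε K : ℝ) : Prop :=
  ∀ (Z : Type) [NormedAddCommGroup Z] [NormedSpace ℂ Z] (γ : Pth) (t τ : Z → ℝ → ℂ) (U : Set Z),
    γ.Fam t τ U C o → ∃ S : Z × (ι → D) × (ι → D) → Tr ι,
      DifferentiableOn ℂ S (U ×ˢ Metric.ball 0 ε) ∧ ∀ z ∈ U, ∀ v ∈ Metric.ball 0 ε,
        ‖S (z, v)‖ ≤ K * ‖v‖ ∧ ‖(S (z, v)).2.2‖ ≤ K * ‖v‖ ^ 2 ∧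
        Sol N (τ z) γ.w γ.om (K * ‖v‖) ((S (z, v)).p γ) ((S (z, v)).q γ) ((S (z, v)).F γ) ∧
        Dat γ ((S (z, v)).p γ) ((S (z, v)).q γ) v.1 v.2

/-- the piece theorem -/
def PieceStmt (N : NL ι) : Prop :=
  ∀ C o : ℝ, 0 < o → ∃ η ε K : ℝ, 0 < ε ∧ 1 ≤ K ∧ K * ε ≤ η ∧ Uniq N C o η ∧ Exi N C o ε K

/-- the neck `[-R, R]`, stretched by `ζ` on `[-1, 1]` (half length `R + ζ`) -/
def neck (R : ℝ) (ζ : ℂ) : Pth where
  t x := cl (-R) R x + ζ * cl (-1) 1 x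
  τ x := ind (-R) R x + ζ * ind (-1) 1 x
  w x := Real.exp (5 / 8 * (cl 1 R |x| - R))
  om _ := 1
  a := -R
  b := R
  xs := 0
  fin := true

/-- the middle piece -/
def mid (ζ : ℂ) (w0 : ℝ) : Pth where
  t x := (1 + ζ) * cl (-1) 1 x
  τ x := (1 + ζ) * ind (-1) 1 x
  w _ := w0
  om _ := 1
  a := -1
  b := 1
  xs := 0
  fin := true

/-- a straight piece `[a, b]` with weight `c e^{δ |x - xs|}` -/
def str (a b xs c δ : ℝ) (om : ℝ → ℝ) : Pth where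
  t x := cl a b x
  τ x := ind a b x
  w x := c * Real.exp (δ * |cl a b x - xs|)
  om := om
  a := a
  b := b
  xs := xs
  fin := true

/-- the half line `[a, ∞)` -/
def half (a δ : ℝ) : Pth where
  t x := (max a x : ℝ)
  τ x := if a ≤ x then 1 else 0
  w x := Real.exp (-δ * (max a x - a))
  om _ := 1
  a := a
  b := a
  xs := a
  fin := false

end Crest.Agent.N207.L
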