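import Crest.Agent.N207.L.Inst2

/-! # N207/L/Inst3 (helper82): admissibility of the neck family, uniformly in the length -/

set_option autoImplicit false
open Set Filter Topology MeasureTheory

noncomputable section

namespace Crest.Agent.N207.L

private lemma ex {p q : ℝ} (h : p ≤ q) : Real.exp p ≤ Real.exp q := Real.exp_le_exp.2 h

lemma cl_abs {R : ℝ} (hR : 1 ≤ R) (x : ℝ) : cl 1 R |x| = 1 + |cl (-R) R x - cl (-1) 1 x| := by
  unfold cl
  rcases abs_cases x with ⟨e, h⟩ | ⟨e, h⟩ <;> rw [e] <;> simp only [max_def, min_def] <;>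
    split_ifs <;> first
      | (rw [abs_of_nonneg (by linarith)]; linarith)
      | (rw [abs_of_nonpos (by linarith)]; linarith)

lemma neck_re (R : ℝ) (ζ : ℂ) (x : ℝ) :
    ((neck R ζ).t x).re = cl (-R) R x + ζ.re * cl (-1) 1 x := by simp [neck]

lemma neck_lip {R : ℝ} (hR : 1 ≤ R) {ζ : ℂ} (h : -1 ≤ ζ.re) {r s : ℝ} (hrs : r ≤ s) :
    abs (cl 1 R |s| - cl 1 R |r|) ≤ ((neck R ζ).t s - (neck R ζ).t r).re := by
  rw [Complex.sub_re, neck_re, neck_re, cl_abs hR, cl_abs hR, add_sub_add_left_eq_sub]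
  refine (abs_abs_sub_abs_le_abs_sub _ _).trans ?_
  have p1 := cl_mono (-1) 1 hrs
  have p2 := cl_sub_le_cl (a := -R) (b := R) (a' := -1) (b' := 1) (by linarith) (by norm_num) hR hrs
  rw [abs_of_nonneg (by linarith)]
  nlinarith

lemma neck_τ_cases {R : ℝ} (hR : 1 ≤ R) (ζ : ℂ) (x : ℝ) :
    (ind (-R) R x = 0 ∧ ind (-1) 1 x = 0 ∧ (neck R ζ).τ x = 0) ∨
    (ind (-R) R x = 1 ∧ ind (-1) 1 x = 0 ∧ (neck R ζ).τ x = 1) ∨
    (ind (-R) R x = 1 ∧ ind (-1) 1 x = 1 ∧ (neck R ζ).τ x = 1 + ζ ∧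
      (neck R ζ).w x = Real.exp (5 / 8 * (1 - R))) := by
  rcases ind_cases (-1) 1 x with ⟨p1, p2, p⟩ | ⟨_, p⟩
  · have q : ind (-R) R x = 1 := ind_of_mem (by linarith) (by linarith)
    refine Or.inr (Or.inr ⟨q, p, by simp [neck, p, q], ?_⟩)
    simp only [neck]
    rw [cl_of_le (abs_le.2 ⟨p1, p2.le⟩)]
  · rcases ind_cases (-R) R x with ⟨_, _, q⟩ | ⟨_, q⟩
    · exact Or.inr (Or.inl ⟨q, p, by simp [neck, p, q]⟩)
    · exact Or.inl ⟨q, p, by simp [neck, p, q]⟩

lemma neck_w_le {R : ℝ} (hR : 1 ≤ R) (ζ : ℂ) (x : ℝ) : (neck R ζ).w x ≤ 1 :=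
  Real.exp_le_one_iff.2 (by linarith [cl_le hR |x|])

/-- the neck, constants independent of `R` -/
theorem ok_neck {R c C : ℝ} {ζ : ℂ} (hR : 1 ≤ R) (hc : 0 ≤ c) (h1 : -1 / 2 ≤ ζ.re)
    (h2 : ‖ζ‖ ≤ c * Real.exp (5 / 8 * R)) (hC : 10 + 4 * c ≤ C) : (neck R ζ).Ok C 1 := by
  have e2 : Real.exp (5 / 8) ≤ 2 := by
    have := Real.log_two_gt_d9
    rw [← Real.le_log_iff_exp_le (by norm_num)]; linarith
  have zw : ‖ζ‖ * Real.exp (5 / 8 * (1 - R)) ≤ 2 * c := by
    calc _ ≤ c * Real.exp (5 / 8 * R) * Real.exp (5 / 8 * (1 - R)) := by gcongr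
      _ = c * Real.exp (5 / 8) := by rw [mul_assoc, ← Real.exp_add]; congr 2; ring
      _ ≤ _ := by nlinarith
  have w0 : Real.exp (5 / 8 * (1 - R)) ≤ 1 := Real.exp_le_one_iff.2 (by linarith)
  have mid1 : ‖1 + ζ‖ * Real.exp (5 / 8 * (1 - R)) ≤ 1 + 2 * c := by
    have n0 : ‖1 + ζ‖ ≤ 1 + ‖ζ‖ := by simpa using norm_add_le 1 ζ
    nlinarith [Real.exp_pos (5 / 8 * (1 - R))]
  have wc : Continuous (neck R ζ).w := by
    have := cl_cont 1 R
    show Continuous fun x => Real.exp (5 / 8 * (cl 1 R |x| - R))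
    fun_prop
  have τi : Integrable (neck R ζ).τ :=
    (ind_int _ _).ofReal.add ((ind_int _ _).ofReal.const_mul ζ)
  have hm : AEStronglyMeasurable (fun r => (neck R ζ).w r * ‖(neck R ζ).τ r‖) volume :=
    wc.aestronglyMeasurable.mul τi.aestronglyMeasurable.norm
  obtain ⟨j1, j2⟩ := int_le_of (f := fun r => ind (-R) R r * (neck R ζ).w r) (a := -R) (b := R)
    (g := fun x => 2 * (Real.exp (5 / 8 * (x - R)) + Real.exp (5 / 8 * (-R - x)))) (by linarith)
    ((ind_int _ _).aestronglyMeasurable.mul wc.aestronglyMeasurable)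
    (fun x => mul_nonneg (ind_nonneg _ _ _) (Real.exp_pos _).le) (by fun_prop) fun x => by
      refine mul_le_mul_of_nonneg_left ?_ (ind_nonneg _ _ _)
      have q : cl 1 R |x| ≤ |x| + 1 := max_le (by linarith [abs_nonneg x])
        ((min_le_left _ _).trans (by linarith))
      have q2 : (neck R ζ).w x ≤ Real.exp (5 / 8) * Real.exp (5 / 8 * (|x| - R)) := by
        rw [← Real.exp_add]; exact ex (by linarith)
      have e3 := Real.exp_pos (5 / 8 * (x - R))
      have e4 := Real.exp_pos (5 / 8 * (-R - x))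
      rcases abs_cases x with ⟨e, _⟩ | ⟨e, _⟩ <;> rw [e] at q2
      · nlinarith
      · rw [show -x - R = -R - x by ring] at q2; nlinarith
  have j3 : ∫ x in (-R)..R, 2 * (Real.exp (5 / 8 * (x - R)) + Real.exp (5 / 8 * (-R - x))) ≤ 8 := by
    rw [intervalIntegral.integral_const_mul, intervalIntegral.integral_add
      (Continuous.intervalIntegrable (by fun_prop) _ _)
      (Continuous.intervalIntegrable (by fun_prop) _ _)]
    have := int_exp_up (δ := 5 / 8) (by norm_num) (-R) R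
    have := int_exp_down (δ := 5 / 8) (by norm_num) (-R) R
    linarith
  have hle : ∀ r, (neck R ζ).w r * ‖(neck R ζ).τ r‖ ≤
      ind (-R) R r * (neck R ζ).w r + 2 * c * ind (-1) 1 r := fun r => by
    rcases neck_τ_cases hR ζ r with ⟨p, q, t⟩ | ⟨p, q, t⟩ | ⟨p, q, t, u⟩ <;> rw [p, q, t]
    · simp
    · simp
    · have n0 : ‖1 + ζ‖ ≤ 1 + ‖ζ‖ := by simpa using norm_add_le 1 ζ
      rw [u]; nlinarith [Real.exp_pos (5 / 8 * (1 - R))]
  have k1 : Integrable fun r => ind (-R) R r * (neck R ζ).w r + 2 * c * ind (-1) 1 r :=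
    j1.add ((ind_int _ _).const_mul _)
  have k2 : Integrable fun r => (neck R ζ).w r * ‖(neck R ζ).τ r‖ :=
    k1.mono' hm (Eventually.of_forall fun r => by
      rw [Real.norm_of_nonneg (mul_nonneg (show 0 ≤ (neck R ζ).w r from (Real.exp_pos _).le)
        (norm_nonneg _))]
      exact hle r)
  have inc : ∀ r s, r ≤ s → 0 ≤ ((neck R ζ).t s - (neck R ζ).t r).re := fun r s h =>
    (abs_nonneg _).trans (neck_lip hR (by linarith) h)
  have p : ∀ r s, r ≤ s →
      (1 : ℝ) ≤ Real.exp (1 / 4 * ((neck R ζ).t s - (neck R ζ).t r).re) * 1 := fun r s hrs => by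
    rw [mul_one]; exact Real.one_le_exp (mul_nonneg (by norm_num) (inc r s hrs))
  refine
    { cont := (cl_contC _ _).add (continuous_const.mul (cl_contC _ _))
      der := fun x => (cl_der (by linarith) x).add ((cl_der (by norm_num) x).const_mul ζ)
      rc := fun x => (ind_rc _ _ x).add (continuousWithinAt_const.mul (ind_rc _ _ x))
      li := fun x y => τi.intervalIntegrable
      left := fun x hx => by
        have hx' : x < -R := hx
        simp [neck, ind_of_lt hx', ind_of_lt (show x < -1 by linarith)]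
      right := fun _ x hx => by
        have hx' : R ≤ x := hx
        simp [neck, ind_of_ge hx', ind_of_ge (show 1 ≤ x by linarith)]
      dec := fun h => absurd h (by simp [neck])
      wc := wc, w0 := fun _ => Real.exp_pos _, w1 := neck_w_le hR ζ
      oc := continuous_const, o0 := fun _ => le_rfl, o1 := fun _ => le_rfl
      slope := fun x => ?_, re0 := fun x => ?_
      wb := fun r s h => ?_, wf := fun r s h => ?_, ob := p, of := p
      mono := fun s r h => ?_, wmin := fun _ x => ?_, int := k2, int_le := ?_ }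
  · rcases neck_τ_cases hR ζ x with ⟨_, _, t⟩ | ⟨_, _, t⟩ | ⟨_, _, t, u⟩ <;> rw [t]
    · simp
    · simpa using (neck_w_le hR ζ x).trans (by linarith)
    · rw [u, Complex.add_re, Complex.one_re]; nlinarith
  · rcases neck_τ_cases hR ζ x with ⟨_, _, t⟩ | ⟨_, _, t⟩ | ⟨_, _, t, _⟩ <;> rw [t] <;> simp
    linarith
  · have q := abs_le.1 (neck_lip hR (ζ := ζ) (by linarith) h)
    have := inc r s h
    show Real.exp _ ≤ _ * Real.exp _
    rw [← Real.exp_add]; exact ex (by linarith [q.1])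
  · have q := abs_le.1 (neck_lip hR (ζ := ζ) (by linarith) h)
    show Real.exp _ ≤ _ * Real.exp _
    rw [← Real.exp_add]; exact ex (by linarith [q.2])
  · have h' : s < r ↔ ¬ 0 < r := by simpa [Pth.up, neck] using h
    have q : |r| ≤ |s| := by
      rcases lt_or_ge 0 r with p | p
      · have q : r ≤ s := not_lt.1 fun q => h'.1 q p
        rw [abs_of_pos p, abs_of_pos (by linarith)]; exact q
      · have q : s < r := h'.2 (not_lt.2 p)
        rw [abs_of_nonpos p, abs_of_nonpos (by linarith)]; linarith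
    exact ex (by linarith [cl_mono 1 R q])
  · exact ex (by
      have : cl 1 R |(0 : ℝ)| ≤ cl 1 R |x| := cl_mono 1 R (by simp)
      show 5 / 8 * (cl 1 R |(0 : ℝ)| - R) ≤ 5 / 8 * (cl 1 R |x| - R)
      gcongr)
  · refine (integral_mono k2 k1 hle).trans ?_
    rw [integral_add j1 ((ind_int _ _).const_mul _), integral_const_mul]
    have : ∫ r, ind (-1) 1 r = 2 := by
      rw [ind_eq, integral_indicator measurableSet_Ico]; simp; norm_num
    rw [this]; linarith

/-- the parameter domain of the neck family -/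
def nU (R c : ℝ) : Set ℂ := {ζ | |ζ.re| < 1 / 2 ∧ ‖ζ‖ < c * Real.exp (5 / 8 * R)}

theorem fam_neck {R c C : ℝ} (hR : 1 ≤ R) (hc : 0 ≤ c) (hC : 10 + 4 * c ≤ C) :
    (neck R 0).Fam (fun ζ => (neck R ζ).t) (fun ζ => (neck R ζ).τ) (nU R c) C 1 where
  op := (isOpen_lt Complex.continuous_re.abs continuous_const).inter
    (isOpen_lt continuous_norm continuous_const)
  ok := fun ζ h => ok_neck (ζ := ζ) hR hc (by linarith [(abs_lt.1 h.1).1]) h.2.le hC
  ht := fun x => by simp only [neck]; fun_prop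
  hτ := fun x => by simp only [neck]; fun_prop
  dom := ⟨1 + c * Real.exp (5 / 8 * R), fun ζ h x => by
    have h1 : |cl (-1) 1 x| ≤ 1 := abs_le.2 ⟨le_cl _ _ _, cl_le (by norm_num) _⟩
    have n0 : ‖1 + ζ‖ ≤ 1 + ‖ζ‖ := by simpa using norm_add_le 1 ζ
    have := norm_nonneg ζ
    constructor
    · have : (neck R ζ).t x - (neck R 0).t x = ζ * cl (-1) 1 x := by simp only [neck]; ring
      rw [this, norm_mul, Complex.norm_real, Real.norm_eq_abs]
      nlinarith [h.2, abs_nonneg (cl (-1) 1 x)]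
    · have e : ((neck R 0).τ x).re = ind (-R) R x := by simp [neck]
      rw [e]
      rcases neck_τ_cases hR ζ x with ⟨p, _, t⟩ | ⟨p, _, t⟩ | ⟨p, _, t, _⟩ <;> rw [p, t] <;>
        simp <;> linarith [h.2]⟩
  base := ok_neck hR hc (by simp; norm_num) (by simp; positivity) hC

/-- the left end piece of the neck -/
theorem ok_left {R c C : ℝ} (hR : 1 ≤ R) (hc : 0 < c) (hc' : c ≤ Real.exp (5 / 8 * (1 - R)))
    (hC : 4 ≤ C) : (str (-R) (-1) (-1) c (5 / 8) fun _ => 1).Ok C 1 := by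
  have q : c * Real.exp (5 / 8 * (R - 1)) ≤ 1 := by
    calc _ ≤ Real.exp (5 / 8 * (1 - R)) * Real.exp (5 / 8 * (R - 1)) := by gcongr
      _ = 1 := by rw [← Real.exp_add, ← Real.exp_zero]; congr 1; ring
  have q2 : c ≤ 1 := hc'.trans (Real.exp_le_one_iff.2 (by linarith))
  exact ok_str_const (by linarith) le_rfl hc (by norm_num) (Or.inl le_rfl)
    (by rw [show -1 - -R = R - 1 by ring]; exact q) (by simpa using q2) (by linarith)
    (Or.inl ⟨by norm_num, by linarith⟩) zero_le_one le_rfl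

/-- the right end piece of the neck -/
theorem ok_right {R c C : ℝ} (hR : 1 ≤ R) (hc : 0 < c) (hc' : c ≤ Real.exp (5 / 8 * (1 - R)))
    (hC : 4 ≤ C) : (str 1 R 1 c (5 / 8) fun _ => 1).Ok C 1 := by
  have q : c * Real.exp (5 / 8 * (R - 1)) ≤ 1 := by
    calc _ ≤ Real.exp (5 / 8 * (1 - R)) * Real.exp (5 / 8 * (R - 1)) := by gcongr
      _ = 1 := by rw [← Real.exp_add, ← Real.exp_zero]; congr 1; ring
  have q2 : c ≤ 1 := hc'.trans (Real.exp_le_one_iff.2 (by linarith))
  exact ok_str_const le_rfl hR hc (by norm_num) (Or.inl le_rfl) (by simpa using q2) q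
    (by linarith) (Or.inl ⟨by norm_num, by linarith⟩) zero_le_one le_rfl

end Crest.Agent.N207.L
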