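import Crest.Agent.N207.L.Xc
import Crest.Agent.N207.J.Dul

/-!
Row 207, block L (helper82), lemma X: a bounded holomorphic function whose iterated `2πi`
differences decay has an exponential polynomial expansion on a logarithmic domain.
-/

set_option autoImplicit false

open Complex Set Filter Topology
open scoped Real

noncomputable section

namespace Crest.Agent.N207.L

variable {E : Type*} [NormedAddCommGroup E] [NormedSpace ℂ E]

/-- the exponentially wide domain -/
def Wd (R0 c δ : ℝ) : Set ℂ := {l | R0 < l.re ∧ |l.im| < c * Real.exp (δ * l.re)}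

namespace X

omit [NormedSpace ℂ E] in
lemma newton (M : ℕ) : ∀ (v : ℕ → E) (A : ℝ) (n : ℕ), 0 ≤ A → (∀ m < M, ‖v m‖ ≤ A) →
    (∀ m, m + M ≤ n → ‖(fwdDiff 1)^[M] v m‖ ≤ A) → ‖v n‖ ≤ 2 ^ M * A * (1 + n) ^ M := by
  induction M with
  | zero => intro v A n _ _ h; simpa using h n (by simp)
  | succ M ih =>
    intro v A n hA h1 h2
    have hw : ∀ m < n, ‖fwdDiff 1 v m‖ ≤ 2 ^ M * (2 * A) * (1 + n) ^ M := fun m hm => by
      refine (ih (fwdDiff 1 v) (2 * A) m (by linarith) (fun k hk => ?_) fun k hk => ?_).trans ?_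
      · refine (norm_sub_le _ _).trans ?_
        linarith [h1 (k + 1) (by omega), h1 k (by omega)]
      · exact (h2 k (by omega)).trans (by linarith)
      · have : (m : ℝ) ≤ n := by exact_mod_cast hm.le
        gcongr
    have e : v n = v 0 + ∑ m ∈ Finset.range n, fwdDiff 1 v m := by
      simp only [fwdDiff]; rw [Finset.sum_range_sub]; abel
    have h3 : ‖∑ m ∈ Finset.range n, fwdDiff 1 v m‖ ≤ n * (2 ^ M * (2 * A) * (1 + n) ^ M) := by
      refine (norm_sum_le _ _).trans ?_
      simpa using Finset.sum_le_card_nsmul _ _ _ fun m hm => hw m (Finset.mem_range.1 hm)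
    have h4 : A ≤ 2 ^ M * (2 * A) * (1 + n) ^ M := by
      have p1 : (1 : ℝ) ≤ 2 ^ M := one_le_pow₀ (by norm_num)
      have p2 : (1 : ℝ) ≤ (1 + n) ^ M := one_le_pow₀ (by linarith [Nat.cast_nonneg (α := ℝ) n])
      calc A ≤ 1 * (2 * A) * 1 := by linarith
        _ ≤ _ := by gcongr
    rw [e]
    refine (norm_add_le _ _).trans ?_
    have h5 := h1 0 (Nat.succ_pos M)
    calc _ ≤ 2 ^ M * (2 * A) * (1 + n) ^ M + n * (2 ^ M * (2 * A) * (1 + n) ^ M) := by linarith
      _ = _ := by ring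

omit [NormedSpace ℂ E] in
lemma iter_up (M : ℕ) : ∀ (u : ℂ → E) (z : ℂ) (m : ℕ),
    (fwdDiff 1)^[M] (fun m : ℕ => u (z + m * pr)) m = (fwdDiff pr)^[M] u (z + m * pr) := by
  induction M with
  | zero => intros; rfl
  | succ M ih =>
    intro u z m
    rw [Function.iterate_succ_apply, Function.iterate_succ_apply, ← ih]
    have e : fwdDiff 1 (fun m : ℕ => u (z + m * pr)) = fun m : ℕ => fwdDiff pr u (z + m * pr) := by
      funext k
      simp only [fwdDiff]; congr 2; push_cast; ring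
    rw [e]

lemma iter_down (M : ℕ) : ∀ (u : ℂ → E) (z : ℂ) (m : ℕ),
    ‖(fwdDiff 1)^[M] (fun m : ℕ => u (z - m * pr)) m‖ =
      ‖(fwdDiff pr)^[M] u (z - (m + M : ℕ) * pr)‖ := by
  induction M with
  | zero => intros; rfl
  | succ M ih =>
    intro u z m
    rw [Function.iterate_succ_apply, Function.iterate_succ_apply]
    have e : fwdDiff 1 (fun m : ℕ => u (z - m * pr)) =
        fun m : ℕ => ((-1 : ℂ) • fwdDiff pr u) (z - pr - m * pr) := by
      funext k
      simp only [fwdDiff, Pi.smul_apply, neg_smul, one_smul, neg_sub]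
      rw [show z - pr - k * pr + pr = z - k * pr by ring,
        show z - ((k + 1 : ℕ) : ℂ) * pr = z - pr - k * pr by push_cast; ring]
    rw [e, ih, fwdDiff_iter_const_smul, Pi.smul_apply, norm_smul, norm_neg, norm_one, one_mul]
    congr 2; push_cast; ring

lemma iter_exp_smul (M k : ℕ) : ∀ f : ℂ → E, (fwdDiff pr)^[M] (fun l => exp (-k * l) • f l) =
    fun l => exp (-k * l) • (fwdDiff pr)^[M] f l := by
  induction M with
  | zero => intro f; rfl
  | succ M ih =>
    intro f
    rw [Function.iterate_succ_apply, Function.iterate_succ_apply, ← ih]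
    congr 1; funext l
    have e := exp_pr (-k) l
    push_cast at e
    simp only [fwdDiff, e, smul_sub]

lemma iter_pf (d : ℕ) : ∀ (M : ℕ) (c : ℕ → E), d ≤ M → (fwdDiff pr)^[M] (pf d c) = 0 := by
  induction d with
  | zero =>
    intro M c _
    have : pf 0 c = (0 : ℂ) • pf 0 c := by funext l; simp [pf]
    rw [this, fwdDiff_iter_const_smul, zero_smul]
  | succ d ih =>
    intro M c hM
    obtain ⟨M, rfl⟩ : ∃ M', M = M' + 1 := ⟨M - 1, by omega⟩
    rw [Function.iterate_succ_apply]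
    have e : fwdDiff pr (pf (d + 1) c) = pf d fun i => ∑ j ∈ Finset.range (d + 1),
        if i < j then (pr ^ (j - i) * (j.choose i : ℂ)) • c j else 0 := by
      funext l
      simp only [fwdDiff, pf, Finset.smul_sum]
      rw [← Finset.sum_sub_distrib, Finset.sum_comm]
      refine Finset.sum_congr rfl fun j hj => ?_
      have hj' : j ≤ d := Nat.lt_succ_iff.1 (Finset.mem_range.1 hj)
      rw [add_pow, Finset.sum_range_succ, add_smul, Finset.sum_smul]
      simp only [Nat.sub_self, pow_zero, mul_one, Nat.choose_self, Nat.cast_one,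
        add_sub_cancel_right, smul_ite, smul_zero]
      rw [← Finset.sum_filter]
      refine Finset.sum_congr ?_ fun i _ => by rw [mul_assoc, mul_smul]
      ext i; simp only [Finset.mem_range, Finset.mem_filter]; omega
    rw [e]
    exact ih M _ (by omega)

lemma iter_ep {K M : ℕ} {d : ℕ → ℕ} (h : ∀ k < K, d k ≤ M) (c : ℕ → ℕ → E) :
    (fwdDiff pr)^[M] (ep K d c) = 0 := by
  have e : ep K d c = ∑ k ∈ Finset.range K, fun l => exp (-k * l) • pf (d k) (c k) l := by
    funext l; simp [ep]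
  rw [e, fwdDiff_iter_finsetSum]
  refine Finset.sum_eq_zero fun k hk => ?_
  rw [iter_exp_smul, iter_pf _ _ _ (h k (Finset.mem_range.1 hk))]
  funext l; simp

lemma strip_sub {R0 c δ : ℝ} (hc : 0 < c) (hδ : 0 < δ) (Y : ℝ) :
    ∃ R, ∀ l : ℂ, R < l.re → |l.im| < Y → l ∈ Wd R0 c δ := by
  refine ⟨max R0 (Y / (c * δ)), fun l h1 h2 => ⟨lt_of_le_of_lt (le_max_left _ _) h1, ?_⟩⟩
  have h3 := lt_of_le_of_lt (le_max_right _ _) h1
  rw [div_lt_iff₀ (by positivity)] at h3
  have := Real.add_one_le_exp (δ * l.re)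
  nlinarith

lemma pf_ext {d d' : ℕ} (h : d ≤ d') (c : ℕ → E) (l : ℂ) :
    pf d' (fun j => if j < d then c j else 0) l = pf d c l := by
  unfold pf
  simp only [smul_ite, smul_zero]
  rw [← Finset.sum_filter]
  refine Finset.sum_congr ?_ fun _ _ => rfl
  ext i; simp only [Finset.mem_range, Finset.mem_filter]; omega

/-- coefficients independent of the order -/
theorem exists_co [CompleteSpace E] {D : ℕ} (hD : 0 < D) {N : ℂ → E} (hN : Hol N) (hb : Bd 0 N)
    (hM : ∀ M : ℕ, Bd (M / D) ((fwdDiff pr)^[M] N)) : ∃ co : ℕ → ℕ → E, ∀ K : ℕ,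
      Sm (K + 1 / D) fun l => N l - ep (K + 1) (fun k => D * k + 1) co l := by
  have hD1 : (1 : ℝ) ≤ D := by exact_mod_cast hD
  have q1 : (0 : ℝ) < 1 / D := by positivity
  have q2 : (1 : ℝ) / D ≤ 1 := by rw [div_le_one (by linarith)]; exact hD1
  have key : ∀ K : ℕ, ∃ c : ℕ → ℕ → E,
      Sm (K + 1 / D) fun l => N l - ep (K + 1) (fun _ => D * K + 1) c l := fun K =>
    iter_exp (by linarith) (by linarith) _ N hN (hb.mono (by norm_num)) fun b hb =>
      (hM (D * K + 1)).mono (by push_cast; rw [add_div, mul_div_cancel_left₀ _ (by linarith)]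
                                exact hb.le)
  choose c hc using key
  refine ⟨fun k => c k k, fun K => ?_⟩
  induction K with
  | zero => simpa [ep] using hc 0
  | succ K ih =>
    have h1 := hc (K + 1)
    have h2 : ∀ k < K + 1, ∀ j < D * (K + 1) + 1,
        c (K + 1) k j - (if j < D * k + 1 then c k k j else 0) = 0 := by
      refine ep_eq_zero (K + 1) (K + 1 / D) (fun _ => D * (K + 1) + 1) _ (by push_cast; linarith)
        fun b hb => ?_
      have h3 := ((ih b hb).sub (h1 b (by push_cast; linarith))).sub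
        (term_bd (b := b) (K + 1) (D * (K + 1) + 1) (c (K + 1) (K + 1)) (by push_cast; linarith))
      convert h3 using 2 with l
      unfold ep
      rw [Finset.sum_range_succ _ (K + 1), sub_sub_sub_cancel_left, add_sub_right_comm,
        add_sub_cancel_right, ← Finset.sum_sub_distrib]
      refine Finset.sum_congr rfl fun k hk => ?_
      rw [← smul_sub]
      congr 1
      have hk' : D * k + 1 ≤ D * (K + 1) + 1 :=
        Nat.succ_le_succ (Nat.mul_le_mul_left _ (Finset.mem_range.1 hk).le)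
      rw [← pf_ext hk']
      unfold pf
      simp only [smul_sub, Finset.sum_sub_distrib]
    convert h1 using 3 with l
    unfold ep
    rw [Finset.sum_range_succ _ (K + 1), Finset.sum_range_succ _ (K + 1)]
    congr 1
    refine Finset.sum_congr rfl fun k hk => ?_
    congr 1
    have hk' : D * k + 1 ≤ D * (K + 1) + 1 :=
      Nat.succ_le_succ (Nat.mul_le_mul_left _ (Finset.mem_range.1 hk).le)
    show pf (D * k + 1) (c k k) l = pf (D * (K + 1) + 1) (c (K + 1) k) l
    rw [← pf_ext hk']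
    unfold pf
    refine Finset.sum_congr rfl fun j hj => ?_
    rw [sub_eq_zero.1 (h2 k (Finset.mem_range.1 hk) j (Finset.mem_range.1 hj))]

lemma om_facts {C0 : ℝ} (hC : 0 < C0) {l : ℂ} (hl : l ∈ J.Om C0) :
    C0 < l.re ∧ 1 + ‖l‖ < Real.exp (l.re / C0) := by
  have h1 : 0 ≤ Real.log (1 + ‖l‖) := Real.log_nonneg (by linarith [norm_nonneg l])
  have h2 : C0 * (1 + Real.log (1 + ‖l‖)) < l.re := hl
  refine ⟨by nlinarith, ?_⟩
  rw [← Real.log_lt_iff_lt_exp (by positivity), lt_div_iff₀ hC]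
  nlinarith

lemma ep_le {C0 : ℝ} (hC : 0 < C0) (K : ℕ) (d : ℕ → ℕ) (c : ℕ → ℕ → E) (R : ℝ) :
    ∃ B, ∀ l ∈ J.Om C0, l.re ≤ R → ‖ep K d c l‖ ≤ B := by
  obtain ⟨B, hB⟩ := (isCompact_closedBall (0 : ℂ) (Real.exp (R / C0))).exists_bound_of_continuousOn
    (ep_diff K d c).continuous.continuousOn
  refine ⟨B, fun l hl h => hB l ?_⟩
  have h1 := (om_facts hC hl).2
  have h2 : Real.exp (l.re / C0) ≤ Real.exp (R / C0) := by gcongr
  rw [mem_closedBall_zero_iff]; linarith

omit [NormedSpace ℂ E] in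
/-- vertical summation from the base strip -/
lemma vertical [NormedSpace ℂ E] {u : ℂ → E} {M : ℕ} {l : ℂ} {A : ℝ} (hA : 0 ≤ A)
    (h1 : ∀ z : ℂ, z.re = l.re → |z.im| < 7 * (M + 1) → ‖u z‖ ≤ A)
    (h2 : ∀ z : ℂ, z.re = l.re → (∀ n ≤ M, |(z + n * pr).im| ≤ |l.im|) →
      ‖(fwdDiff pr)^[M] u z‖ ≤ A) : ‖u l‖ ≤ 2 ^ M * A * (1 + ‖l‖) ^ M := by
  have hp := Real.pi_gt_three
  have hp' := Real.pi_lt_d2
  set n := ⌊|l.im| / (2 * π)⌋₊ with hn
  have n1 : (n : ℝ) * (2 * π) ≤ |l.im| := by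
    rw [← le_div_iff₀ (by positivity)]; exact Nat.floor_le (by positivity)
  have n2 : |l.im| < (n + 1) * (2 * π) := by
    rw [← div_lt_iff₀ (by positivity)]; exact Nat.lt_floor_add_one _
  have n3 : (n : ℝ) ≤ ‖l‖ := by
    have := abs_im_le_norm l
    nlinarith [Nat.cast_nonneg (α := ℝ) n]
  have imp : ∀ (z : ℂ) (m : ℕ), (z + m * pr).im = z.im + m * (2 * π) := fun z m => by simp [pr]
  have imm : ∀ (z : ℂ) (m : ℕ), (z - m * pr).im = z.im - m * (2 * π) := fun z m => by simp [pr]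
  have rep : ∀ (z : ℂ) (m : ℕ), (z + m * pr).re = z.re := fun z m => by simp [pr]
  have rem : ∀ (z : ℂ) (m : ℕ), (z - m * pr).re = z.re := fun z m => by simp [pr]
  refine le_trans ?_ (by gcongr : 2 ^ M * A * (1 + (n : ℝ)) ^ M ≤ 2 ^ M * A * (1 + ‖l‖) ^ M)
  rcases le_total 0 l.im with h | h
  · rw [abs_of_nonneg h] at n1 n2 h2
    have := newton M (fun m : ℕ => u (l - n * pr + m * pr)) A n hA (fun m hm => ?_) fun m hm => ?_
    · simpa using this
    · have hm' : (m : ℝ) + 1 ≤ M := by exact_mod_cast hm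
      refine h1 _ (by rw [rep, rem]) ?_
      rw [imp, imm, abs_lt]
      constructor <;> nlinarith [Nat.cast_nonneg (α := ℝ) m]
    · rw [iter_up]
      refine h2 _ (by rw [rep, rem]) fun k hk => ?_
      have hk' : (m : ℝ) + k ≤ n := by exact_mod_cast (by omega : m + k ≤ n)
      rw [imp, imp, imm, abs_le]
      constructor <;> nlinarith [Nat.cast_nonneg (α := ℝ) m, Nat.cast_nonneg (α := ℝ) k]
  · rw [abs_of_nonpos h] at n1 n2 h2
    have := newton M (fun m : ℕ => u (l + n * pr - m * pr)) A n hA (fun m hm => ?_) fun m hm => ?_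
    · simpa using this
    · have hm' : (m : ℝ) + 1 ≤ M := by exact_mod_cast hm
      refine h1 _ (by rw [rem, rep]) ?_
      rw [imm, imp, abs_lt]
      constructor <;> nlinarith [Nat.cast_nonneg (α := ℝ) m]
    · rw [iter_down]
      refine h2 _ (by rw [rem, rep]) fun k hk => ?_
      have hk' : (m : ℝ) + M ≤ n := by exact_mod_cast hm
      have hk2 : (k : ℝ) ≤ M := by exact_mod_cast hk
      rw [imp, imm, imp, abs_le]
      push_cast
      constructor <;> nlinarith [Nat.cast_nonneg (α := ℝ) m, Nat.cast_nonneg (α := ℝ) k]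

end X

open X in
/-- **Lemma X** -/
theorem lemX [CompleteSpace E] {D : ℕ} (hD : 0 < D) {R0 c δ : ℝ} (hc : 0 < c) (hδ : 0 < δ)
    {N : ℂ → E} (hd : DifferentiableOn ℂ N (Wd R0 c δ)) {B : ℝ}
    (hB : ∀ l ∈ Wd R0 c δ, ‖N l‖ ≤ B)
    (hM : ∀ M : ℕ, ∃ C R : ℝ, ∀ l : ℂ, R ≤ l.re →
      (∀ n ≤ M, l + n * (2 * π * I) ∈ Wd R0 c δ) →
      ‖(fwdDiff (2 * π * I))^[M] N l‖ ≤ C * Real.exp (-(M * l.re) / D)) :
    ∃ (C0 : ℝ) (co : ℕ → ℕ → E), 0 < C0 ∧ J.Om C0 ⊆ Wd R0 c δ ∧ ∀ K : ℕ, ∃ B' : ℝ,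
      ∀ l ∈ J.Om C0, ‖N l - ∑ k ∈ Finset.range K, ∑ j ∈ Finset.range (D * k + 1),
        (exp (-k * l) * l ^ j) • co k j‖ ≤ B' * Real.exp (-(K * l.re) / 2) := by
  have hD1 : (1 : ℝ) ≤ D := by exact_mod_cast hD
  have hp := Real.pi_gt_three
  have hp' := Real.pi_lt_d2
  have hN : Hol N := fun Y => by
    obtain ⟨R, h⟩ := strip_sub (R0 := R0) hc hδ Y
    exact ⟨R, hd.mono fun l hl => h l hl.1 hl.2⟩
  have hb : Bd 0 N := fun Y => by
    obtain ⟨R, h⟩ := strip_sub (R0 := R0) hc hδ Y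
    exact ⟨R, B, fun l hl => by simpa using hB l (h l hl.1 hl.2)⟩
  obtain ⟨co, hco⟩ := exists_co hD hN hb fun M Y => by
    obtain ⟨C, R, h⟩ := hM M
    obtain ⟨R', h'⟩ := strip_sub (R0 := R0) hc hδ (Y + 7 * M)
    refine ⟨max R R', C, fun l hl => ?_⟩
    rw [show -((M : ℝ) / D) * l.re = -(M * l.re) / D by ring]
    refine h l ((le_max_left _ _).trans hl.1.le) fun n hn => h' _ ?_ ?_
    · simpa using lt_of_le_of_lt (le_max_right _ _) hl.1
    · have hn' : (n : ℝ) ≤ M := by exact_mod_cast hn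
      have e : (l + n * (2 * π * I)).im = l.im + n * (2 * π) := by simp
      have := abs_lt.1 hl.2
      rw [e, abs_lt]
      constructor <;> nlinarith [Nat.cast_nonneg (α := ℝ) n]
  obtain ⟨C0, c1, c2, c3, c4⟩ : ∃ C0 : ℝ, R0 ≤ C0 ∧ 4 * D ≤ C0 ∧ 2 / δ ≤ C0 ∧ 2 / (δ * c) ≤ C0 :=
    ⟨max (max R0 (4 * D)) (max (2 / δ) (2 / (δ * c))), by simp, by simp, by simp, by simp⟩
  have hC0 : 0 < C0 := by linarith
  have hW : ∀ l ∈ J.Om C0, ∀ z : ℂ, z.re = l.re → |z.im| ≤ |l.im| → z ∈ Wd R0 c δ := by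
    intro l hl z h1 h2
    obtain ⟨f1, f2⟩ := om_facts hC0 hl
    refine ⟨by linarith, ?_⟩
    rw [h1]
    have f3 : l.re / C0 ≤ δ * l.re / 2 := by
      rw [div_le_iff₀ hδ] at c3
      rw [div_le_iff₀ hC0]; nlinarith
    have f4 : 1 ≤ c * Real.exp (δ * l.re / 2) := by
      rw [div_le_iff₀ (by positivity)] at c4
      have := Real.add_one_le_exp (δ * l.re / 2)
      have h5 : C0 * (δ * c) ≤ l.re * (δ * c) := by gcongr
      nlinarith
    have f5 : Real.exp (l.re / C0) ≤ Real.exp (δ * l.re / 2) := Real.exp_le_exp.2 f3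
    have f6 : Real.exp (δ * l.re) = Real.exp (δ * l.re / 2) * Real.exp (δ * l.re / 2) := by
      rw [← Real.exp_add]; congr 1; ring
    have := abs_im_le_norm l
    rw [f6]
    nlinarith [Real.exp_pos (δ * l.re / 2)]
  refine ⟨C0, co, hC0, fun l hl => hW l hl l rfl le_rfl, fun K => ?_⟩
  have eS : ∀ l, ∑ k ∈ Finset.range K, ∑ j ∈ Finset.range (D * k + 1),
      (exp (-k * l) * l ^ j) • co k j = ep K (fun k => D * k + 1) co l := fun l => by
    simp only [ep, pf, Finset.smul_sum, mul_smul]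
  simp only [eS]
  rcases Nat.eq_zero_or_pos K with rfl | hK
  · exact ⟨B, fun l hl => by simpa [ep] using hB l (hW l hl l rfl le_rfl)⟩
  have hK1 : (1 : ℝ) ≤ K := by exact_mod_cast hK
  have q1 : (0 : ℝ) < 1 / D := by positivity
  set u : ℂ → E := fun l => N l - ep K (fun k => D * k + 1) co l with hu
  have hu1 : Bd (3 * K / 4) u := by
    convert (hco K _ (by linarith)).add (term_bd (b := 3 * K / 4) K (D * K + 1) (co K)
      (by linarith)) using 2 with l
    simp only [hu, ep, Finset.sum_range_succ]; abel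
  have hu2 : (fwdDiff pr)^[D * K] u = (fwdDiff pr)^[D * K] N := by
    have e : u = N + (-1 : ℂ) • ep K (fun k => D * k + 1) co := by
      funext l; simp [hu, sub_eq_add_neg]
    rw [e, fwdDiff_iter_add, fwdDiff_iter_const_smul, iter_ep, smul_zero, add_zero]
    intro k hk
    calc D * k + 1 ≤ D * k + D := by omega
      _ = D * (k + 1) := by ring
      _ ≤ D * K := Nat.mul_le_mul_left _ hk
  obtain ⟨R1, C1, -, hC1, h1⟩ := hu1.pos (7 * ((D * K : ℕ) + 1))
  obtain ⟨C2, R2, h2⟩ := hM (D * K)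
  obtain ⟨B3, h3⟩ := ep_le hC0 K (fun k => D * k + 1) co (max R1 R2)
  refine ⟨max (2 ^ (D * K) * max C1 C2) ((B + B3) * Real.exp (K * max R1 R2 / 2)),
    fun l hl => ?_⟩
  obtain ⟨f1, f2⟩ := om_facts hC0 hl
  rcases le_or_gt l.re (max R1 R2) with h | h
  · refine le_trans ?_ (mul_le_mul_of_nonneg_right (le_max_right _ _) (Real.exp_pos _).le)
    have f3 := (norm_sub_le _ _).trans (add_le_add (hB l (hW l hl l rfl le_rfl)) (h3 l hl h))
    have f4 : 1 ≤ Real.exp (K * max R1 R2 / 2) * Real.exp (-(K * l.re) / 2) := by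
      rw [← Real.exp_add]; apply Real.one_le_exp; nlinarith
    have f5 : 0 ≤ B + B3 := (norm_nonneg _).trans f3
    rw [mul_assoc]; nlinarith
  · refine le_trans ?_ (mul_le_mul_of_nonneg_right (le_max_left _ _) (Real.exp_pos _).le)
    have hA : 0 ≤ max C1 C2 := hC1.trans (le_max_left _ _)
    have f3 := vertical (u := u) (M := D * K) (l := l)
      (A := max C1 C2 * Real.exp (-(3 * K / 4) * l.re)) (by positivity) (fun z e1 e2 => by
        refine (h1 z ⟨by rw [e1]; exact lt_of_le_of_lt (le_max_left _ _) h, e2⟩).trans ?_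
        rw [e1]; gcongr; exact le_max_left _ _) (fun z e1 e2 => by
        rw [hu2]
        refine (h2 z (by rw [e1]; exact (le_max_right _ _).trans h.le) fun n hn =>
          hW l hl _ (by simpa using e1) (e2 n hn)).trans ?_
        rw [e1]
        calc _ ≤ max C1 C2 * Real.exp (-((D * K : ℕ) * l.re) / D) := by
              gcongr; exact le_max_right _ _
          _ ≤ _ := by
              gcongr
              push_cast
              rw [mul_assoc, neg_div, mul_div_cancel_left₀ _ (by linarith)]; nlinarith)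
    refine f3.trans ?_
    have f4 : (1 + ‖l‖) ^ (D * K) ≤ Real.exp (K * l.re / 4) := by
      calc _ ≤ Real.exp (l.re / C0) ^ (D * K) := by gcongr
        _ = Real.exp ((D * K : ℕ) * (l.re / C0)) := (Real.exp_nat_mul _ _).symm
        _ ≤ _ := by
          gcongr
          push_cast
          rw [mul_div_assoc', div_le_iff₀ hC0]
          have : 0 ≤ K * l.re := by nlinarith
          nlinarith
    calc _ ≤ 2 ^ (D * K) * (max C1 C2 * Real.exp (-(3 * K / 4) * l.re)) *
          Real.exp (K * l.re / 4) := by gcongr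
      _ = 2 ^ (D * K) * max C1 C2 * (Real.exp (-(3 * K / 4) * l.re) *
          Real.exp (K * l.re / 4)) := by ring
      _ = _ := by rw [← Real.exp_add]; congr 2; ring

end Crest.Agent.N207.L
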