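import Crest.Agent.N207.L.Cmp
import Crest.Agent.N207.L.Inst2
import Crest.Agent.N207.L.Inst3
import Crest.Agent.N207.L.Xd
import Crest.Agent.N207.J.Glue1

/-! # N207/L/Nk0 (helper80): statements `PolyStmt`, `NeckStmt`; boxes on a single path -/

set_option autoImplicit false
set_option linter.unusedSectionVars false
open Set Filter Topology Metric Complex
open scoped Real

noncomputable section

namespace Crest.Agent.N207.L
open J

variable {ι : Type} [Fintype ι]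

/-- data `(A, B)` -/
abbrev DD (ι : Type) := (ι → D) × (ι → D)
/-- outputs: `p` at the left end, `q` at the right end, `p` at the right end -/
abbrev D3 (ι : Type) := (ι → D) × (ι → D) × (ι → D)

/-- componentwise application -/
def piL {A B : Type} [NormedAddCommGroup A] [NormedSpace ℂ A] [NormedAddCommGroup B]
    [NormedSpace ℂ B] (T : A →L[ℂ] B) : (ι → A) →L[ℂ] (ι → B) :=
  ContinuousLinearMap.pi fun i => T.comp (ContinuousLinearMap.proj i)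

section
variable {A B : Type} [NormedAddCommGroup A] [NormedSpace ℂ A] [NormedAddCommGroup B]
  [NormedSpace ℂ B]

@[simp] theorem piL_apply (T : A →L[ℂ] B) (v : ι → A) (i : ι) : piL T v i = T (v i) := rfl

theorem norm_piL_le {T : A →L[ℂ] B} (h : ∀ a, ‖T a‖ ≤ ‖a‖) (v : ι → A) : ‖piL T v‖ ≤ ‖v‖ :=
  (pi_norm_le_iff_of_nonneg (norm_nonneg _)).2 fun i => (h _).trans (norm_le_pi_norm v i)

end

/-- traces of `p` at `x` -/
def trP (x : ℝ) : Tr ι →L[ℂ] (ι → D) := (piL (trc x)).comp (ContinuousLinearMap.fst ℂ _ _)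

/-- traces of `q` at `x` -/
def trQ (x : ℝ) : Tr ι →L[ℂ] (ι → D) :=
  (piL (trc x)).comp ((ContinuousLinearMap.fst ℂ _ _).comp (ContinuousLinearMap.snd ℂ _ _))

theorem trP_apply (x : ℝ) (S : Tr ι) (i : ι) : trP x S i = trc x (S.1 i) := rfl
theorem trQ_apply (x : ℝ) (S : Tr ι) (i : ι) : trQ x S i = trc x (S.2.1 i) := rfl

theorem norm_trP_le (x : ℝ) (S : Tr ι) : ‖trP x S‖ ≤ ‖S‖ :=
  (norm_piL_le (norm_trc_le x) S.1).trans (norm_fst_le S)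

theorem norm_trQ_le (x : ℝ) (S : Tr ι) : ‖trQ x S‖ ≤ ‖S‖ :=
  (norm_piL_le (norm_trc_le x) S.2.1).trans ((norm_fst_le S.2).trans (norm_snd_le S))

/-- the outputs of a piece `[a, b]` -/
def outL (a b : ℝ) : Tr ι →L[ℂ] D3 ι := (trP a).prod ((trQ b).prod (trP b))

theorem outL_apply (a b : ℝ) (S : Tr ι) : outL a b S = (trP a S, trQ b S, trP b S) := rfl

theorem norm_outL_le (a b : ℝ) (S : Tr ι) : ‖outL a b S‖ ≤ ‖S‖ :=
  max_le (norm_trP_le a S) (max_le (norm_trQ_le b S) (norm_trP_le b S))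

/-- no constant mode at the base point -/
def killB : DD ι →L[ℂ] DD ι :=
  (ContinuousLinearMap.fst ℂ _ _).prod ((piL kill).comp (ContinuousLinearMap.snd ℂ _ _))

theorem killB_apply (v : DD ι) : killB v = (v.1, piL kill v.2) := rfl

theorem norm_killB_le (v : DD ι) : ‖killB v‖ ≤ ‖v‖ :=
  max_le (norm_fst_le v) ((norm_piL_le norm_kill_le v.2).trans (norm_snd_le v))

/-- a stored solution with data `v` -/
structure IsSol (N : NL ι) (γ : Pth) (K : ℝ) (v : DD ι) (S : Tr ι) : Prop where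
  le : ‖S‖ ≤ K * ‖v‖
  le2 : ‖S.2.2‖ ≤ K * ‖v‖ ^ 2
  sol : Sol N γ.τ γ.w γ.om (K * ‖v‖) (S.p γ) (S.q γ) (S.F γ)
  dat : Dat γ (S.p γ) (S.q γ) v.1 v.2

/-- the conclusion of `Exi` on a single path -/
structure Box (N : NL ι) (γ : Pth) (ε K : ℝ) (S : DD ι → Tr ι) : Prop where
  diff : DifferentiableOn ℂ S (ball 0 ε)
  sol : ∀ v ∈ ball (0 : DD ι) ε, IsSol N γ K v (S v)

theorem Exi.box {N : NL ι} {C o ε K M : ℝ} (h : Exi N C o ε K) {γ : Pth} (hγ : γ.Ok C o)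
    (hM : ∀ x, ‖γ.τ x‖ ≤ M * (γ.τ x).re) : ∃ S, Box N γ ε K S := by
  obtain ⟨S, h1, h2⟩ := h ℂ γ _ _ univ (hγ.fam hM ℂ)
  refine ⟨fun v => S (0, v), h1.comp (by fun_prop) fun v hv => ⟨mem_univ _, hv⟩, fun v hv => ?_⟩
  obtain ⟨a, b, c, d⟩ := h2 0 (mem_univ _) v hv
  exact ⟨a, b, c, d⟩

/-- POLY: differences in the length of the middle piece vanish to high order in the data -/
def PolyStmt (N : NL ι) : Prop :=
  ∀ (C o ε K w0 : ℝ) (ζ : ℂ) (r : ℕ) (S : ℕ → DD ι → Tr ι), 0 < o → 1 ≤ r →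
    (∀ n ≤ r, ((mid (ζ + n * (2 * π * I)) w0).omc o).Ok C o ∧
      Box N ((mid (ζ + n * (2 * π * I)) w0).omc o) ε K (S n)) →
    ∀ v ∈ ball (0 : DD ι) ε,
      (fun s : ℂ => dif r fun n => outL (-1) 1 (S n (s • v))) =o[𝓝 0] fun s => ‖s‖ ^ r

/-- the one-neck scattering map (half length `l`, constant analytic weight `o`) -/
structure Neck (N : NL ι) (o ε K R0 : ℝ) (Nm : ℂ → DD ι → D3 ι) : Prop where
  diff : DifferentiableOn ℂ (fun p : ℂ × DD ι => Nm p.1 p.2) (Wd R0 1 (1 / 8) ×ˢ ball 0 ε)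
  le : ∀ l ∈ Wd R0 1 (1 / 8), ∀ v ∈ ball (0 : DD ι) ε, ‖Nm l v‖ ≤ K * ‖v‖
  dif : ∀ M : ℕ, ∃ C R : ℝ, ∀ l : ℂ, R ≤ l.re → (∀ n ≤ M, l + n * (2 * π * I) ∈ Wd R0 1 (1 / 8)) →
    ∀ v ∈ ball (0 : DD ι) ε,
      ‖(fwdDiff (2 * π * I))^[M] (fun l => Nm l v) l‖ ≤ C * Real.exp (-(M * l.re) / 2)
  real : ∀ l : ℝ, R0 < l → ∀ v ∈ ball (0 : DD ι) ε, ∃ S : Tr ι,
    IsSol N ((neck l 0).omc o) K (killB v) S ∧ Nm l v = outL (-l) l S

def NeckStmt (N : NL ι) : Prop := ∀ o : ℝ, 0 < o → o ≤ 1 →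
  ∃ (ε K R0 : ℝ) (Nm : ℂ → DD ι → D3 ι), 0 < ε ∧ 1 ≤ K ∧ 1 ≤ R0 ∧ Neck N o ε K R0 Nm

end Crest.Agent.N207.L
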