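import Crest.Agent.N207.CB.St2
import Crest.Agent.N207.L.Br1

/-! # N207/L/Inv (helper19): real, symmetric, `Γ`-invariant mode data -/

set_option autoImplicit false
open Set Filter Topology

noncomputable section

namespace Crest.Agent.N207.L
open J I

/-- the matrix of an isometry -/
def gm (γ : Iso4) (c a : Fin 4) : ℝ := γ (ee a) c

/-- real, symmetric, `Γ`-invariant functions on the sphere -/
structure InvC (Γ : Subgroup Iso4) (v : (Fin 4 × Fin 4) ⊕ Unit → CS) : Prop where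
  re : ∀ i, star (v i) = v i
  sy : ∀ a b, v (.inl (a, b)) = v (.inl (b, a))
  rot : ∀ γ ∈ Γ, ∀ a b, v (.inl (a, b)) =
    ∑ c, ∑ d, ((gm γ c a * gm γ d b : ℝ) : ℂ) • cmp γ (v (.inl (c, d)))
  en : ∀ γ ∈ Γ, v (.inr ()) = cmp γ (v (.inr ()))

/-- real, symmetric, `Γ`-invariant mode data -/
structure InvM (Γ : Subgroup Iso4) (v : (Fin 4 × Fin 4) ⊕ Unit → ℕ → H) : Prop where
  re : ∀ i k, star (Pc k (v i k)) = Pc k (v i k)
  sy : ∀ a b k, v (.inl (a, b)) k = v (.inl (b, a)) k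
  rot : ∀ γ ∈ Γ, ∀ a b k, Pc k (v (.inl (a, b)) k) =
    ∑ c, ∑ d, ((gm γ c a * gm γ d b : ℝ) : ℂ) • cmp γ (Pc k (v (.inl (c, d)) k))
  en : ∀ γ ∈ Γ, ∀ k, Pc k (v (.inr ()) k) = cmp γ (Pc k (v (.inr ()) k))

/-- `cmp γ` as a continuous linear map -/
def cmpL (γ : Iso4) : CS →L[ℂ] CS :=
  LinearMap.mkContinuous
    { toFun := cmp γ
      map_add' := fun _ _ => rfl
      map_smul' := fun _ _ => rfl } 1 fun u => by
      rw [one_mul]
      exact (ContinuousMap.norm_le _ (norm_nonneg _)).2 fun x => u.norm_coe_le_norm _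

@[simp] theorem cmpL_apply (γ : Iso4) (u : CS) : cmpL γ u = cmp γ u := rfl

theorem cmp_add (γ : Iso4) (u v : CS) : cmp γ (u + v) = cmp γ u + cmp γ v := rfl
theorem cmp_sub (γ : Iso4) (u v : CS) : cmp γ (u - v) = cmp γ u - cmp γ v := rfl
theorem cmp_smul (γ : Iso4) (c : ℂ) (u : CS) : cmp γ (c • u) = c • cmp γ u := rfl
theorem cmp_zero (γ : Iso4) : cmp γ 0 = 0 := rfl
theorem cs_smul_zero (c : ℂ) : c • (0 : CS) = 0 := by ext x; simp
theorem cs_smul_add (c : ℂ) (u v : CS) : c • (u + v) = c • u + c • v := smul_add c u v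

variable {Γ : Subgroup Iso4} {v w : (Fin 4 × Fin 4) ⊕ Unit → ℕ → H}

theorem InvM.invC (h : InvM Γ v) (k : ℕ) : InvC Γ fun i => Pc k (v i k) :=
  ⟨fun i => h.re i k, fun a b => by rw [h.sy a b k], fun γ hγ a b => h.rot γ hγ a b k,
    fun γ hγ => h.en γ hγ k⟩

theorem InvM.of_invC (hP : ∀ i k, P k (v i k) = v i k)
    (h : ∀ k, InvC Γ fun i => Pc k (v i k)) : InvM Γ v :=
  ⟨fun i k => (h k).re i, fun a b k => by
    rw [← hP, ← hP (.inl (b, a)), ← toH_Pc, ← toH_Pc]; exact congrArg toH ((h k).sy a b),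
    fun γ hγ a b k => (h k).rot γ hγ a b, fun γ hγ k => (h k).en γ hγ⟩

theorem InvM.mono {Γ' : Subgroup Iso4} (h : InvM Γ v) (hΓ : Γ' ≤ Γ) : InvM Γ' v :=
  ⟨h.re, h.sy, fun γ hγ => h.rot γ (hΓ hγ), fun γ hγ => h.en γ (hΓ hγ)⟩

theorem InvM.congr (h : InvM Γ v) (e : ∀ i k, w i k = v i k) : InvM Γ w := by
  rwa [show w = v from funext fun i => funext (e i)]

theorem InvM.zero : InvM Γ fun _ _ => 0 :=
  ⟨fun _ _ => by simp, fun _ _ _ => rfl, fun _ _ _ _ _ => by simp [cmp_zero, cs_smul_zero],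
    fun _ _ _ => by simp [cmp_zero]⟩

theorem InvM.add (h : InvM Γ v) (h' : InvM Γ w) : InvM Γ fun i k => v i k + w i k :=
  ⟨fun i k => by rw [map_add, star_add, h.re, h'.re], fun a b k => by rw [h.sy, h'.sy],
    fun γ hγ a b k => by
      simp only [map_add, cmp_add, cs_smul_add, Finset.sum_add_distrib]
      rw [← h.rot γ hγ, ← h'.rot γ hγ],
    fun γ hγ k => by rw [map_add, cmp_add, ← h.en γ hγ, ← h'.en γ hγ]⟩

/-- scalars fixed by conjugation -/
theorem InvM.csmul (h : InvM Γ v) (c : ℕ → ℂ) (hc : ∀ k, star (c k) = c k) :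
    InvM Γ fun i k => c k • v i k :=
  ⟨fun i k => by rw [map_smul, star_smul, h.re, hc], fun a b k => by rw [h.sy],
    fun γ hγ a b k => by
      simp only [map_smul, cmp_smul, smul_comm _ (c k), ← Finset.smul_sum]
      rw [← h.rot γ hγ],
    fun γ hγ k => by rw [map_smul, cmp_smul, ← h.en γ hγ]⟩

/-- real scalars -/
theorem InvM.smul (h : InvM Γ v) (c : ℕ → ℝ) : InvM Γ fun i k => (c k : ℂ) • v i k :=
  h.csmul _ fun _ => Complex.conj_ofReal _

theorem InvM.rsmul (h : InvM Γ v) (c : ℕ → ℝ) : InvM Γ fun i k => c k • v i k :=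
  (h.smul c).congr fun _ _ => (Complex.coe_smul _ _).symm

theorem InvM.neg (h : InvM Γ v) : InvM Γ fun i k => -v i k :=
  (h.csmul (fun _ => -1) fun _ => by simp).congr fun _ _ => by simp

theorem InvM.sub (h : InvM Γ v) (h' : InvM Γ w) : InvM Γ fun i k => v i k - w i k :=
  (h.add h'.neg).congr fun _ _ => sub_eq_add_neg _ _

/-- choice depending on the mode -/
theorem InvM.ite (p : ℕ → Prop) [DecidablePred p] (h : InvM Γ v) (h' : InvM Γ w) :
    InvM Γ fun i k => if p k then v i k else w i k :=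
  ((h.smul fun k => if p k then 1 else 0).add (h'.smul fun k => if p k then 0 else 1)).congr
    fun _ k => by by_cases hk : p k <;> simp [hk]

/-- the constant mode removed -/
theorem InvM.kill (h : InvM Γ v) : InvM Γ fun i k => if k = 0 then 0 else v i k :=
  InvM.zero.ite (· = 0) h

end Crest.Agent.N207.L

end
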