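import Crest.Agent.N207.L.Gr2
import Crest.Agent.N207.L.Tru

/-! # N207/L/Cmp (helper80): composition of solutions with monotone maps (restriction and
reparametrisation), traces, and the Duhamel bound for traces -/

set_option autoImplicit false
set_option linter.unusedSectionVars false
open Set Filter Topology MeasureTheory BoundedContinuousFunction

noncomputable section

namespace Crest.Agent.N207.L
open J

variable {ι : Type} [Fintype ι]

/-- composition of a true family with a map of the parameter -/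
def cmpM (f : Md) (φ : ℝ → ℝ) : Md := fun k x => f k (φ x)

/-- composition of a vector of true families -/
def cmpV (f : ι → Md) (φ : ℝ → ℝ) : ι → Md := fun i => cmpM (f i) φ

theorem Bd.cmp {σ : ℕ} {g om g' om' φ : ℝ → ℝ} {f : Md} {η κ η' : ℝ} (h : Bd σ g om f η)
    (hφ : Continuous φ) (hκ : 0 ≤ κ) (hη : κ * η ≤ η') (h0 : ∀ k x, 0 ≤ g x * om x ^ k)
    (hg : ∀ k x, g (φ x) * om (φ x) ^ k ≤ κ * (g' x * om' x ^ k)) :
    Bd σ g' om' (cmpM f φ) η' := by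
  obtain ⟨c, h1, h2⟩ := h.bd
  have h3 := mul_nonneg hκ h.nn
  refine ⟨h3.trans hη, fun k x => h.mode k _, fun k => (h.cont k).comp hφ,
    fun k => κ * |c k|, fun s => le_trans ?_ (pow_le_pow_left₀ h3 hη 2), fun k x => ?_⟩
  · simp only [mul_pow, sq_abs, ← Finset.mul_sum]
    exact mul_le_mul_of_nonneg_left (h1 s) (sq_nonneg κ)
  · calc wt σ k * ‖f k (φ x)‖ ≤ |c k| * (g (φ x) * om (φ x) ^ k) :=
          (h2 k (φ x)).trans (mul_le_mul_of_nonneg_right (le_abs_self _) (h0 k _))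
      _ ≤ |c k| * (κ * (g' x * om' x ^ k)) := mul_le_mul_of_nonneg_left (hg k x) (abs_nonneg _)
      _ = _ := by ring

theorem der_cmp {f : ℝ → H} {f' : H} {φ : ℝ → ℝ} {d x : ℝ} (hm : Monotone φ)
    (hφ : HasDerivWithinAt φ d (Ici x) x) (hf : HasDerivWithinAt f f' (Ici (φ x)) (φ x)) :
    HasDerivWithinAt (fun y => f (φ y)) ((d : ℂ) • f') (Ici x) x := by
  refine (hf.scomp x hφ fun y hy => hm hy).congr_deriv ?_
  exact (Complex.coe_smul d f').symm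

/-- **restriction and reparametrisation** -/
theorem Sol.cmp {N : NL ι} {τ τ' : ℝ → ℂ} {w om w' om' φ d : ℝ → ℝ} {η κ η' : ℝ} {p q F : ι → Md}
    (h : Sol N τ w om η p q F) (hc : Continuous φ) (hm : Monotone φ)
    (hφ : ∀ x, HasDerivWithinAt φ (d x) (Ici x) x) (hτ : ∀ x, τ' x = d x * τ (φ x))
    (hκ : 1 ≤ κ) (hη : κ ^ 2 * η ≤ η') (w0 : ∀ x, 0 ≤ w x) (o0 : ∀ x, 0 ≤ om x)
    (hw : ∀ x, w (φ x) ≤ κ * w' x) (ho : ∀ x, om (φ x) ≤ om' x) :
    Sol N τ' w' om' η' (cmpV p φ) (cmpV q φ) (cmpV F φ) := by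
  have k0 : 0 ≤ κ := zero_le_one.trans hκ
  have a0 : ∀ k x, 0 ≤ w x * om x ^ k := fun k x => mul_nonneg (w0 x) (pow_nonneg (o0 x) k)
  have a1 : ∀ (k : ℕ) x, w (φ x) * om (φ x) ^ k ≤ κ * (w' x * om' x ^ k) := fun k x => by
    rw [← mul_assoc]
    exact mul_le_mul (hw x) (pow_le_pow_left₀ (o0 _) (ho x) k) (pow_nonneg (o0 _) k)
      ((w0 _).trans (hw x))
  have a2 : ∀ i : ι, κ * η ≤ η' := fun i => le_trans (mul_le_mul_of_nonneg_right
    (by nlinarith) (h.bp i).nn) hη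
  refine ⟨fun i => (h.bp i).cmp hc k0 (a2 i) a0 a1, fun i => (h.bq i).cmp hc k0 (a2 i) a0 a1,
    fun i => (h.bF i).cmp hc (sq_nonneg κ) hη
      (fun k x => mul_nonneg (sq_nonneg _) (pow_nonneg (o0 x) k)) fun k x => ?_,
    fun i k x => ?_, fun i k x => ?_, fun x y => h.eq (φ x) y⟩
  · rw [← mul_assoc, ← mul_pow]
    exact mul_le_mul (pow_le_pow_left₀ (w0 _) (hw x) 2) (pow_le_pow_left₀ (o0 _) (ho x) k)
      (pow_nonneg (o0 _) k) (sq_nonneg _)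
  · refine (der_cmp hm (hφ x) (h.dp i k (φ x))).congr_deriv ?_
    rw [smul_smul, hτ]; rfl
  · refine (der_cmp hm (hφ x) (h.dq i k (φ x))).congr_deriv ?_
    rw [smul_smul, hτ]; rfl

theorem Sol.le {N : NL ι} {τ : ℝ → ℂ} {w om : ℝ → ℝ} {η η' : ℝ} {p q F : ι → Md}
    (h : Sol N τ w om η p q F) (hη : η ≤ η') (w0 : ∀ x, 0 ≤ w x) (o0 : ∀ x, 0 ≤ om x) :
    Sol N τ w om η' p q F :=
  h.cmp (φ := id) (d := fun _ => 1) (κ := 1) continuous_id monotone_id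
    (fun x => hasDerivWithinAt_id x _) (fun x => by simp) le_rfl (by simpa using hη) w0 o0
    (fun x => by simp) fun x => le_rfl

/-! ### traces -/

theorem trc_bd (x : ℝ) (k : ℕ) : ‖(P k).comp (evalCLM ℂ x : BH →L[ℂ] H)‖ ≤ 1 :=
  ContinuousLinearMap.opNorm_le_bound _ zero_le_one fun f => by
    rw [one_mul]; exact (norm_P_le k _).trans (f.norm_coe_le_norm x)

/-- the stored amplitudes at the point `x` -/
def trc (x : ℝ) : CL →L[ℂ] D := dg fun k => (P k).comp (evalCLM ℂ x : BH →L[ℂ] H)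

theorem trc_apply (x : ℝ) (X : CL) (k : ℕ) : trc x X k = P k (X k x) := dg_apply (trc_bd x) X k

theorem norm_trc_le (x : ℝ) (X : CL) : ‖trc x X‖ ≤ ‖X‖ :=
  (norm_dg_apply_le (trc_bd x) X).trans_eq (one_mul _)

theorem prp_trc (x : ℝ) (X : CL) : PrpD (trc x X) := fun k => by rw [trc_apply, P_P]

theorem PrpD.smul' {A : D} (h : PrpD A) (c : ℂ) : PrpD (c • A) := fun k => by
  rw [lp.coeFn_smul, Pi.smul_apply, map_smul, h k]

theorem tru_eq (g om : ℝ → ℝ) (X : CL) (k : ℕ) (x : ℝ) :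
    tru 6 g om X k x = (g x : ℂ) • trD (om x) (trc x X) k := by
  rw [tru, trD, trc_apply, P_P, smul_smul]
  congr 1
  push_cast
  ring

/-- removes the constant mode -/
def kill : D →L[ℂ] D := sc H fun k => if k = 0 then 0 else 1

/-- keeps the constant mode -/
def keep : D →L[ℂ] D := sc H fun k => if k = 0 then 1 else 0

theorem kill_apply (A : D) (k : ℕ) : kill A k = if k = 0 then 0 else A k := by
  rw [kill, sc_apply (c := 1) fun k => by split_ifs <;> simp]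
  split_ifs <;> simp

theorem keep_apply (A : D) (k : ℕ) : keep A k = if k = 0 then A k else 0 := by
  rw [keep, sc_apply (c := 1) fun k => by split_ifs <;> simp]
  split_ifs <;> simp

theorem norm_kill_le (A : D) : ‖kill A‖ ≤ ‖A‖ :=
  (norm_dg_apply_le (sc_bd (F := H) (s := fun k => if k = 0 then 0 else 1) (c := 1)
    fun k => by split_ifs <;> simp) A).trans_eq (one_mul _)

theorem norm_keep_le (A : D) : ‖keep A‖ ≤ ‖A‖ :=
  (norm_dg_apply_le (sc_bd (F := H) (s := fun k => if k = 0 then 1 else 0) (c := 1)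
    fun k => by split_ifs <;> simp) A).trans_eq (one_mul _)

theorem PrpD.kill {A : D} (h : PrpD A) : PrpD (kill A) := fun k => by
  rw [kill_apply]
  split_ifs
  · simp
  · exact h k

theorem trD_kill (o : ℝ) (A : D) (k : ℕ) : trD o (kill A) k = if k = 0 then 0 else trD o A k := by
  rw [trD, kill_apply]
  split_ifs
  · simp
  · rfl

theorem trD_keep (o : ℝ) (A : D) (k : ℕ) : trD o (keep A) k = if k = 0 then trD o A k else 0 := by
  rw [trD, keep_apply]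
  split_ifs
  · rfl
  · simp

theorem norm_le_two {z a : D} {b : CL} {c : ℝ} (hc : 0 ≤ c)
    (h : ∀ k, ‖z k‖ ≤ ‖a k‖ + c * ‖b k‖) : ‖z‖ ≤ 2 * (‖a‖ + c * ‖b‖) := by
  refine lp_norm_le (by positivity) fun t => ?_
  calc ∑ m ∈ t, ‖z m‖ ^ 2 ≤ ∑ m ∈ t, (2 * ‖a m‖ ^ 2 + 2 * c ^ 2 * ‖b m‖ ^ 2) :=
        Finset.sum_le_sum fun m _ => (pow_le_pow_left₀ (norm_nonneg _) (h m) 2).trans (by
          nlinarith [sq_nonneg (‖a m‖ - c * ‖b m‖)])
    _ ≤ 2 * ‖a‖ ^ 2 + 2 * c ^ 2 * ‖b‖ ^ 2 := by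
        rw [Finset.sum_add_distrib, ← Finset.mul_sum, ← Finset.mul_sum]
        exact add_le_add (mul_le_mul_of_nonneg_left (lp_sum_sq_le a t) (by positivity))
          (mul_le_mul_of_nonneg_left (lp_sum_sq_le b t) (by positivity))
    _ ≤ _ := by
        have := mul_nonneg (norm_nonneg a) (mul_nonneg hc (norm_nonneg b))
        nlinarith [sq_nonneg ‖a‖, sq_nonneg (c * ‖b‖)]

/-- the stored source in one mode -/
def srcM (X : CL) (k : ℕ) : BH :=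
  (((wt (4 : ℕ) k)⁻¹ : ℝ) : ℂ) • (P k).compLeftContinuousBounded ℝ (X k)

theorem norm_srcM (X : CL) (k : ℕ) : ‖srcM X k‖ ≤ (wt (4 : ℕ) k)⁻¹ * ‖X k‖ := by
  have := wt_pos (4 : ℕ) k
  rw [srcM, norm_smul, Complex.norm_real, Real.norm_of_nonneg (by positivity)]
  refine mul_le_mul_of_nonneg_left ((norm_le (norm_nonneg _)).2 fun x => ?_) (by positivity)
  exact (norm_P_le k _).trans ((X k).norm_coe_le_norm x)

theorem tru_src (γ : Pth) (X : CL) (k : ℕ) (x : ℝ) :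
    tru 4 (fun x => γ.w x ^ 2) γ.om X k x = γ.tw 2 k x • srcM X k x := by
  change _ = γ.tw 2 k x • (((wt (4 : ℕ) k)⁻¹ : ℝ) : ℂ) • P k (X k x)
  rw [tru, Pth.tw, smul_smul]
  congr 1
  push_cast
  ring

theorem tru_sol (γ : Pth) (X : CL) (k : ℕ) (x : ℝ) :
    tru 6 γ.w γ.om X k x = γ.tw 1 k x • (((wt (6 : ℕ) k)⁻¹ : ℝ) : ℂ) • P k (X k x) := by
  rw [tru, Pth.tw, smul_smul]
  congr 1
  push_cast
  ring

theorem smul_trD (γ : Pth) (A : D) (k : ℕ) (x : ℝ) : (γ.w x : ℂ) • trD (γ.om x) A k =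
    γ.tw 1 k x • (((wt (6 : ℕ) k)⁻¹ : ℝ) : ℂ) • P k (A k) := by
  rw [trD, Pth.tw, smul_smul, smul_smul]
  congr 1
  push_cast
  ring

theorem duh_bd {γ : Pth} {C o : ℝ} (h : γ.Ok C o) (ho : 0 < o) {X Xf : CL} {A : H} {k : ℕ} {x : ℝ}
    {e : H →L[ℂ] BH} {G : BH →L[ℂ] BH} (he : ‖e‖ ≤ 1) (hG : ‖G‖ ≤ 16 * C / (k + 1))
    (hX : tru 6 γ.w γ.om X k x = γ.tw 1 k x • (e ((((wt (6 : ℕ) k)⁻¹ : ℝ) : ℂ) • A) x -
      (2 * (k : ℂ) + 2)⁻¹ • G (srcM Xf k) x)) : ‖trc x X k‖ ≤ ‖A‖ + 8 * C * ‖Xf k‖ := by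
  rw [tru_sol] at hX
  have h1 := smul_right_injective H (h.tw_ne ho 1 k x) hX
  have w6 := wt_pos (6 : ℕ) k
  have w4 := wt_pos (4 : ℕ) k
  have n6 : ‖(((wt (6 : ℕ) k)⁻¹ : ℝ) : ℂ)‖ = (wt (6 : ℕ) k)⁻¹ := by
    rw [Complex.norm_real, Real.norm_of_nonneg (by positivity)]
  have h2 := congrArg norm h1
  rw [norm_smul, n6] at h2
  have h3 : ‖e ((((wt (6 : ℕ) k)⁻¹ : ℝ) : ℂ) • A) x‖ ≤ (wt (6 : ℕ) k)⁻¹ * ‖A‖ := by
    refine (norm_coe_le_norm _ x).trans ((e.le_of_opNorm_le he _).trans ?_)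
    rw [one_mul, norm_smul, n6]
  have C0 := h.C0
  have h4 : ‖(2 * (k : ℂ) + 2)⁻¹ • G (srcM Xf k) x‖ ≤ (wt (6 : ℕ) k)⁻¹ * (8 * C * ‖Xf k‖) := by
    have e1 : ‖(2 * (k : ℂ) + 2)⁻¹‖ = (2 * ((k : ℝ) + 1))⁻¹ := by
      rw [norm_inv, show 2 * (k : ℂ) + 2 = 2 * (k + 1) by ring, norm_mul, norm_k1, Complex.norm_two]
    rw [norm_smul, e1]
    calc _ ≤ (2 * ((k : ℝ) + 1))⁻¹ * (16 * C / (k + 1) * ((wt (4 : ℕ) k)⁻¹ * ‖Xf k‖)) := by
          refine mul_le_mul_of_nonneg_left ((norm_coe_le_norm _ x).trans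
            ((G.le_of_opNorm_le hG _).trans ?_)) (by positivity)
          exact mul_le_mul_of_nonneg_left (norm_srcM Xf k) (by positivity)
      _ = _ := by
          rw [wt_nat, wt_nat]
          field_simp
          ring
  rw [trc_apply]
  refine le_of_mul_le_mul_left (a := (wt (6 : ℕ) k)⁻¹) ?_ (by positivity)
  rw [h2, mul_add]
  exact (norm_sub_le _ _).trans (add_le_add h3 h4)

section
variable {N : NL ι} {γ : Pth} {C o η : ℝ} {S : Tr ι} {A B : ι → D}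

theorem Sol.ode_q {τ : ℝ → ℂ} {w om : ℝ → ℝ} {p q F : ι → Md} (h : Sol N τ w om η p q F) (i : ι)
    (k : ℕ) : Ode τ (-(k + 2)) (fun x => -((2 * (k : ℂ) + 2)⁻¹ • F i k x)) (q i k) :=
  ⟨(h.bq i).cont k, fun x => (h.dq i k x).congr_deriv (by rw [sub_eq_add_neg])⟩

theorem Sol.ode_p {τ : ℝ → ℂ} {w om : ℝ → ℝ} {p q F : ι → Md} (h : Sol N τ w om η p q F) (i : ι)
    (k : ℕ) : Ode τ k (fun x => (2 * (k : ℂ) + 2)⁻¹ • F i k x) (p i k) :=
  ⟨(h.bp i).cont k, h.dp i k⟩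

theorem trc_q_le (h : γ.Ok C o) (ho : 0 < o) (hs : Sol N γ.τ γ.w γ.om η (S.p γ) (S.q γ) (S.F γ))
    (hd : Dat γ (S.p γ) (S.q γ) A B) (i : ι) (x : ℝ) (k : ℕ) :
    ‖trc x (S.2.1 i) k‖ ≤ ‖A i k‖ + 8 * C * ‖S.2.2 i k‖ := by
  refine le_trans (duh_bd h ho (A := P k (A i k)) (h.norm_em ho k) (h.norm_gm ho k) ?_)
    (add_le_add_left (norm_P_le k _) _)
  refine h.duh_q ho k _ ((hs.ode_q i k).congr (fun x => ?_) fun _ => rfl) ?_ x
  · rw [← tru_src]; rfl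
  · rw [← smul_trD]; exact hd.hq i k

theorem trc_p_le (h : γ.Ok C o) (ho : 0 < o) (hf : γ.fin = true)
    (hs : Sol N γ.τ γ.w γ.om η (S.p γ) (S.q γ) (S.F γ))
    (hd : Dat γ (S.p γ) (S.q γ) A B) (i : ι) (x : ℝ) (k : ℕ) :
    ‖trc x (S.1 i) k‖ ≤ ‖B i k‖ + 8 * C * ‖S.2.2 i k‖ := by
  refine le_trans (duh_bd h ho (A := P k (B i k)) (h.norm_ep ho k) (h.norm_gp ho k) ?_)
    (add_le_add_left (norm_P_le k _) _)
  refine h.duh_p ho k _ ((hs.ode_p i k).congr (fun x => ?_) fun _ => rfl) (fun _ => ?_)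
    (M := 0) (fun h' => by simp [hf] at h') x
  · rw [← tru_src]; rfl
  · rw [← smul_trD]
    have := hd.hp hf i k
    by_cases h0 : k = 0
    · subst h0
      simpa [trD] using this
    · simpa [Pth.pt, h0] using this

theorem norm_trc_q (h : γ.Ok C o) (ho : 0 < o) (hs : Sol N γ.τ γ.w γ.om η (S.p γ) (S.q γ) (S.F γ))
    (hd : Dat γ (S.p γ) (S.q γ) A B) (i : ι) (x : ℝ) :
    ‖trc x (S.2.1 i)‖ ≤ 2 * (‖A i‖ + 8 * C * ‖S.2.2 i‖) :=
  norm_le_two (by have := h.C0; positivity) (trc_q_le h ho hs hd i x)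

theorem norm_kill_trc_p (h : γ.Ok C o) (ho : 0 < o) (hf : γ.fin = true)
    (hs : Sol N γ.τ γ.w γ.om η (S.p γ) (S.q γ) (S.F γ))
    (hd : Dat γ (S.p γ) (S.q γ) A B) (i : ι) (x : ℝ) :
    ‖kill (trc x (S.1 i))‖ ≤ 2 * (‖kill (B i)‖ + 8 * C * ‖S.2.2 i‖) := by
  have := h.C0
  refine norm_le_two (by positivity) fun k => ?_
  rw [kill_apply, kill_apply]
  split_ifs
  · simp only [norm_zero, zero_add]; positivity
  · exact trc_p_le h ho hf hs hd i x k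

end

end Crest.Agent.N207.L
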