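import Crest.Agent.N207.L.Pc2
import Crest.Agent.N207.L.Cmp

/-! # N207/L/Pc3 (helper59): uniqueness, holomorphy, the piece theorem -/

set_option autoImplicit false
set_option linter.unusedSectionVars false
set_option maxHeartbeats 400000
open Set Filter Topology MeasureTheory BoundedContinuousFunction Metric

noncomputable section

namespace Crest.Agent.N207.L
open J Crest.Agent.N250.H

variable {ι : Type} [Fintype ι] {N : NL ι} {γ : Pth} {C o η η' : ℝ} {τ : ℝ → ℂ} {w om : ℝ → ℝ}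
  {p q F : ι → Md} {v : (ι → D) × (ι → D)}

theorem Sol.mono (h : Sol N τ w om η p q F) (hη : η ≤ η') : Sol N τ w om η' p q F :=
  ⟨fun i => (h.bp i).mono hη, fun i => (h.bq i).mono hη, fun i => (h.bF i).mono hη, h.dp, h.dq,
    h.eq⟩

theorem exists_pi {σ : ℕ} {g om : ℝ → ℝ} {f : ι → Md} (hη : 0 ≤ η) (h : ∀ i, Bd σ g om (f i) η)
    (hg : Continuous g) (g0 : ∀ x, 0 < g x) (ho : Continuous om) (o0 : ∀ x, 0 < om x) :
    ∃ X : ι → CL, ‖X‖ ≤ η ∧ (∀ i, Prp (X i)) ∧ ∀ i, tru σ g om (X i) = f i := by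
  choose X h1 h2 h3 using fun i => (h i).exists hg g0 ho o0
  exact ⟨X, (pi_norm_le_iff_of_nonneg hη).2 h1, h2, h3⟩

/-- **every small solution is the canonical one** -/
theorem Sol.eq_sol (h : γ.Ok C o) (ho : 0 < o) (hs : Sol N γ.τ γ.w γ.om η p q F)
    (hη : η ≤ N.eta C o) (hd : Dat γ p q v.1 v.2) (hv : ‖v‖ ≤ N.eta C o) :
    p = (N.sol C o γ v).p γ ∧ q = (N.sol C o γ v).q γ ∧ F = (N.sol C o γ v).F γ := by
  obtain ⟨f, h1, h2, h3⟩ := exists_pi (N.eta_pos h ho).le (hs.mono hη).bF (h.wc.pow 2)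
    (fun x => pow_pos (h.w0 x) 2) h.oc (h.om0 ho)
  have hd' := h.dat_tri ho v f
  have eF : (γ.tri v f).F γ = F := funext fun i => by rw [Tr.F, Pth.tri_F, h3]
  have ep : (γ.tri v f).p γ = p := funext fun i => funext fun k => by
    refine h.uniq_p ho (h.bd6 ho _) (hs.bp i) ?_ (hs.ode_p i k) fun hf => ?_
    · rw [Pth.tri_p, ← h3]
      exact h.ode_sp ho _ _ k
    · rw [hd.hp hf]
      exact hd'.hp hf i k
  have eq : (γ.tri v f).q γ = q := funext fun i => funext fun k => funext fun x => by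
    refine h.uniq_pt ?_ (hs.ode_q i k) ((hd'.hq i k).trans (hd.hq i k).symm) x
    rw [Tr.q, Pth.tri_q, ← h3]
    exact h.ode_sq ho _ _ k
  have hf : N.Fx C o γ v f := ⟨h1, fun hw => by
    have := (N.fix_iff (S := γ.tri v f) hw (NL.JT_lt h ho hv h1).le).2
      ⟨by rw [Pth.tri_F]; exact h2, by rw [eF, ep, eq]; exact hs.eq⟩
    rwa [Pth.tri_F] at this⟩
  rw [NL.sol, ← hf.eq_src h ho hv]
  exact ⟨ep.symm, eq.symm, eF.symm⟩

/-- every solution has data, of norm at most its size -/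
theorem Sol.exists_dat (h : γ.Ok C o) (ho : 0 < o) (hs : Sol N γ.τ γ.w γ.om η p q F)
    (hη : 0 ≤ η) : ∃ v : (ι → D) × (ι → D), ‖v‖ ≤ η ∧ (∀ i, PrpD (v.1 i)) ∧ (∀ i, PrpD (v.2 i)) ∧
      Dat γ p q v.1 v.2 := by
  obtain ⟨X, h1, h2, h3⟩ := exists_pi hη hs.bp h.wc h.w0 h.oc (h.om0 ho)
  obtain ⟨Y, g1, g2, g3⟩ := exists_pi hη hs.bq h.wc h.w0 h.oc (h.om0 ho)
  refine ⟨(fun i => tr γ.a (Y i), fun i => trs γ.pt (X i)), norm_prod_le_iff.2 ⟨?_, ?_⟩,
    fun i => (g2 i).trs _, fun i => (h2 i).trs _, fun i k => ?_, fun _ i k => ?_⟩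
  · exact (pi_norm_le_iff_of_nonneg hη).2 fun i =>
      (norm_tr_apply_le _ _).trans ((norm_le_pi_norm Y i).trans g1)
  · exact (pi_norm_le_iff_of_nonneg hη).2 fun i =>
      (norm_trs_apply_le _ _).trans ((norm_le_pi_norm X i).trans h1)
  · rw [← g3, tru_eq_tr]
  · rw [← h3, tru_eq_pt]

theorem NL.uniq (N : NL ι) (C : ℝ) (ho : 0 < o) : Uniq N C o (N.eta C o) := by
  intro γ h p q F p' q' F' A B hs hs' hd hd'
  obtain ⟨v, hv, -, -, hdv⟩ := hs.exists_dat h ho (N.eta_pos h ho).le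
  have hdv' : Dat γ p' q' v.1 v.2 :=
    ⟨fun i k => by rw [hd'.hq, ← hd.hq, hdv.hq], fun hf i k => by
      rw [hd'.hp hf, ← hd.hp hf, hdv.hp hf]⟩
  obtain ⟨h1, h2, h3⟩ := hs.eq_sol h ho le_rfl hdv hv
  obtain ⟨g1, g2, g3⟩ := hs'.eq_sol h ho le_rfl hdv' hv
  exact ⟨h1.trans g1.symm, h2.trans g2.symm, h3.trans g3.symm⟩

section Hol
variable {Z : Type} [NormedAddCommGroup Z] [NormedSpace ℂ Z] {t τ : Z → ℝ → ℂ} {U : Set Z}

theorem diffOn_fst_comp {A B G : Type*} [NormedAddCommGroup A] [NormedSpace ℂ A]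
    [NormedAddCommGroup B] [NormedSpace ℂ B] [NormedAddCommGroup G] [NormedSpace ℂ G] {f : A → G}
    {U : Set A} (h : DifferentiableOn ℂ f U) (W : Set B) :
    DifferentiableOn ℂ (fun z : A × B => f z.1) (U ×ˢ W) :=
  h.comp differentiableOn_fst fun _ hz => hz.1

theorem Pth.Fam.diff_src (h : γ.Fam t τ U C o) (ho : 0 < o) (N : NL ι) :
    DifferentiableOn ℂ (fun z : Z × (ι → D) × (ι → D) => N.src C o (γ.re (t z.1) (τ z.1)) z.2)
      (U ×ˢ ball 0 (N.eta C o)) := by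
  have hw := h.base.wts ho
  have d0 : DifferentiableOn ℂ (fun z : Z × (ι → D) × (ι → D) =>
      JT hw ((γ.re (t z.1) (τ z.1)).L0 z.2)) (U ×ˢ ball 0 (N.eta C o)) :=
    (JT hw).differentiable.comp_differentiableOn
      ((diffOn_fst_comp (h.diff_L0 (ι := ι) ho) (ball 0 (N.eta C o))).clm_apply
        differentiableOn_snd)
  have d1 : DifferentiableOn ℂ (fun z : Z × (ι → D) × (ι → D) =>
      JT hw ∘L (γ.re (t z.1) (τ z.1)).L1) (U ×ˢ ball 0 (N.eta C o)) :=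
    diffOn_fst_comp (B := (ι → D) × (ι → D))
      ((differentiableOn_const (JT (ι := ι) hw)).clm_comp (h.diff_L1 (ι := ι) ho)) _
  obtain ⟨f, hf, h1⟩ := (N.qd hw).exists_fix (NL.cc_pos h.base ho) (h.op.prod isOpen_ball) d0 d1
    (fun z hz => NL.u_le' (h.ok _ hz.1) ho (mem_ball_zero_iff.1 hz.2).le)
    fun z hz => NL.M_le (h.ok _ hz.1) ho
  refine hf.congr fun z hz => (NL.Fx.eq_src (h.ok _ hz.1) ho (mem_ball_zero_iff.1 hz.2).le
    ⟨(h1 z hz).1, fun hw' => ?_⟩).symm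
  rw [NL.JT_tri]
  exact (h1 z hz).2.2

/-- **holomorphy in the curve and in the data** -/
theorem Pth.Fam.diff_sol (h : γ.Fam t τ U C o) (ho : 0 < o) (N : NL ι) :
    DifferentiableOn ℂ (fun z : Z × (ι → D) × (ι → D) => N.sol C o (γ.re (t z.1) (τ z.1)) z.2)
      (U ×ˢ ball 0 (N.eta C o)) :=
  ((diffOn_fst_comp (h.diff_L0 (ι := ι) ho) (ball 0 (N.eta C o))).clm_apply
    differentiableOn_snd).add
    ((diffOn_fst_comp (h.diff_L1 (ι := ι) ho) (ball 0 (N.eta C o))).clm_apply (h.diff_src ho N))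

end Hol

theorem Pth.Ok.diff_src (h : γ.Ok C o) (ho : 0 < o) (N : NL ι) :
    DifferentiableOn ℂ (N.src C o γ) (ball 0 (N.eta C o)) := by
  have hw := h.wts ho
  obtain ⟨f, hf, h1⟩ := (N.qd hw).exists_fix (NL.cc_pos h ho) isOpen_ball
    (u := fun v => JT hw (γ.L0 v)) (M := fun _ => JT hw ∘L γ.L1) (by fun_prop)
    (differentiableOn_const _) (fun z hz => NL.u_le' h ho (mem_ball_zero_iff.1 hz).le)
    fun _ _ => NL.M_le h ho
  refine hf.congr fun z hz => (NL.Fx.eq_src h ho (mem_ball_zero_iff.1 hz).le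
    ⟨(h1 z hz).1, fun hw' => ?_⟩).symm
  rw [NL.JT_tri]
  exact (h1 z hz).2.2

/-- holomorphy in the data -/
theorem Pth.Ok.diff_sol (h : γ.Ok C o) (ho : 0 < o) (N : NL ι) :
    DifferentiableOn ℂ (N.sol C o γ) (ball 0 (N.eta C o)) :=
  γ.L0.differentiable.differentiableOn.add
    (γ.L1.differentiable.comp_differentiableOn (h.diff_src ho N))

theorem wts_triv (ho : 0 < o) (h1 : o ≤ 1) : Wts (fun _ => 1) (fun _ => 1) o :=
  ⟨continuous_const, fun _ => one_pos, fun _ => le_rfl, continuous_const, ho, fun _ => h1,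
    fun _ => le_rfl⟩

theorem NL.eta_pos' (N : NL ι) (hC : 0 ≤ C) (ho : 0 < o) (h1 : o ≤ 1) : 0 < N.eta C o := by
  have := (wts_triv ho h1).bcf.KJ_pos
  exact (N.qd (wts_triv ho h1)).eta_pos (by unfold cc; positivity)

theorem piece (N : NL ι) : PieceStmt N := by
  intro C o ho
  by_cases hC : 0 ≤ C ∧ o ≤ 1
  · have h1 := N.eta_pos' hC.1 ho hC.2
    have h2 := N.K2_pos (wts_triv ho hC.2)
    have h3 : N.eta C o / (2 + N.K2 o) ≤ N.eta C o := div_le_self h1.le (by linarith)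
    refine ⟨N.eta C o, N.eta C o / (2 + N.K2 o), 2 + N.K2 o, by positivity, by linarith,
      le_of_eq (by field_simp), N.uniq C ho, fun Z _ _ γ t τ U h => ⟨_,
        (h.diff_sol ho N).mono (prod_mono_right (ball_subset_ball h3)), fun z hz v hv => ?_⟩⟩
    have hv' : ‖v‖ ≤ N.eta C o := (mem_ball_zero_iff.1 hv).le.trans h3
    have h4 : 2 * ‖v‖ ≤ (2 + N.K2 o) * ‖v‖ := by gcongr; linarith
    refine ⟨(NL.norm_sol (h.ok z hz) ho hv').trans h4, ?_, (NL.sol_sol (h.ok z hz) ho hv').mono h4,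
      ?_⟩
    · rw [NL.sol_F]
      refine (NL.norm_src (h.ok z hz) ho hv').trans ?_
      gcongr; linarith
    · have := N.sol_dat (h.ok z hz) ho v
      exact ⟨this.hq, this.hp⟩
  · have hn : ∀ γ : Pth, ¬ γ.Ok C o := fun γ h => hC ⟨h.C0, (h.o0 0).trans (h.o1 0)⟩
    exact ⟨1, 1, 1, one_pos, le_rfl, by norm_num, fun γ h => absurd h (hn γ),
      fun Z _ _ γ t τ U h => absurd h.base (hn γ)⟩

/-! proper elements -/

/-- projection on proper amplitudes -/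
def PD : D →L[ℂ] D := dg P

theorem PD_apply (A : D) (k : ℕ) : PD A k = P k (A k) := dg_apply norm_P_op A k

theorem norm_PD : ‖PD‖ ≤ 1 := norm_dg_le norm_P_op

theorem norm_PD_apply (A : D) : ‖PD A‖ ≤ ‖A‖ := by simpa using PD.le_of_opNorm_le norm_PD A

theorem prpD_PD (A : D) : PrpD (PD A) := fun k => by rw [PD_apply, P_P]

theorem trD_PD (o : ℝ) (A : D) (k : ℕ) : trD o (PD A) k = trD o A k := by
  rw [trD, trD, PD_apply, P_P]

theorem PrpD.PD_eq {A : D} (h : PrpD A) : PD A = A := CL.ext fun k => by rw [PD_apply, h]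

theorem PD_eq_iff (ho : 0 < o) {A B : D} : PD A = PD B ↔ ∀ k, trD o A k = trD o B k :=
  ⟨fun h k => by rw [← trD_PD, h, trD_PD], fun h => (prpD_PD A).ext ho (prpD_PD B) fun k => by
    rw [trD_PD, trD_PD, h]⟩

theorem Pth.Ok.prp_sq (h : γ.Ok C o) (ho : 0 < o) {A : D} {f : CL} (hA : PrpD A) (hf : Prp f) :
    Prp (γ.EM A - γ.GM f) := fun k x => by
  have h1 := h.ode_q ho k (((k : ℂ) + 1) / 2) (A k) (f k)
  have h2 := (h1.clm (P k)).congr (G' := fun x => -((((k : ℂ) + 1) / 2) • γ.tw 2 k x • f k x))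
    (fun x => by rw [map_neg, map_smul, map_smul, hf]) fun _ => rfl
  have h3 := h.uniq_pt h2 h1 (y := γ.a) (by
    simp only [h.em_a ho, h.gm_a ho, smul_zero, sub_zero, map_smul, hA k]) x
  rw [map_smul, smul_right_inj (h.tw_ne ho 1 k x)] at h3
  rw [lp.coeFn_sub, Pi.sub_apply, h.EM_apply ho, h.GM_apply ho]
  exact h3

theorem Pth.Ok.prp_sp (h : γ.Ok C o) (ho : 0 < o) {B : D} {f : CL} (hB : PrpD B) (hf : Prp f) :
    Prp (γ.EP B - γ.GP f) := fun k x => by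
  have h1 := h.ode_p ho k (((k : ℂ) + 1) / 2) (B k) (f k)
  have h2 := (h1.clm (P k)).congr (G' := fun x => (((k : ℂ) + 1) / 2) • γ.tw 2 k x • f k x)
    (fun x => by rw [map_smul, map_smul, hf]) fun _ => rfl
  have hb : ∀ x, ‖γ.tw 1 k x • (γ.ep H k (B k) x - (((k : ℂ) + 1) / 2) • γ.gp H k (f k) x)‖ ≤
      ‖γ.ep H k (B k) - (((k : ℂ) + 1) / 2) • γ.gp H k (f k)‖ * γ.w x := fun x => by
    rw [norm_smul, h.norm_tw ho, mul_comm, pow_one]
    exact mul_le_mul ((γ.ep H k (B k) - (((k : ℂ) + 1) / 2) • γ.gp H k (f k)).norm_coe_le_norm x)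
      (mul_le_of_le_one_right (h.w0 x).le (pow_le_one₀ (h.om0 ho x).le (h.o1 x)))
      (h.tw_pos ho 1 k x |>.le.trans_eq (by rw [pow_one])) (norm_nonneg _)
  have h3 := h.duh_p ho k _ (B := B k) h2 (fun hfin => by
    simp only [h.ep_pt ho hfin, h.gp_pt ho hfin, smul_zero, sub_zero, map_smul, hB k])
    (fun _ x => (norm_P_le _ _).trans (hb x)) x
  rw [map_smul, smul_right_inj (h.tw_ne ho 1 k x)] at h3
  rw [lp.coeFn_sub, Pi.sub_apply, h.EP_apply ho, h.GP_apply ho]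
  exact h3

theorem NL.sol_prp_p (h : γ.Ok C o) (ho : 0 < o) (hv : ‖v‖ ≤ N.eta C o) {i : ι}
    (hB : PrpD (v.2 i)) : Prp ((N.sol C o γ v).1 i) := by
  rw [NL.sol, Pth.tri_p]
  exact h.prp_sp ho hB (NL.src_prp h ho hv i)

theorem NL.sol_prp_q (h : γ.Ok C o) (ho : 0 < o) (hv : ‖v‖ ≤ N.eta C o) {i : ι}
    (hA : PrpD (v.1 i)) : Prp ((N.sol C o γ v).2.1 i) := by
  rw [NL.sol, Pth.tri_q]
  exact h.prp_sq ho hA (NL.src_prp h ho hv i)

end Crest.Agent.N207.L
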