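import Crest.Agent.N207.L.Br3

/-! # N207/L/Br4 (helper72): `H²` uniqueness on an annulus -/

set_option autoImplicit false
set_option maxHeartbeats 400000
set_option linter.unusedSectionVars false
open Set Filter Topology MeasureTheory
open Crest.Agent.R246.Zon797 (Pr)
open scoped InnerProductSpace

noncomputable section

namespace Crest.Agent.N207.L
open J

/-- the radial field and the rotation fields -/
def Yv : Option (Pr 4) → (E4 →L[ℝ] E4)
  | none => ContinuousLinearMap.id ℝ E4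
  | some a => Xv a

theorem norm_Yv_le (o : Option (Pr 4)) : ‖Yv o‖ ≤ 1 := by
  cases o with
  | none => exact ContinuousLinearMap.norm_id_le
  | some a => exact norm_Xv_le a

theorem card_O : Fintype.card (Option (Pr 4)) = 7 := by decide

theorem coord_le (v : E4) (i : Fin 4) : |v i| ≤ ‖v‖ := by simpa using PiLp.norm_apply_le v i

theorem frame_le {G : Type*} [NormedAddCommGroup G] [NormedSpace ℝ G] (L : E4 →L[ℝ] G) {r : ℝ}
    (hr : 0 ≤ r) (ω : S3) (i : Fin 4) : r * ‖L (ee i)‖ ≤ ∑ o, ‖L (Yv o (r • (ω : E4)))‖ := by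
  have e : r • ee i = ∑ o, Yv o (ω : E4) i • Yv o (r • (ω : E4)) := by
    rw [Fintype.sum_option, frame_ee ω i, smul_add, Finset.smul_sum]
    simp only [Yv, ContinuousLinearMap.id_apply, map_smul, smul_comm r]
  rw [← Real.norm_of_nonneg hr, ← norm_smul, ← map_smul, Real.norm_of_nonneg hr, e, map_sum]
  refine norm_sum_le_of_le _ fun o _ => ?_
  rw [map_smul, norm_smul]
  refine mul_le_of_le_one_left (norm_nonneg _) ((coord_le _ i).trans ?_)
  simpa using ((Yv o).le_opNorm (ω : E4)).trans (mul_le_mul_of_nonneg_right (norm_Yv_le o)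
    (norm_nonneg _))

theorem apply_le (L : E4 →L[ℝ] ℂ) {r g : ℝ} {v : E4} (hv : ‖v‖ ≤ r)
    (h : ∀ i, r * ‖L (ee i)‖ ≤ g) : ‖L v‖ ≤ 4 * g := by
  rw [eq_cov L, cov_apply]
  refine (norm_sum_le_of_le _ (n := fun _ => g) fun i _ => ?_).trans (by simp)
  rw [norm_mul, Complex.norm_real, mul_comm]
  exact (mul_le_mul_of_nonneg_right ((coord_le v i).trans hv) (norm_nonneg _)).trans (h i)

/-- polar derivatives up to order two -/
abbrev Wx := Option (Option (Pr 4) ⊕ Option (Pr 4) × Option (Pr 4))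

def pw (U : E4 → ℂ) : Wx → E4 → ℂ
  | none => U
  | some (.inl o) => Du (Yv o) U
  | some (.inr e) => Du (Yv e.1) (Du (Yv e.2) U)

variable {U : E4 → ℂ} {a b : ℝ}

theorem cj1_le {r g : ℝ} (hr : 0 < r) (ω : S3) (h : ContDiffAt ℝ (2 : ℕ) U (r • (ω : E4)))
    (hg : ∀ w, ‖pw U w (r • (ω : E4))‖ ≤ g) (j : Jx) : ‖cj1 U (r • (ω : E4)) j‖ ≤ 1421 * g := by
  have g0 : 0 ≤ g := (norm_nonneg _).trans (hg none)
  have h1 : ∀ i, r * ‖fderiv ℝ U (r • (ω : E4)) (ee i)‖ ≤ 7 * g := fun i =>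
    (frame_le _ hr.le ω i).trans ((Finset.sum_le_sum (g := fun _ => g)
      fun o _ => hg (some (.inl o))).trans (by
        rw [Finset.sum_const, Finset.card_univ, card_O]; simp))
  rcases j with _ | i | e
  · exact (hg none).trans (by linarith)
  · rw [cj1, norm_smul_S3 hr, norm_mul, Complex.norm_real, Real.norm_of_nonneg hr.le]
    exact (h1 i).trans (by linarith)
  · rw [cj1, norm_smul_S3 hr, norm_mul, norm_pow, Complex.norm_real, Real.norm_of_nonneg hr.le,
      fderiv_fderiv_apply h]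
    set B := fderiv ℝ (fderiv ℝ U) (r • (ω : E4))
    have h2 : ∀ o o', ‖B (Yv o (r • (ω : E4))) (Yv o' (r • (ω : E4)))‖ ≤ 29 * g := by
      intro o o'
      have e1 := Du_Du h (Yv o) (Yv o')
      have e2 : ‖fderiv ℝ U (r • (ω : E4)) (Yv o' (Yv o (r • (ω : E4))))‖ ≤ 4 * (7 * g) := by
        refine apply_le _ ?_ h1
        refine ((Yv o').le_opNorm _).trans ((mul_le_of_le_one_left (norm_nonneg _)
          (norm_Yv_le o')).trans (((Yv o).le_opNorm _).trans ?_))
        rw [norm_smul_S3 hr]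
        exact mul_le_of_le_one_left hr.le (norm_Yv_le o)
      rw [← sub_eq_iff_eq_add.2 e1]
      refine (norm_sub_le _ _).trans ((add_le_add (hg (some (.inr (o, o')))) e2).trans ?_)
      linarith
    have h3 : ∀ o, r * ‖B (Yv o (r • (ω : E4))) (ee e.2)‖ ≤ 7 * (29 * g) := fun o =>
      (frame_le _ hr.le ω _).trans ((Finset.sum_le_sum (g := fun _ => 29 * g)
        fun o' _ => h2 o o').trans (by
        rw [Finset.sum_const, Finset.card_univ, card_O]; simp))
    have h4 := mul_le_mul_of_nonneg_left (frame_le (B.flip (ee e.2)) hr.le ω e.1) hr.le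
    rw [Finset.mul_sum, ← mul_assoc, ← sq] at h4
    refine h4.trans ((Finset.sum_le_sum (g := fun _ => 7 * (29 * g)) fun o _ => h3 o).trans ?_)
    simp only [Finset.sum_const, Finset.card_univ, card_O, nsmul_eq_mul]
    push_cast; linarith

theorem pb_pw {x : E4} {M : ℝ} (h : PB 2 U x M) (w : Wx) : PB 0 (pw U w) x (2 * M) := by
  have := h.nonneg
  rcases w with _ | o | e
  · exact h.mono (Nat.zero_le _) (by linarith)
  · exact (h.du _ (norm_Yv_le o)).mono (Nat.zero_le _) (by linarith)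
  · exact ((h.du _ (norm_Yv_le e.2)).du _ (norm_Yv_le e.1)).mono le_rfl (by linarith)

theorem mdU_pw_le {t : ℝ} (h : ∀ ω : S3, ContDiffAt ℝ (2 : ℕ) U (Real.exp t • (ω : E4))) (w : Wx)
    (k : ℕ) : ‖mdU (pw U w) k t‖ ≤
      4 * (((k : ℝ) + 1) ^ 2 * (‖pm U k t‖ + ‖qm U k t‖) + ‖mdU (Lp2 U) k t‖) := by
  have hk : (0 : ℝ) ≤ k := Nat.cast_nonneg k
  set s := ‖pm U k t‖ + ‖qm U k t‖ with hs
  have s0 : 0 ≤ s := by positivity
  have n2 : ‖((k : ℂ) + 2)‖ ≤ 2 * ((k : ℝ) + 1) := by simpa using norm_k2_le k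
  have a0 : ‖mdU U k t‖ ≤ s := by rw [← pm_add_qm]; exact norm_add_le _ _
  have a1 : ∀ o, ‖mdU (Du (Yv o) U) k t‖ ≤ 2 * ((k : ℝ) + 1) * s := by
    rintro (_ | a)
    · refine (congrArg norm (pm_sub_qm k t).symm).trans_le ((norm_sub_le _ _).trans ?_)
      rw [norm_smul, norm_smul, hs, mul_add, Complex.norm_natCast]
      exact add_le_add (mul_le_mul_of_nonneg_right (by linarith) (norm_nonneg _))
        (mul_le_mul_of_nonneg_right n2 (norm_nonneg _))
    · refine ((HR_rst (n := 1) h a).norm_P_le k).trans ?_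
      refine (mul_le_mul_of_nonneg_left a0 (by positivity : (0 : ℝ) ≤ k + 1)).trans ?_
      nlinarith [mul_nonneg (by positivity : (0 : ℝ) ≤ k + 1) s0]
  have a2 : ∀ a o, ‖mdU (Du (Xv a) (Du (Yv o) U)) k t‖ ≤ 2 * ((k : ℝ) + 1) ^ 2 * s := fun a o =>
    ((HR_rst (n := 0) (fun ω => contDiffAt_Du _ (h ω)) a).norm_P_le k).trans
      ((mul_le_mul_of_nonneg_left (a1 o) (by positivity)).trans (le_of_eq (by ring)))
  have p1 : 0 ≤ ((k : ℝ) + 1) ^ 2 * s := by positivity
  have p2 : s ≤ ((k : ℝ) + 1) ^ 2 * s := le_mul_of_one_le_left s0 (by nlinarith)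
  have p3 : ((k : ℝ) + 1) * s ≤ ((k : ℝ) + 1) ^ 2 * s :=
    mul_le_mul_of_nonneg_right (by nlinarith) s0
  have p4 := norm_nonneg (mdU (Lp2 U) k t)
  rcases w with _ | o | ⟨_ | a, _ | a'⟩
  · exact a0.trans (by linarith)
  · exact (a1 o).trans (by linarith)
  · refine (congrArg norm (pm_qm_two h k).symm).trans_le (norm_add₃_le.trans ?_)
    rw [norm_smul, norm_smul, norm_pow, norm_pow, Complex.norm_natCast]
    have b1 : (k : ℝ) ^ 2 ≤ 4 * ((k : ℝ) + 1) ^ 2 := by nlinarith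
    have b2 : ‖((k : ℂ) + 2)‖ ^ 2 ≤ 4 * ((k : ℝ) + 1) ^ 2 :=
      (pow_le_pow_left₀ (norm_nonneg _) n2 2).trans (le_of_eq (by ring))
    nlinarith [mul_le_mul_of_nonneg_right b1 (norm_nonneg (pm U k t)),
      mul_le_mul_of_nonneg_right b2 (norm_nonneg (qm U k t))]
  · have e : rst (Du (Yv none) (Du (Yv (some a')) U)) t = rst (Du (Xv a') (Du (Yv none) U)) t :=
      rst_congr fun ω => by
        rw [Du_Du (h ω), Du_Du (h ω)]
        congr 1
        exact ((h ω).isSymmSndFDerivAt (by simp)).eq _ _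
    have := a2 a' none
    rw [mdU, ← e] at this
    exact le_trans this (by linarith)
  · exact (a2 a none).trans (by linarith)
  · exact (a2 a (some a')).trans (by linarith)

/-- the `H²` estimate -/
theorem pw_L2 {M : ℝ} (hab : a < b) (h : ∀ x ∈ An (Ioo a b), PB 2 U x M) (hb : ∀ k, Bc a b U k)
    (w : Wx) : ∫ t in a..b, ‖toH (rst (pw U w) t)‖ ^ 2
      ≤ 48 * ((b - a) ^ 2 + 3) * ∫ t in a..b, ‖toH (rst (Lp2 U) t)‖ ^ 2 := by
  have cL := fun x hx => (h x hx).lp2
  have cw := fun x hx => pb_pw (h x hx) w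
  refine parseval_int hab.le cw fun s => ?_
  refine le_trans (Finset.sum_le_sum fun k _ => ?_) (le_trans (le_of_eq (Finset.mul_sum ..).symm)
    (mul_le_mul_of_nonneg_left (bessel_int hab.le cL s) (by positivity)))
  obtain ⟨cp, cq⟩ := bc_pm h k
  have i1 := (((cp.norm.add cq.norm).mul (((k : ℝ) + 1) ^ 2)).add (bc_mdU cL k).norm).sq.ii hab.le
  have := intervalIntegral.integral_mono_on_of_le_Ioo hab.le ((bc_mdU cw k).norm.sq.ii hab.le)
    (i1.const_mul 16) fun t ht => (pow_le_pow_left₀ (norm_nonneg _)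
      (mdU_pw_le (fun ω => (h _ (polar_mem_An ht ω)).1) w k) 2).trans (le_of_eq (by ring))
  rw [intervalIntegral.integral_const_mul] at this
  have h3 := mode_L2 hab h k (hb k)
  linarith

variable {ι : Type} [Fintype ι]

/-- **`H²` uniqueness** -/
theorem h2_unique (ι : Type) [Fintype ι] (ℓ : ℝ) : ∃ ε : ℝ, 0 < ε ∧
    ∀ (a b M : ℝ) (d : ι → E4 → ℂ), a < b → b - a ≤ ℓ →
      (∀ i, ∀ x ∈ An (Ioo a b), PB 2 (d i) x M) → (∀ i k, Bc a b (d i) k) →
      (∀ x ∈ An (Ioo a b), ∀ i, ‖Lp2 (d i) x‖ ≤ ε * ‖cjet d x‖) →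
      ∀ i, ∀ x ∈ An (Ioo a b), d i x = 0 := by
  set K : ℝ := 48 * (ℓ ^ 2 + 3) with hK
  set C : ℝ := Fintype.card ι * (1421 ^ 2 * (Fintype.card Wx * K)) with hC
  have C0 : 0 ≤ C := by positivity
  refine ⟨(C + 2)⁻¹, by positivity, fun a b M d hab hl h hb he => ?_⟩
  set ε := (C + 2)⁻¹ with hε
  have cL := fun i x hx => (h i x hx).lp2
  have cw := fun i w x hx => pb_pw (h i x hx) w
  have ra := fun {U : E4 → ℂ} {M : ℝ} (h : ∀ x ∈ An (Ioo a b), PB 0 U x M) {t : ℝ}
    (ht : t ∈ Ioo a b) => rst_apply' fun ω => (h _ (polar_mem_An ht ω)).1.continuousAt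
  set Ei : ι → ℝ := fun i => ∫ t in a..b, ‖toH (rst (Lp2 (d i)) t)‖ ^ 2 with hEi
  have E0 : ∀ i, 0 ≤ Ei i := fun i => intervalIntegral.integral_nonneg hab.le fun _ _ => by
    positivity
  have k1 : ∀ i w, ∫ t in a..b, ‖toH (rst (pw (d i) w) t)‖ ^ 2 ≤ K * Ei i := fun i w =>
    (pw_L2 hab (h i) (hb i) w).trans (mul_le_mul_of_nonneg_right (by
      have := pow_le_pow_left₀ (sub_nonneg.2 hab.le) hl 2
      linarith) (E0 i))
  have k2 : ∀ i, ∀ t ∈ Ioo a b, ‖toH (rst (Lp2 (d i)) t)‖ ^ 2 ≤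
      ε ^ 2 * 1421 ^ 2 * ∑ z : ι × Wx, ‖toH (rst (pw (d z.1) z.2) t)‖ ^ 2 := by
    intro i t ht
    simp only [norm_toH_sq]
    rw [← integral_finsetSum _ fun z _ => integrable_CSR _ (by fun_prop), ← integral_const_mul]
    refine integral_mono (integrable_CSR _ (by fun_prop)) (integrable_CSR _ (by fun_prop))
      fun ω => ?_
    simp only [ra (cL i) ht, ra (cw _ _) ht]
    have hx := polar_mem_An ht ω
    set G := ∑ z : ι × Wx, ‖pw (d z.1) z.2 (Real.exp t • (ω : E4))‖ ^ 2 with hG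
    have G0 : 0 ≤ G := Finset.sum_nonneg fun _ _ => by positivity
    have j1 : ‖cjet d (Real.exp t • (ω : E4))‖ ≤ 1421 * √G :=
      (pi_norm_le_iff_of_nonneg (by positivity)).2 fun j =>
        cj1_le (Real.exp_pos t) ω (h _ _ hx).1 (fun w => Real.le_sqrt_of_sq_le
          (Finset.single_le_sum (f := fun z : ι × Wx =>
            ‖pw (d z.1) z.2 (Real.exp t • (ω : E4))‖ ^ 2) (fun _ _ => by positivity)
            (Finset.mem_univ (j.1, w)))) j.2
    refine (pow_le_pow_left₀ (norm_nonneg _) ((he _ hx i).trans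
      (mul_le_mul_of_nonneg_left j1 (by positivity))) 2).trans (le_of_eq ?_)
    rw [mul_pow, mul_pow, Real.sq_sqrt G0, mul_assoc]
  have k3 : ∀ i, Ei i ≤ ε ^ 2 * 1421 ^ 2 * (Fintype.card Wx * K * ∑ i, Ei i) := by
    intro i
    have ii := fun z : ι × Wx => (bc_rst (cw z.1 z.2)).norm.sq
    have := intervalIntegral.integral_mono_on_of_le_Ioo hab.le
      ((bc_rst (cL i)).norm.sq.ii hab.le)
      (((BC.sum Finset.univ ii).ii hab.le).const_mul _) (k2 i)
    rw [intervalIntegral.integral_const_mul,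
      intervalIntegral.integral_finsetSum fun z _ => (ii z).ii hab.le] at this
    refine this.trans (mul_le_mul_of_nonneg_left ((Finset.sum_le_sum fun z _ =>
      k1 z.1 z.2).trans (le_of_eq ?_)) (by positivity))
    rw [Fintype.sum_prod_type, Finset.mul_sum]
    refine Finset.sum_congr rfl fun i _ => ?_
    simp only [Finset.sum_const, Finset.card_univ, nsmul_eq_mul, mul_assoc]
  have S0 : 0 ≤ ∑ i, Ei i := Finset.sum_nonneg fun i _ => E0 i
  have k4 : ∑ i, Ei i ≤ ε ^ 2 * C * ∑ i, Ei i := by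
    refine (Finset.sum_le_sum fun i _ => k3 i).trans (le_of_eq ?_)
    simp only [Finset.sum_const, Finset.card_univ, nsmul_eq_mul, hC]
    ring
  have k5 : ε ^ 2 * C ≤ 1 / 2 := by
    rw [hε, inv_pow, inv_mul_le_iff₀ (by positivity)]
    nlinarith
  have k6 : ∑ i, Ei i = 0 := by nlinarith [mul_le_mul_of_nonneg_right k5 S0]
  intro i x hx
  have k7 := k1 i none
  rw [(Finset.sum_eq_zero_iff_of_nonneg fun i _ => E0 i).1 k6 i (Finset.mem_univ i),
    mul_zero] at k7
  have c0 := (bc_rst (cw i none)).norm.sq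
  have k8 := (intervalIntegral.integral_eq_zero_iff_of_le_of_nonneg_ae hab.le
    (Eventually.of_forall fun _ => by positivity) (c0.ii hab.le)).1
    (le_antisymm k7 (intervalIntegral.integral_nonneg hab.le fun _ _ => by positivity))
  rw [← Measure.restrict_congr_set Ioo_ae_eq_Ioc] at k8
  have k9 := Measure.eqOn_Ioo_of_ae_eq volume k8 c0.1 continuousOn_const hx.2
  have k10 : rst (d i) (Real.log ‖x‖) = 0 :=
    toH_inj (by rw [map_zero]; simpa [pw] using k9)
  rw [← exp_log_smul_prj hx.1, ← ra (fun x hx => (h i x hx).mono (Nat.zero_le _) le_rfl) hx.2, k10]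
  rfl

end Crest.Agent.N207.L
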