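import Crest.Agent.N207.L.Br2
import Crest.Agent.N207.J.Re6

/-! # N207/L/Br5 (helper72): amplitudes of `fn c p q`; linearity of the jets -/

set_option autoImplicit false
set_option linter.unusedSectionVars false
open Set Filter Topology

noncomputable section

namespace Crest.Agent.N207.J
variable {U U' : E4 → ℂ} {N : ℕ} {x : E4} {M M' : ℝ}

theorem PB.mul (h : PB N U x M) (h' : PB N U' x M') :
    PB N (fun y => U y * U' y) x (2 ^ N * (M * M')) := by
  refine ⟨h.1.mul h'.1, fun j hj => ?_⟩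
  obtain ⟨s, hs, h2⟩ := (h.1.prodMk h'.1).contDiffOn le_rfl (by simp)
  obtain ⟨s', hs', ho, hx⟩ := _root_.mem_nhds_iff.1 hs
  have h3 := norm_iteratedFDerivWithin_mul_le (h2.mono hs').fst (h2.mono hs').snd
    ho.uniqueDiffOn hx (n := j) (by exact_mod_cast hj)
  simp only [iteratedFDerivWithin_of_isOpen _ ho hx] at h3
  refine (mul_le_mul_of_nonneg_left h3 (by positivity)).trans ?_
  rw [Finset.mul_sum]
  have h4 : ∀ i ∈ Finset.range (j + 1), ‖x‖ ^ j * ((j.choose i : ℝ) *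
      ‖iteratedFDeriv ℝ i U x‖ * ‖iteratedFDeriv ℝ (j - i) U' x‖) ≤ j.choose i * (M * M') := by
    intro i hi
    have hi' : i ≤ j := Nat.lt_succ_iff.1 (Finset.mem_range.1 hi)
    have e : ‖x‖ ^ j = ‖x‖ ^ i * ‖x‖ ^ (j - i) := by rw [← pow_add, Nat.add_sub_cancel' hi']
    calc _ = j.choose i * (‖x‖ ^ i * ‖iteratedFDeriv ℝ i U x‖ *
          (‖x‖ ^ (j - i) * ‖iteratedFDeriv ℝ (j - i) U' x‖)) := by rw [e]; ring
      _ ≤ _ := mul_le_mul_of_nonneg_left (mul_le_mul (h.2 i (by omega)) (h'.2 (j - i) (by omega))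
          (by positivity) h.nonneg) (by positivity)
  refine (Finset.sum_le_sum h4).trans ?_
  rw [← Finset.sum_mul, ← Nat.cast_sum, Nat.sum_range_choose]
  push_cast
  exact mul_le_mul_of_nonneg_right (pow_le_pow_right₀ one_le_two hj)
    (mul_nonneg h.nonneg h'.nonneg)

/-- a fixed smooth function is uniformly bounded on a compact annulus -/
theorem exists_PB (N : ℕ) (h : ∀ x : E4, x ≠ 0 → ContDiffAt ℝ (N : ℕ) U x) (a b : ℝ) :
    ∃ K, 0 < K ∧ ∀ x ∈ An (Icc a b), PB N U x K := by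
  have hK : IsCompact (An (Icc a b)) := by
    have : An (Icc a b) = (fun p : ℝ × S3 => Real.exp p.1 • (p.2 : E4)) '' (Icc a b ×ˢ univ) := by
      ext x
      refine ⟨fun hx => ⟨(Real.log ‖x‖, prj x), ⟨hx.2, trivial⟩, exp_log_smul_prj hx.1⟩, ?_⟩
      rintro ⟨p, hp, rfl⟩
      exact polar_mem_An hp.1 p.2
    rw [this]
    exact (isCompact_Icc.prod isCompact_univ).image (by fun_prop)
  have hc : ContinuousOn (fun x : E4 => ∑ j ∈ Finset.range (N + 1),
      ‖x‖ ^ j * ‖iteratedFDeriv ℝ j U x‖) (An (Icc a b)) :=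
    continuousOn_finsetSum _ fun j hj x hx => ((continuous_norm.pow j).continuousAt.mul
      ((h x hx.1).continuousAt_iteratedFDeriv (by
        exact_mod_cast Nat.lt_succ_iff.1 (Finset.mem_range.1 hj))).norm).continuousWithinAt
  obtain ⟨K, hK⟩ := hK.bddAbove_image hc
  refine ⟨max K 1, by positivity, fun x hx => ⟨h x hx.1, fun j hj => le_max_of_le_left ?_⟩⟩
  exact (Finset.single_le_sum (f := fun j => ‖x‖ ^ j * ‖iteratedFDeriv ℝ j U x‖)
    (fun _ _ => by positivity) (Finset.mem_range.2 (Nat.lt_succ_of_le hj))).trans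
    (hK (mem_image_of_mem _ hx))

end Crest.Agent.N207.J

namespace Crest.Agent.N207.L
open J

section
variable {U U' W : E4 → ℂ} {x : E4} {M : ℝ}

theorem cj1_lin (a b : ℂ) (h : ContDiffAt ℝ (2 : ℕ) U x) (h' : ContDiffAt ℝ (2 : ℕ) U' x)
    (e : W =ᶠ[𝓝 x] fun y => a * U y + b * U' y) (j : Jx) :
    cj1 W x j = a * cj1 U x j + b * cj1 U' x j := by
  have e1 : ∀ᶠ y in 𝓝 x, ∀ v, fderiv ℝ W y v = a * fderiv ℝ U y v + b * fderiv ℝ U' y v := by
    filter_upwards [e.eventuallyEq_nhds, h.eventually (by simp), h'.eventually (by simp)]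
      with y hy h1 h2 v
    have d := (((h1.differentiableAt (by simp)).hasFDerivAt.const_mul a).add
      ((h2.differentiableAt (by simp)).hasFDerivAt.const_mul b)).fderiv
    rw [hy.fderiv_eq, show fderiv ℝ (fun y => a * U y + b * U' y) _ = _ from d]
    rfl
  rcases j with _ | i | i
  · exact e.eq_of_nhds
  · simp only [cj1, e1.self_of_nhds]; ring
  · have g : ∀ {V : E4 → ℂ}, ContDiffAt ℝ (2 : ℕ) V x →
        DifferentiableAt ℝ (fun y => fderiv ℝ V y (ee i.2)) x := fun h =>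
      ((h.fderiv_right (m := 1) (by norm_cast)).clm_apply contDiffAt_const).differentiableAt
        one_ne_zero
    have d := (((g h).hasFDerivAt.const_mul a).add ((g h').hasFDerivAt.const_mul b)).fderiv
    simp only [cj1]
    rw [EventuallyEq.fderiv_eq (e1.mono fun y hy => hy (ee i.2)),
      show fderiv ℝ (fun y => a * fderiv ℝ U y (ee i.2) + b * fderiv ℝ U' y (ee i.2)) _ = _ from d]
    simp only [add_apply, smul_apply, smul_eq_mul]; ring

theorem Lp2_eq (U : E4 → ℂ) (x : E4) : Lp2 U x = ∑ i, cj1 U x (some (.inr (i, i))) :=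
  Finset.mul_sum ..

theorem Lp2_lin (a b : ℂ) (h : ContDiffAt ℝ (2 : ℕ) U x) (h' : ContDiffAt ℝ (2 : ℕ) U' x)
    (e : W =ᶠ[𝓝 x] fun y => a * U y + b * U' y) : Lp2 W x = a * Lp2 U x + b * Lp2 U' x := by
  simp only [Lp2_eq, cj1_lin a b h h' e, Finset.sum_add_distrib, Finset.mul_sum]

theorem norm_cj1_le (h : PB 2 U x M) (j : Jx) : ‖cj1 U x j‖ ≤ M := by
  have n1 : ∀ i, ‖ee i‖ = 1 := fun i => by simp
  rcases j with _ | i | i
  · exact h.norm_le
  · refine le_trans ?_ (h.2 1 one_le_two)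
    rw [cj1, norm_mul, Complex.norm_real, norm_norm, pow_one, norm_iteratedFDeriv_one]
    exact mul_le_mul_of_nonneg_left ((ContinuousLinearMap.le_opNorm _ _).trans (by simp))
      (norm_nonneg _)
  · refine le_trans ?_ (h.2 2 le_rfl)
    rw [cj1, norm_mul, norm_pow, Complex.norm_real, norm_norm, fderiv_fderiv_apply h.1,
      ← norm_iteratedFDeriv_fderiv, norm_iteratedFDeriv_one]
    exact mul_le_mul_of_nonneg_left ((ContinuousLinearMap.le_opNorm₂ _ _ _).trans (by simp))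
      (by positivity)

end

variable {I : Set ℝ} {n : ℕ} {M : ℝ}

/-- the amplitudes of `fn c p q` are `p`, `q` -/
theorem Str.pm_fn {p q F : Md} (h : Str I p q F) (hI : IsOpen I) (hp : Mb I (n + 4) M p)
    (hq : Mb I (n + 4) M q) (hF : Mb I (n + 2) M F) (c : ℝ) {x : ℝ} (hx : x ∈ I) (k : ℕ) :
    pm (fn c p q) k (x + c) = p k x ∧ qm (fn c p q) k (x + c) = q k x := by
  have hI' : IsOpen ((· - c) ⁻¹' I) := hI.preimage (by fun_prop)
  have hx' : x + c ∈ (· - c) ⁻¹' I := by simpa using hx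
  have e0 : ∀ t ∈ (· - c) ⁻¹' I, mdU (fn c p q) k t = dt p q F 0 k (t - c) := fun t ht => by
    rw [mdU, fn, rst_ann]; exact (mb_dt0 (F := F) hp hq).P_val (n := n + 2) ht k
  have d1 := hasDerivAt_mdU hI' (n := 1) ((h.ch hI hp hq hF c).contDiffOn hI') k hx'
  have e1 := d1.unique (((h.d0 k hx').comp_sub_const (x + c) c).congr_of_eventuallyEq
    (eventually_of_mem (hI'.mem_nhds hx') e0))
  have := two_k_ne k
  rw [pm, qm, e0 _ hx', show mdU (Eu (fn c p q)) k (x + c) = _ from e1]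
  simp only [dt, add_sub_cancel_right]
  constructor <;> match_scalars <;> field_simp <;> ring

theorem Sol.pm_fn {ι : Type} [Fintype ι] {N : NL ι} {τ : ℝ → ℂ} {w om : ℝ → ℝ} {η G : ℝ}
    {p q F : ι → Md} (h : Sol N τ w om η p q F) (hI : IsOpen I) (hτ : ∀ x ∈ I, τ x = 1)
    (hG : 0 ≤ G) (hG1 : G ≤ 1) (hw : ∀ x ∈ I, |w x| ≤ G) (ho : ∀ x ∈ I, |om x| ≤ 1) (c : ℝ) (i : ι)
    {x : ℝ} (hx : x ∈ I) (k : ℕ) :
    pm (fn c (p i) (q i)) k (x + c) = p i k x ∧ qm (fn c (p i) (q i)) k (x + c) = q i k x :=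
  let ⟨h1, h2, h3⟩ := h.mb hG hG1 hw ho i
  (h.str hI hτ i).pm_fn (n := 1) hI h1 h2 h3 c hx k

end Crest.Agent.N207.L
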