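import Crest.Agent.N207.L.Inv2
import Crest.Agent.N207.L.Br5
import Crest.Agent.N207.CB.Nl1
import Crest.Agent.N207.CB.Nl2
import Crest.Agent.N207.CB.Boot
import Crest.Agent.N207.CB.Anx1

/-! # N207/L/As1 (helper71): an invariant mode solution is a solution `ASol` on an annulus -/

set_option autoImplicit false
set_option linter.unusedSectionVars false
open scoped ContDiff
open Set Filter Topology MeasureTheory
open Crest.GeometryTopology.CoordMetric

noncomputable section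

namespace Crest.Agent.N207.L
open J I CB Lg

theorem pd_small {A : Matrix (Fin 4) (Fin 4) ℝ} (hs : A.IsSymm) (h : ∀ a b, |A a b| ≤ 1 / 8) :
    (1 + A).PosDef := by
  refine Matrix.PosDef.of_dotProduct_mulVec_pos ?_ fun v hv => ?_
  · exact Matrix.isHermitian_one.add (by simpa [Matrix.IsHermitian] using hs.eq)
  · have h1 : ∀ a b, -((v a ^ 2 + v b ^ 2) / 16) ≤ v a * (A a b * v b) := fun a b => by
      have := abs_le.1 (h a b)
      nlinarith [sq_nonneg (v a + v b), sq_nonneg (v a - v b),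
        mul_nonneg (sub_nonneg.2 this.2) (sq_nonneg (v a - v b)),
        mul_nonneg (sub_nonneg.2 this.1) (sq_nonneg (v a + v b))]
    have h2 : 0 < ∑ a, v a ^ 2 := by
      obtain ⟨a, ha⟩ := Function.ne_iff.1 hv
      exact Finset.sum_pos' (fun _ _ => sq_nonneg _) ⟨a, Finset.mem_univ _, pow_pos_of_ne ha⟩
    have h3 : ∑ a, ∑ b, -((v a ^ 2 + v b ^ 2) / 16) ≤ ∑ a, ∑ b, v a * (A a b * v b) :=
      Finset.sum_le_sum fun a _ => Finset.sum_le_sum fun b _ => h1 a b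
    rw [Matrix.add_mulVec, Matrix.one_mulVec, dotProduct_add]
    simp only [dotProduct, Matrix.mulVec, star_trivial, Fin.sum_univ_four] at h2 h3 ⊢
    nlinarith
where pow_pos_of_ne {x : ℝ} (h : x ≠ 0) : 0 < x ^ 2 := by positivity

/-- the real matrix field of a mode solution -/
def uS (c : ℝ) (p q : IX → Md) : MetricField 4 := reM fun i => fn c (p i) (q i)

/-- constant of the `C²` bound -/
def cS : ℝ := 12 * (cB 0 0 + cB 1 0 + cB 2 0)

theorem cB_le_cS {j : ℕ} (hj : j ≤ 2) : cB j 0 * 12 ≤ cS := by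
  have h0 := cB_pos 0 0
  have h1 := cB_pos 1 0
  have h2 := cB_pos 2 0
  unfold cS
  interval_cases j <;> linarith

theorem one_le_cS : 1 ≤ cS := by
  have := cB_le_cS (Nat.zero_le 2)
  rw [cB] at this
  linarith

variable {Γ : Subgroup Iso4} {τ : ℝ → ℂ} {w om : ℝ → ℝ} {η G c : ℝ} {p q F : IX → Md}
  {I J : Set ℝ}

theorem Sol.eta_nn {ι : Type} [Fintype ι] [Nonempty ι] {N : NL ι} {p q F : ι → Md}
    (h : Sol N τ w om η p q F) : 0 ≤ η := (h.bp (Classical.arbitrary ι)).nn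

section
variable (h : Sol NQ τ w om η p q F) (hI : IsOpen I) (hτ : ∀ x ∈ I, τ x = 1)
  (hJ : ∀ t, t ∈ J ↔ t - c ∈ I) (ho : ∀ x ∈ I, |om x| ≤ 1)
include h hI hτ hJ ho

/-- `C²` and the weighted bound -/
theorem Sol.uS_bd (hG : 0 ≤ G) (hG1 : G ≤ 1) (hw : ∀ x ∈ I, |w x| ≤ G) :
    (∀ a b, ContDiffOn ℝ 2 (fun x => uS c p q x a b) (An J)) ∧
      B2 (An J) (cS * (η * G)) (uS c p q) := by
  obtain rfl : J = (· - c) ⁻¹' I := Set.ext hJ
  have hI' : IsOpen ((· - c) ⁻¹' I) := hI.preimage (by fun_prop)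
  obtain ⟨-, h2, h3⟩ := h.real hI hτ hG hG1 hw ho c
  refine ⟨fun a b => Complex.reCLM.contDiff.comp_contDiffOn (h2 (.inl (a, b))),
    fun x hx j hj a b => ?_⟩
  have e := Complex.reCLM.norm_iteratedFDeriv_comp_left
    ((h2 (.inl (a, b))).contDiffAt ((isOpen_An hI').mem_nhds hx)) (n := j) (by exact_mod_cast hj)
  rw [Complex.reCLM_norm, one_mul] at e
  refine (mul_le_mul_of_nonneg_left e (by positivity)).trans (((h3 x hx).1 _ j hj).trans ?_)
  have := mul_le_mul_of_nonneg_right (cB_le_cS hj) (mul_nonneg h.eta_nn hG)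
  linarith

variable (hw : ∀ x ∈ I, |w x| ≤ 1) (hp : ∀ t ∈ I, InvM Γ fun i k => p i k t)
  (hq : ∀ t ∈ I, InvM Γ fun i k => q i k t)
include hw hp hq

theorem Sol.uS_inv {x : E4} (hx : x ∈ An J) :
    (∀ a b, fn c (p (.inl (a, b))) (q (.inl (a, b))) x = cf (uS c p q) a b x) ∧
    (uS c p q x).IsSymm ∧ ∀ γ ∈ Γ, uS c p q x = pullM γ (uS c p q) x := by
  obtain rfl : J = (· - c) ⁻¹' I := Set.ext hJ
  have hm := h.mb zero_le_one le_rfl hw ho
  have := finv (Γ := Γ) (f := fun i k x => p i k x + q i k x) (n := 3) c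
    (fun t ht => (hp t ht).add (hq t ht)) (fun i => (hm i).1.add (hm i).2.1) hx
  exact ⟨this.1, this.2.1, this.2.2.1⟩

theorem Sol.uS_ev {x : E4} (hx : x ∈ An J) (a b : Fin 4) :
    fn c (p (.inl (a, b))) (q (.inl (a, b))) =ᶠ[𝓝 x] cf (uS c p q) a b := by
  have hJ' : IsOpen J := by rw [(Set.ext hJ : J = (· - c) ⁻¹' I)]; exact hI.preimage (by fun_prop)
  filter_upwards [(isOpen_An hJ').mem_nhds hx] with y hy
  exact (h.uS_inv hI hτ hJ ho hw hp hq hy).1 a b

/-- amplitudes -/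
theorem Sol.uS_pm {t : ℝ} (ht : t ∈ J) (a b : Fin 4) (k : ℕ) :
    pm (cf (uS c p q) a b) k t = p (.inl (a, b)) k (t - c) ∧
      qm (cf (uS c p q) a b) k t = q (.inl (a, b)) k (t - c) := by
  have e : ∀ o : S3, fn c (p (.inl (a, b))) (q (.inl (a, b))) =ᶠ[𝓝 (Real.exp t • (o : E4))]
      cf (uS c p q) a b := fun o => h.uS_ev hI hτ hJ ho hw hp hq (by
    have h1 : ‖Real.exp t • (o : E4)‖ = Real.exp t := by
      rw [norm_smul, Real.norm_of_nonneg (Real.exp_pos t).le, norm_eq_of_mem_sphere, mul_one]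
    exact ⟨norm_pos_iff.1 (by rw [h1]; exact Real.exp_pos t), by rw [h1, Real.log_exp]; exact ht⟩) a b
  have := h.pm_fn hI hτ zero_le_one le_rfl hw ho c (.inl (a, b)) ((hJ t).1 ht) k
  rw [sub_add_cancel, Ax.pm_congr e, Ax.qm_congr e] at this
  exact this

variable (hη : cS * η ≤ 1 / 8)
include hη

theorem Sol.uS_pos {x : E4} (hx : x ∈ An J) : ((fl1 + uS c p q) x).PosDef := by
  refine pd_small (h.uS_inv hI hτ hJ ho hw hp hq hx).2.1 fun a b => ?_
  have := (h.uS_bd hI hτ hJ ho zero_le_one le_rfl hw).2 x hx 0 (Nat.zero_le 2) a b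
  rw [pow_zero, one_mul, norm_iteratedFDeriv_zero, mul_one] at this
  exact this.trans hη

theorem Sol.uS_c2 {x : E4} (hx : x ∈ An J) : C2 (fl1 + uS c p q) x := by
  have hJ' : IsOpen J := by rw [(Set.ext hJ : J = (· - c) ⁻¹' I)]; exact hI.preimage (by fun_prop)
  have hn := (isOpen_An hJ').mem_nhds hx
  refine ⟨fun a b => contDiffAt_const.add
    (((h.uS_bd hI hτ hJ ho zero_le_one le_rfl hw).1 a b).contDiffAt hn), ?_,
    (h.uS_pos hI hτ hJ ho hw hp hq hη hx).det_pos⟩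
  filter_upwards [hn] with y hy a b
  exact (h.uS_pos hI hτ hJ ho hw hp hq hη hy).isHermitian.apply b a

theorem Sol.uS_eq {x : E4} (hx : x ∈ An J) : redM fl1 (fl1 + uS c p q) x = 0 ∧
    annw 2 (fun t => val (F (.inr ())) (t - c)) x = (fgfF fl1 (fl1 + uS c p q) x : ℝ) := by
  have hx' : x ∈ An ((· - c) ⁻¹' I) := ⟨hx.1, (hJ _).1 hx.2⟩
  obtain ⟨-, -, e1, e2⟩ := (h.real hI hτ zero_le_one le_rfl hw ho c).2.2 x hx'
  have hU := h.uS_ev hI hτ hJ ho hw hp hq hx
  have hC := h.uS_c2 hI hτ hJ ho hw hp hq hη hx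
  have hn : ((‖x‖ : ℝ) : ℂ) ≠ 0 := by exact_mod_cast norm_ne_zero_iff.2 hx.1
  constructor
  · ext a b
    have e := NQ_red (U := fun i => fn c (p i) (q i)) hU hC a b
    have e3 : Lp2 (cf (uS c p q) a b) x = Lp2 (fn c (p (.inl (a, b))) (q (.inl (a, b)))) x := by
      simp only [Lp2]
      congr 1
      refine Finset.sum_congr rfl fun i _ => ?_
      have e4 : (fun y => fderiv ℝ (cf (uS c p q) a b) y (ee i)) =ᶠ[𝓝 x]
          fun y => fderiv ℝ (fn c (p (.inl (a, b))) (q (.inl (a, b)))) y (ee i) :=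
        ((hU a b).fderiv (𝕜 := ℝ)).mono fun y hy => by simp only [hy]
      rw [e4.fderiv_eq]
    rw [← e2, e3, sub_self, mul_zero] at e
    exact_mod_cast (mul_eq_zero.1 e).resolve_left (pow_ne_zero _ hn)
  · have e := NQ_en (U := fun i => fn c (p i) (q i)) hU hC ()
    rw [← e2] at e
    beta_reduce at e
    rw [annw, ann, ← e1, e]
    push_cast
    field_simp

theorem Sol.uS_sm : Inv Γ ∞ (An J) (uS c p q) := by
  have hJ' : IsOpen J := by rw [(Set.ext hJ : J = (· - c) ⁻¹' I)]; exact hI.preimage (by fun_prop)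
  refine ⟨fun a b => ?_, fun x hx => (h.uS_inv hI hτ hJ ho hw hp hq hx).2.1,
    fun γ hγ x hx => (h.uS_inv hI hτ hJ ho hw hp hq hx).2.2 γ hγ⟩
  have := boot (An J) fl1 (fl1 + uS c p q) Empty (fun _ => 0) (fun _ => 0) (isOpen_An hJ')
    (riem_one (isOpen_An hJ')) (fun j => j.elim)
    (fun a b => contDiffOn_const.add ((h.uS_bd hI hτ hJ ho zero_le_one le_rfl hw).1 a b))
    (fun x hx => h.uS_pos hI hτ hJ ho hw hp hq hη hx)
    (fun x hx => by simpa using (h.uS_eq hI hτ hJ ho hw hp hq hη hx).1) a b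
  refine (this.sub (contDiffOn_const (c := (1 : Matrix (Fin 4) (Fin 4) ℝ) a b))).congr
    fun x _ => ?_
  simp

/-- **`ASol` from `Sol`** -/
theorem Sol.asol (hi : IntegrableOn (annw 2 fun t => val (F (.inr ())) (t - c)) (An J)) :
    ∃ en : ℝ, ASol Γ J (cS * η) en (uS c p q) ∧
      (en : ℂ) = ∫ x in An J, annw 2 (fun t => val (F (.inr ())) (t - c)) x := by
  have hJ' : IsOpen J := by rw [(Set.ext hJ : J = (· - c) ⁻¹' I)]; exact hI.preimage (by fun_prop)
  have hm := (isOpen_An hJ').measurableSet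
  have e := fun x hx => (h.uS_eq hI hτ hJ ho hw hp hq hη (x := x) hx).2
  refine ⟨_, ⟨h.uS_sm hI hτ hJ ho hw hp hq hη, fun x hx => h.uS_pos hI hτ hJ ho hw hp hq hη hx,
    fun x hx => (h.uS_eq hI hτ hJ ho hw hp hq hη hx).1, ?_, ?_, rfl⟩, ?_⟩
  · simpa using (h.uS_bd hI hτ hJ ho zero_le_one le_rfl hw).2
  · exact IntegrableOn.congr_fun hi.re (fun x hx => by simp [e x hx]) hm
  · rw [← integral_complex_ofReal]
    exact setIntegral_congr_fun hm fun x hx => (e x hx).symm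

end

/-- decay on the half line -/
theorem Sol.uS_dec (h : Sol NQ τ w om η p q F) (hτ : ∀ x ∈ Ioi (1 : ℝ), τ x = 1)
    (ho : ∀ x ∈ Ioi (1 : ℝ), |om x| ≤ 1)
    (hw : ∀ x ∈ Ioi (1 : ℝ), |w x| ≤ Real.exp (-(3 / 2) * (x - 1))) {x : E4}
    (hx : x ∈ An (Ioi 1)) {j : ℕ} (hj : j ≤ 2) (a b : Fin 4) :
    ‖x‖ ^ j * ‖iteratedFDeriv ℝ j (fun z => uS 0 p q z a b) x‖ ≤
      cS * η * (Real.exp 4 / ‖x‖) ^ (3 / 2 : ℝ) := by
  have hn := norm_pos_iff.2 hx.1
  have h1 : (1 : ℝ) < Real.log ‖x‖ := hx.2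
  set m := max 1 (Real.log ‖x‖ - 1) with hm
  have hs : Ioi m ⊆ Ioi (1 : ℝ) := Ioi_subset_Ioi (le_max_left _ _)
  have := (h.uS_bd (c := 0) (I := Ioi m) (J := Ioi m) isOpen_Ioi (fun x hx => hτ x (hs hx))
    (fun t => by rw [sub_zero]) (fun x hx => ho x (hs hx))
    (G := Real.exp (-(3 / 2) * (m - 1))) (Real.exp_pos _).le
    (Real.exp_le_one_iff.2 (by nlinarith [le_max_left 1 (Real.log ‖x‖ - 1)]))
    (fun t ht => (hw t (hs ht)).trans (Real.exp_le_exp.2 (by
      have : m < t := ht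
      nlinarith)))).2 x ⟨hx.1, max_lt h1 (by linarith)⟩ j hj a b
  refine this.trans ?_
  rw [← mul_assoc]
  refine mul_le_mul_of_nonneg_left ?_ (mul_nonneg (zero_le_one.trans one_le_cS) h.eta_nn)
  rw [Real.rpow_def_of_pos (div_pos (Real.exp_pos _) hn), Real.log_div (Real.exp_pos _).ne' hn.ne',
    Real.log_exp]
  exact Real.exp_le_exp.2 (by nlinarith [le_max_right 1 (Real.log ‖x‖ - 1)])

/-- the amplitudes at the ends of an interval -/
theorem Sol.uS_lim (h : Sol NQ τ w om η p q F) {a b : ℝ} (hab : a < b)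
    (hτ : ∀ x ∈ Ioo a b, τ x = 1) (ho : ∀ x ∈ Ioo a b, |om x| ≤ 1) (hw : ∀ x ∈ Ioo a b, |w x| ≤ 1)
    (hp : ∀ t ∈ Ioo a b, InvM Γ fun i k => p i k t) (hq : ∀ t ∈ Ioo a b, InvM Γ fun i k => q i k t)
    (c : ℝ) (i j : Fin 4) (k : ℕ) :
    Tendsto (qm (cf (uS c p q) i j) k) (𝓝[>] (a + c)) (𝓝 (q (.inl (i, j)) k a)) ∧
      Tendsto (pm (cf (uS c p q) i j) k) (𝓝[<] (b + c)) (𝓝 (p (.inl (i, j)) k b)) := by
  have hJ : ∀ t, t ∈ Ioo (a + c) (b + c) ↔ t - c ∈ Ioo a b := fun t => by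
    simp only [mem_Ioo]; constructor <;> intro h <;> constructor <;> linarith [h.1, h.2]
  have e := fun t ht => h.uS_pm isOpen_Ioo hτ hJ ho hw hp hq (t := t) ht i j k
  have hc : a + c < b + c := by linarith
  constructor
  · have h1 : Tendsto (fun t => q (.inl (i, j)) k (t - c)) (𝓝[>] (a + c))
        (𝓝 (q (.inl (i, j)) k (a + c - c))) :=
      ((((h.bq _).cont k).comp (continuous_id.sub continuous_const)).tendsto _).mono_left
        nhdsWithin_le_nhds
    rw [add_sub_cancel_right] at h1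
    exact h1.congr' (mem_of_superset (Ioo_mem_nhdsGT hc) fun t ht => (e t ht).2.symm)
  · have h1 : Tendsto (fun t => p (.inl (i, j)) k (t - c)) (𝓝[<] (b + c))
        (𝓝 (p (.inl (i, j)) k (b + c - c))) :=
      ((((h.bp _).cont k).comp (continuous_id.sub continuous_const)).tendsto _).mono_left
        nhdsWithin_le_nhds
    rw [add_sub_cancel_right] at h1
    exact h1.congr' (mem_of_superset (Ioo_mem_nhdsLT hc) fun t ht => (e t ht).1.symm)

end Crest.Agent.N207.L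

end
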