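import Crest.Agent.N207.L.Br2

/-! # N207/L/Br3 (helper72): the `H²` estimate on an annulus -/

set_option autoImplicit false
set_option maxHeartbeats 400000
set_option linter.unusedSectionVars false
open Set Filter Topology MeasureTheory
open Crest.Agent.R246.Zon797 (Pr)
open scoped InnerProductSpace

noncomputable section

namespace Crest.Agent.N207.L
open J

theorem hasDerivAt_nsq {v : ℝ → H} {v' : H} {t : ℝ} (h : HasDerivAt v v' t) :
    HasDerivAt (fun t => ‖v t‖ ^ 2) (2 * (⟪v t, v'⟫_ℂ).re) t := by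
  have h1 := Complex.reCLM.hasFDerivAt.comp_hasDerivAt t (h.inner ℂ h)
  have e : (Complex.reCLM ∘ fun t => ⟪v t, v t⟫_ℂ) = fun t => ‖v t‖ ^ 2 := by
    funext t
    exact (inner_self_eq_norm_sq (𝕜 := ℂ) (v t))
  rw [e] at h1
  refine h1.congr_deriv ?_
  rw [← inner_conj_symm v' (v t)]
  simp only [Complex.reCLM_apply, Complex.add_re, Complex.conj_re]
  ring

/-- continuous and bounded on `(a, b)` -/
def BC {V : Type*} [NormedAddCommGroup V] (a b : ℝ) (f : ℝ → V) : Prop :=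
  ContinuousOn f (Ioo a b) ∧ ∃ M, ∀ t ∈ Ioo a b, ‖f t‖ ≤ M

section BC
variable {V V' : Type*} [NormedAddCommGroup V] [NormedAddCommGroup V'] {a b : ℝ} {f g : ℝ → V}

theorem BC.ii (h : BC a b f) (hab : a ≤ b) : IntervalIntegrable f volume a b := by
  obtain ⟨hc, M, hM⟩ := h
  rw [intervalIntegrable_iff_integrableOn_Ioo_of_le hab]
  exact Integrable.mono' (g := fun _ => M) (integrableOn_const measure_Ioo_lt_top.ne)
    (hc.aestronglyMeasurable measurableSet_Ioo)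
    ((ae_restrict_iff' measurableSet_Ioo).2 (Eventually.of_forall hM))

theorem BC.add (h : BC a b f) (h' : BC a b g) : BC a b fun t => f t + g t :=
  let ⟨M, hM⟩ := h.2
  let ⟨M', hM'⟩ := h'.2
  ⟨h.1.add h'.1, M + M', fun t ht => norm_add_le_of_le (hM t ht) (hM' t ht)⟩

theorem BC.map (h : BC a b f) {φ : V → V'} (hφ : Continuous φ) {C : ℝ} (hC : 0 ≤ C)
    (hb : ∀ v, ‖φ v‖ ≤ C * ‖v‖) : BC a b fun t => φ (f t) :=
  let ⟨M, hM⟩ := h.2
  ⟨hφ.comp_continuousOn h.1, C * M, fun t ht =>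
    (hb _).trans (mul_le_mul_of_nonneg_left (hM t ht) hC)⟩

theorem BC.norm (h : BC a b f) : BC a b fun t => ‖f t‖ :=
  h.map continuous_norm zero_le_one fun v => by simp

theorem BC.neg (h : BC a b f) : BC a b fun t => -f t :=
  h.map continuous_neg zero_le_one fun v => by simp

theorem BC.smul {𝕜 : Type*} [NormedField 𝕜] [NormedSpace 𝕜 V] (h : BC a b f) (c : 𝕜) :
    BC a b fun t => c • f t :=
  h.map (continuous_const_smul c) (norm_nonneg c) fun v => (norm_smul c v).le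

theorem BC.mul {f : ℝ → ℝ} (h : BC a b f) (c : ℝ) : BC a b fun t => c * f t :=
  h.map (continuous_const_mul c) (norm_nonneg c) fun v => (norm_mul c v).le

theorem BC.sq {f : ℝ → ℝ} (h : BC a b f) : BC a b fun t => f t ^ 2 :=
  let ⟨M, hM⟩ := h.2
  ⟨h.1.pow 2, M ^ 2, fun t ht => by
    rw [norm_pow]; exact pow_le_pow_left₀ (norm_nonneg _) (hM t ht) 2⟩

theorem BC.sum {κ : Type*} (s : Finset κ) {f : κ → ℝ → V} (h : ∀ i, BC a b (f i)) :
    BC a b fun t => ∑ i ∈ s, f i t := by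
  choose M hM using fun i => (h i).2
  exact ⟨continuousOn_finsetSum _ fun i _ => (h i).1, ∑ i ∈ s, M i, fun t ht =>
    norm_sum_le_of_le _ fun i _ => hM i t ht⟩

theorem BC.refl (h : BC a b f) : BC (-b) (-a) fun t => f (-t) :=
  have hm : ∀ t ∈ Ioo (-b) (-a), -t ∈ Ioo a b := fun t ht =>
    ⟨by linarith [ht.2], by linarith [ht.1]⟩
  let ⟨M, hM⟩ := h.2
  ⟨h.1.comp continuousOn_neg hm, M, fun t ht => hM _ (hm t ht)⟩

end BC

theorem ftc_nonneg {f f' φ : ℝ → ℝ} {a b : ℝ} (hab : a < b)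
    (hd : ∀ t ∈ Ioo a b, HasDerivAt f (f' t) t) (hφ : BC a b φ) (hle : ∀ t ∈ Ioo a b, f' t ≤ φ t)
    (ha : Tendsto f (𝓝[>] a) (𝓝 0)) (h0 : ∀ t ∈ Ioo a b, 0 ≤ f t) : 0 ≤ ∫ t in a..b, φ t := by
  have i0 := hφ.ii hab.le
  have c := intervalIntegral.continuousOn_primitive_interval' i0 left_mem_uIcc
  rw [uIcc_of_le hab.le] at c
  have i1 : ∀ t ∈ Ioo a b, IntervalIntegrable φ volume a t := fun t ht =>
    i0.mono_set (uIcc_subset_uIcc_left (mem_uIcc_of_le ht.1.le ht.2.le))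
  have l1 : Tendsto (fun t => ∫ x in a..t, φ x) (𝓝[>] a) (𝓝 0) := by
    have := (c a (left_mem_Icc.2 hab.le)).tendsto
    rw [intervalIntegral.integral_same] at this
    exact this.mono_left (nhdsWithin_le_of_mem (Icc_mem_nhdsGT hab))
  refine ge_of_tendsto ((c b (right_mem_Icc.2 hab.le)).tendsto.mono_left
    (nhdsWithin_le_of_mem (Icc_mem_nhdsLT hab))) ?_
  filter_upwards [Ioo_mem_nhdsLT hab] with t ht
  have l2 := (ha.sub l1).add_const (∫ x in a..t, φ x)
  rw [sub_zero, zero_add] at l2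
  refine ge_of_tendsto l2 ?_
  filter_upwards [Ioo_mem_nhdsGT ht.1] with s hs
  have hsub : Icc s t ⊆ Ioo a b := Icc_subset_Ioo hs.1 ht.2
  have := intervalIntegral.sub_le_integral_of_hasDeriv_right_of_le hs.2.le
    (fun x hx => (hd x (hsub hx)).continuousAt.continuousWithinAt)
    (fun x hx => (hd x (hsub (Ioo_subset_Icc_self hx))).hasDerivWithinAt)
    (hφ.1.mono hsub).integrableOn_Icc fun x hx => hle x (hsub (Ioo_subset_Icc_self hx))
  rw [← intervalIntegral.integral_interval_sub_left (i1 t ht) (i1 s ⟨hs.1, hs.2.trans ht.2⟩)] at this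
  linarith [h0 t ht]

theorem energy_fwd {v G : ℝ → H} {a b m : ℝ} (hab : a < b) (hm : 0 < m)
    (h : ∀ t ∈ Ioo a b, HasDerivAt v (-(m : ℂ) • v t + G t) t) (hv : BC a b v) (hG : BC a b G)
    (h0 : Tendsto v (𝓝[>] a) (𝓝 0)) :
    m ^ 2 * ∫ t in a..b, ‖v t‖ ^ 2 ≤ ∫ t in a..b, ‖G t‖ ^ 2 := by
  have key := ftc_nonneg hab (fun t ht => hasDerivAt_nsq (h t ht))
    (φ := fun t => m⁻¹ * ‖G t‖ ^ 2 + (-m) * ‖v t‖ ^ 2)
    ((hG.norm.sq.mul _).add (hv.norm.sq.mul _)) (fun t _ => by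
      rw [inner_add_right, inner_smul_right, Complex.add_re]
      have e1 : (-(m : ℂ) * ⟪v t, v t⟫_ℂ).re = -m * ‖v t‖ ^ 2 := by
        rw [inner_self_eq_norm_sq_to_K, ← Complex.ofReal_neg, Complex.re_ofReal_mul]
        congr 1
        exact Complex.ofReal_re (‖v t‖ ^ 2) ▸ congrArg Complex.re (Complex.ofReal_pow _ 2).symm
      have e2 : (⟪v t, G t⟫_ℂ).re ≤ ‖v t‖ * ‖G t‖ :=
        (Complex.re_le_norm _).trans (norm_inner_le_norm _ _)
      have e3 : 2 * (‖v t‖ * ‖G t‖) ≤ m * ‖v t‖ ^ 2 + m⁻¹ * ‖G t‖ ^ 2 := by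
        have : 0 ≤ m⁻¹ * (m * ‖v t‖ - ‖G t‖) ^ 2 := by positivity
        have e4 : m⁻¹ * (m * ‖v t‖ - ‖G t‖) ^ 2
            = m * ‖v t‖ ^ 2 + m⁻¹ * ‖G t‖ ^ 2 - 2 * (‖v t‖ * ‖G t‖) := by field_simp; ring
        linarith
      rw [e1]; linarith) (by simpa using h0.norm.pow 2)
    fun _ _ => by positivity
  rw [intervalIntegral.integral_add ((hG.norm.sq.ii hab.le).const_mul _)
    ((hv.norm.sq.ii hab.le).const_mul _), intervalIntegral.integral_const_mul,
    intervalIntegral.integral_const_mul] at key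
  have := mul_nonneg hm.le key
  rw [mul_add, ← mul_assoc, mul_inv_cancel₀ hm.ne', one_mul] at this
  linarith

theorem energy_bwd {v G : ℝ → H} {a b m : ℝ} (hab : a < b) (hm : 0 < m)
    (h : ∀ t ∈ Ioo a b, HasDerivAt v ((m : ℂ) • v t + G t) t) (hv : BC a b v) (hG : BC a b G)
    (h0 : Tendsto v (𝓝[<] b) (𝓝 0)) :
    m ^ 2 * ∫ t in a..b, ‖v t‖ ^ 2 ≤ ∫ t in a..b, ‖G t‖ ^ 2 := by
  have := energy_fwd (v := fun t => v (-t)) (G := fun t => -G (-t)) (neg_lt_neg hab) hm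
    (fun t ht => ((h _ ⟨by linarith [ht.2], by linarith [ht.1]⟩).scomp t
      (hasDerivAt_neg t)).congr_deriv (by rw [neg_one_smul, neg_add, neg_smul]))
    hv.refl hG.refl.neg (h0.comp (by simpa using tendsto_neg_nhdsGT (a := -b)))
  simp only [norm_neg] at this
  rwa [intervalIntegral.integral_comp_neg (fun t => ‖v t‖ ^ 2),
    intervalIntegral.integral_comp_neg (fun t => ‖G t‖ ^ 2), neg_neg, neg_neg] at this

theorem energy_zero {v G : ℝ → H} {a b : ℝ} (hab : a < b)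
    (h : ∀ t ∈ Ioo a b, HasDerivAt v (G t) t) (hv : BC a b v) (hG : BC a b G)
    (h0 : Tendsto v (𝓝[>] a) (𝓝 0) ∨ Tendsto v (𝓝[<] b) (𝓝 0)) :
    ∫ t in a..b, ‖v t‖ ^ 2 ≤ (b - a) ^ 2 * ∫ t in a..b, ‖G t‖ ^ 2 := by
  have i1 := hG.norm.sq.ii hab.le
  have i0 := hG.norm.ii hab.le
  have f1 : ∀ s t, a < s → s ≤ t → t < b → ‖v t - v s‖ ≤ ∫ x in a..b, ‖G x‖ := by
    intro s t hs hst ht
    have hsub : Icc s t ⊆ Ioo a b := Icc_subset_Ioo hs ht
    rw [← intervalIntegral.integral_eq_sub_of_hasDerivAt (f' := G)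
      (fun x hx => h x (hsub (by rwa [uIcc_of_le hst] at hx)))
      ((hG.1.mono hsub).intervalIntegrable_of_Icc hst)]
    exact (intervalIntegral.norm_integral_le_integral_norm hst).trans
      (intervalIntegral.integral_mono_interval hs.le hst ht.le
        (Eventually.of_forall fun _ => norm_nonneg _) i0)
  have f2 : ∀ t ∈ Ioo a b, ‖v t‖ ≤ ∫ x in a..b, ‖G x‖ := by
    intro t ht
    rcases h0 with h0 | h0
    · refine le_of_tendsto (by simpa using (h0.const_sub (v t)).norm) ?_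
      filter_upwards [Ioo_mem_nhdsGT ht.1] with s hs using f1 s t hs.1 hs.2.le ht.2
    · refine le_of_tendsto (by simpa using (h0.sub_const (v t)).norm) ?_
      filter_upwards [Ioo_mem_nhdsLT ht.2] with s hs using f1 t s ht.1 hs.1.le hs.2
  set S := ∫ x in a..b, ‖G x‖
  have hp : 0 < b - a := sub_pos.2 hab
  have f3 : S ^ 2 ≤ (b - a) * ∫ t in a..b, ‖G t‖ ^ 2 := by
    have := intervalIntegral.integral_mono_on hab.le (i0.const_mul (2 * (S / (b - a))))
      (i1.add (intervalIntegrable_const (c := (S / (b - a)) ^ 2))) fun x _ => by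
        nlinarith [sq_nonneg (‖G x‖ - S / (b - a))]
    rw [intervalIntegral.integral_const_mul, intervalIntegral.integral_add i1
      intervalIntegrable_const, intervalIntegral.integral_const, smul_eq_mul] at this
    have e1 : 2 * (S / (b - a)) * S = 2 * (S ^ 2 / (b - a)) := by ring
    have e2 : (b - a) * (S / (b - a)) ^ 2 = S ^ 2 / (b - a) := by field_simp
    rw [e1, e2] at this
    rw [← div_le_iff₀' hp]; linarith
  have := intervalIntegral.integral_mono_on_of_le_Ioo hab.le (hv.norm.sq.ii hab.le)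
    (intervalIntegrable_const (c := S ^ 2)) fun t ht =>
      pow_le_pow_left₀ (norm_nonneg _) (f2 t ht) 2
  rw [intervalIntegral.integral_const, smul_eq_mul] at this
  nlinarith [mul_le_mul_of_nonneg_left f3 hp.le]

variable {U : E4 → ℂ} {a b M : ℝ}

theorem bc_rst (h : ∀ x ∈ An (Ioo a b), PB 0 U x M) : BC a b fun t => toH (rst U t) :=
  BC.map (f := rst U) ⟨continuousOn_rst fun x hx => (h x hx).1.continuousAt.continuousWithinAt,
    M, fun _ ht => norm_rst_le (h _ (polar_mem_An ht (prj 0))).nonneg fun ω =>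
      (h _ (polar_mem_An ht ω)).norm_le⟩ toH.continuous (by norm_num) norm_toH_le

theorem bc_mdU (h : ∀ x ∈ An (Ioo a b), PB 0 U x M) (k : ℕ) : BC a b (mdU U k) :=
  (bc_rst h).map (P k).continuous zero_le_one fun v => by simpa using norm_P_le k v

theorem bc_pm (h : ∀ x ∈ An (Ioo a b), PB 2 U x M) (k : ℕ) :
    BC a b (pm U k) ∧ BC a b (qm U k) := by
  have h0 := bc_mdU (fun x hx => (h x hx).mono (Nat.zero_le _) le_rfl) k
  have h1 := bc_mdU (fun x hx => (h x hx).eu.mono (Nat.zero_le _) le_rfl) k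
  refine ⟨((h0.smul _).add h1).smul _, ?_⟩
  have := ((h0.smul (k : ℂ)).add h1.neg).smul (2 * (k : ℂ) + 2)⁻¹
  simp only [← sub_eq_add_neg] at this
  exact this

theorem bessel_int (hab : a ≤ b) (h : ∀ x ∈ An (Ioo a b), PB 0 U x M) (s : Finset ℕ) :
    ∑ k ∈ s, ∫ t in a..b, ‖mdU U k t‖ ^ 2 ≤ ∫ t in a..b, ‖toH (rst U t)‖ ^ 2 := by
  rw [← intervalIntegral.integral_finsetSum fun k _ => (bc_mdU h k).norm.sq.ii hab]
  exact intervalIntegral.integral_mono_on hab
    ((BC.sum s fun k => (bc_mdU h k).norm.sq).ii hab) ((bc_rst h).norm.sq.ii hab) fun t _ =>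
    sum_le_hasSum s (fun _ _ => by positivity) (parseval _)

theorem parseval_int (hab : a ≤ b) (h : ∀ x ∈ An (Ioo a b), PB 0 U x M) {c : ℝ}
    (hc : ∀ s : Finset ℕ, ∑ k ∈ s, ∫ t in a..b, ‖mdU U k t‖ ^ 2 ≤ c) :
    ∫ t in a..b, ‖toH (rst U t)‖ ^ 2 ≤ c := by
  simp only [intervalIntegral.integral_of_le hab] at hc ⊢
  have hs : Summable fun k => ∫ t in Ioc a b, ‖mdU U k t‖ ^ 2 :=
    summable_of_sum_le (fun k => integral_nonneg fun _ => by positivity) hc
  have h1 := integral_tsum_of_summable_integral_norm (μ := volume.restrict (Ioc a b))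
    (F := fun k t => ‖mdU U k t‖ ^ 2) (fun k => ((bc_mdU h k).norm.sq.ii hab).1)
    (by simpa using hs)
  have e : ∀ t, ∑' k, ‖mdU U k t‖ ^ 2 = ‖toH (rst U t)‖ ^ 2 := fun t => (parseval _).tsum_eq
  simp only [e] at h1
  rw [← h1]
  exact hs.tsum_le_of_sum_le hc

/-- boundary conditions -/
def Bc (a b : ℝ) (U : E4 → ℂ) (k : ℕ) : Prop :=
  Tendsto (qm U k) (𝓝[>] a) (𝓝 0) ∧
    (Tendsto (pm U k) (𝓝[<] b) (𝓝 0) ∨ (k = 0 ∧ Tendsto (pm U k) (𝓝[>] a) (𝓝 0)))

/-- mode-wise `L²` estimate -/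
theorem mode_L2 (hab : a < b) (h : ∀ x ∈ An (Ioo a b), PB 2 U x M) (k : ℕ) (hb : Bc a b U k) :
    ∫ t in a..b, (((k : ℝ) + 1) ^ 2 * (‖pm U k t‖ + ‖qm U k t‖) + ‖mdU (Lp2 U) k t‖) ^ 2
      ≤ 3 * ((b - a) ^ 2 + 3) * ∫ t in a..b, ‖mdU (Lp2 U) k t‖ ^ 2 := by
  obtain ⟨hq, hp⟩ := hb
  have cF := bc_mdU (fun x hx => (h x hx).lp2) k
  have hU : ContDiffOn ℝ (2 : ℕ) U (An (Ioo a b)) := fun x hx => (h x hx).1.contDiffWithinAt
  have dp := fun t (ht : t ∈ Ioo a b) => hasDerivAt_pm isOpen_Ioo hU k ht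
  have dq := fun t (ht : t ∈ Ioo a b) => hasDerivAt_qm isOpen_Ioo hU k ht
  obtain ⟨cp, cq⟩ := bc_pm h k
  have hk : (0 : ℝ) ≤ k := Nat.cast_nonneg k
  set S := ∫ t in a..b, ‖mdU (Lp2 U) k t‖ ^ 2 with hS
  have S0 : 0 ≤ S := intervalIntegral.integral_nonneg hab.le fun _ _ => by positivity
  have eG : ∀ c : ℂ, ∫ t in a..b, ‖c • mdU (Lp2 U) k t‖ ^ 2 = ‖c‖ ^ 2 * S := fun c => by
    simp only [norm_smul, mul_pow, intervalIntegral.integral_const_mul, hS]
  have q1 : ((k : ℝ) + 1) ^ 4 * ∫ t in a..b, ‖qm U k t‖ ^ 2 ≤ S := by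
    have := energy_fwd (m := k + 2) (G := fun t => (-(2 * (k : ℂ) + 2)⁻¹) • mdU (Lp2 U) k t) hab
      (by positivity) (fun t ht => (dq t ht).congr_deriv (by
        push_cast; rw [neg_smul (2 * (k : ℂ) + 2)⁻¹, sub_eq_add_neg])) cq (cF.smul _) hq
    rw [eG, norm_neg, norm_inv_two_k, inv_pow, le_inv_mul_iff₀ (by positivity), ← mul_assoc] at this
    refine le_trans (mul_le_mul_of_nonneg_right ?_
      (intervalIntegral.integral_nonneg hab.le fun _ _ => by positivity)) this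
    rw [← mul_pow, show ((k : ℝ) + 1) ^ 4 = ((k + 1) * (k + 1)) ^ 2 by ring]
    exact pow_le_pow_left₀ (by positivity) (by nlinarith) 2
  have p1 : ((k : ℝ) + 1) ^ 4 * ∫ t in a..b, ‖pm U k t‖ ^ 2 ≤ ((b - a) ^ 2 + 1) * S := by
    rcases Nat.eq_zero_or_pos k with rfl | hk0
    · have := energy_zero (G := fun t => (2 * ((0 : ℕ) : ℂ) + 2)⁻¹ • mdU (Lp2 U) 0 t) hab
        (fun t ht => (dp t ht).congr_deriv (by simp)) cp (cF.smul _)
        (hp.elim Or.inr fun h => Or.inl h.2)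
      rw [eG, norm_inv_two_k] at this
      norm_num at this ⊢
      nlinarith [mul_nonneg (sq_nonneg (b - a)) S0]
    · have hk1 : (1 : ℝ) ≤ k := by exact_mod_cast hk0
      have := energy_bwd (m := k) (G := fun t => (2 * (k : ℂ) + 2)⁻¹ • mdU (Lp2 U) k t) hab
        (by positivity) (fun t ht => dp t ht) cp (cF.smul _)
        (hp.resolve_right fun h => hk0.ne' h.1)
      rw [eG, norm_inv_two_k, inv_pow, le_inv_mul_iff₀ (by positivity), ← mul_assoc] at this
      refine le_trans (le_trans (mul_le_mul_of_nonneg_right ?_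
        (intervalIntegral.integral_nonneg hab.le fun _ _ => by positivity)) this) ?_
      · rw [← mul_pow, show ((k : ℝ) + 1) ^ 4 = ((k + 1) * (k + 1)) ^ 2 by ring]
        exact pow_le_pow_left₀ (by positivity) (by nlinarith) 2
      · nlinarith [mul_nonneg (sq_nonneg (b - a)) S0]
  have ip := cp.norm.sq.ii hab.le
  have iq := cq.norm.sq.ii hab.le
  have iF := cF.norm.sq.ii hab.le
  have := intervalIntegral.integral_mono_on hab.le
    ((((cp.norm.add cq.norm).mul (((k : ℝ) + 1) ^ 2)).add cF.norm).sq.ii hab.le)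
    ((((ip.const_mul (((k : ℝ) + 1) ^ 4)).add (iq.const_mul (((k : ℝ) + 1) ^ 4))).add
      iF).const_mul 3) fun t _ => by
      nlinarith [sq_nonneg (((k : ℝ) + 1) ^ 2 * ‖pm U k t‖ - ((k : ℝ) + 1) ^ 2 * ‖qm U k t‖),
        sq_nonneg (((k : ℝ) + 1) ^ 2 * ‖pm U k t‖ - ‖mdU (Lp2 U) k t‖),
        sq_nonneg (((k : ℝ) + 1) ^ 2 * ‖qm U k t‖ - ‖mdU (Lp2 U) k t‖)]
  rw [intervalIntegral.integral_const_mul, intervalIntegral.integral_add
    ((ip.const_mul _).add (iq.const_mul _)) iF, intervalIntegral.integral_add (ip.const_mul _)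
    (iq.const_mul _), intervalIntegral.integral_const_mul,
    intervalIntegral.integral_const_mul] at this
  refine le_trans this ?_
  nlinarith

end Crest.Agent.N207.L
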