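import Crest.Agent.N250.H.Fix

/-! # N207/L/Fix (helper59): the fixed point `f = Q (L v + M f)` for a quadratically small `Q` -/

set_option autoImplicit false
set_option linter.unusedSectionVars false
open Set Filter Topology Metric

noncomputable section

namespace Crest.Agent.N207.L
open Crest.Agent.N250.H

variable {X1 X2 V Z : Type*} [NormedAddCommGroup X1] [NormedSpace ℂ X1] [NormedAddCommGroup X2]
  [NormedSpace ℂ X2] [NormedAddCommGroup V] [NormedSpace ℂ V] [NormedAddCommGroup Z]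
  [NormedSpace ℂ Z]

/-- quadratically small holomorphic maps -/
structure Qd (Q : X1 → X2) (r K : ℝ) : Prop where
  r0 : 0 < r
  K0 : 0 < K
  diff : DifferentiableOn ℂ Q (ball 0 r)
  bd : ∀ J, ‖J‖ ≤ r → ‖Q J‖ ≤ K * ‖J‖ ^ 2

/-- the radius of the fixed point ball -/
def eta (r K c : ℝ) : ℝ := min (r / (4 * c)) (1 / (36 * K * c ^ 2))

variable {Q : X1 → X2} {r K c : ℝ}

theorem Qd.eta_pos (h : Qd Q r K) (hc : 0 < c) : 0 < eta r K c := by
  have := h.r0; have := h.K0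
  exact lt_min (by positivity) (by positivity)

theorem eta_le1 (hc : 0 < c) : 4 * c * eta r K c ≤ r := by
  have := min_le_left (r / (4 * c)) (1 / (36 * K * c ^ 2))
  rw [le_div_iff₀ (by positivity)] at this
  unfold eta; linarith

theorem Qd.eta_le2 (h : Qd Q r K) (hc : 0 < c) : 36 * K * c ^ 2 * eta r K c ≤ 1 := by
  have := h.K0
  have h1 := min_le_right (r / (4 * c)) (1 / (36 * K * c ^ 2))
  rw [le_div_iff₀ (by positivity)] at h1
  unfold eta; linarith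

theorem Qd.arg_le (h : Qd Q r K) (hc : 0 < c) {u : X1} {M : X2 →L[ℂ] X1}
    (hu : ‖u‖ ≤ c * eta r K c) (hM : ‖M‖ ≤ c) {f : X2} (hf : ‖f‖ ≤ 2 * eta r K c) :
    ‖u + M f‖ ≤ 3 * c * eta r K c := by
  have := h.eta_pos hc
  have h1 : ‖M f‖ ≤ c * (2 * eta r K c) := (M.le_opNorm f).trans (by gcongr)
  linarith [norm_add_le u (M f)]

theorem Qd.arg_lt (h : Qd Q r K) (hc : 0 < c) {u : X1} {M : X2 →L[ℂ] X1}
    (hu : ‖u‖ ≤ c * eta r K c) (hM : ‖M‖ ≤ c) {f : X2} (hf : ‖f‖ ≤ 2 * eta r K c) :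
    ‖u + M f‖ < r := by
  have h1 := h.arg_le hc hu hM hf
  have h2 := eta_le1 (r := r) (K := K) hc
  have := mul_pos hc (h.eta_pos hc)
  linarith

theorem Qd.ctr (h : Qd Q r K) (hc : 0 < c) {u : X1} {M : X2 →L[ℂ] X1}
    (hu : ‖u‖ ≤ c * eta r K c) (hM : ‖M‖ ≤ c) :
    Ctr (fun f => Q (u + M f)) (closedBall 0 (eta r K c)) (1 / 2) := by
  have he := h.eta_pos hc
  have hK := h.K0
  have h2 := h.eta_le2 hc
  set η := eta r K c with hη
  have hb : ∀ f ∈ ball (0 : X2) (η + η), ‖f‖ ≤ 2 * η := fun f hf => by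
    have := mem_ball_zero_iff.1 hf; linarith
  have := ctr_of_small (T := fun f => Q (u + M f)) (x0 := 0) (ρ := η) (r := η) (ε := η / 4) he
    (h.diff.comp (by fun_prop) fun f hf => mem_ball_zero_iff.2 (h.arg_lt hc hu hM (hb f hf)))
    (fun f hf => ?_) (by linarith)
  · convert this using 1
    field_simp; norm_num
  · rw [sub_zero]
    refine (h.bd _ (h.arg_lt hc hu hM (hb f hf)).le).trans ?_
    have h3 := h.arg_le hc hu hM (hb f hf)
    calc K * ‖u + M f‖ ^ 2 ≤ K * (3 * c * η) ^ 2 := by gcongr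
      _ = 36 * K * c ^ 2 * η * (η / 4) := by ring
      _ ≤ 1 * (η / 4) := by gcongr
      _ = _ := one_mul _

theorem Qd.uniq (h : Qd Q r K) (hc : 0 < c) {u : X1} {M : X2 →L[ℂ] X1}
    (hu : ‖u‖ ≤ c * eta r K c) (hM : ‖M‖ ≤ c) {f g : X2} (hf : ‖f‖ ≤ eta r K c)
    (hg : ‖g‖ ≤ eta r K c) (ef : Q (u + M f) = f) (eg : Q (u + M g) = g) : f = g :=
  (h.ctr hc hu hM).uniq (by norm_num) (mem_closedBall_zero_iff.2 hf)
    (mem_closedBall_zero_iff.2 hg) ef eg

theorem Qd.fix_le (h : Qd Q r K) (hc : 0 < c) {u : X1} {M : X2 →L[ℂ] X1}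
    (hu : ‖u‖ ≤ c * eta r K c) (hM : ‖M‖ ≤ c) {f : X2} (hf : ‖f‖ ≤ eta r K c)
    (ef : Q (u + M f) = f) : ‖f‖ ≤ 2 * K * ‖u‖ ^ 2 := by
  have he := h.eta_pos hc
  have h1 := (h.ctr hc hu hM).dist_le (by norm_num) (mem_closedBall_zero_iff.2 hf)
    (mem_closedBall_self he.le) ef
  have h2 := h.arg_lt hc hu hM (f := 0) (by simp; positivity)
  simp only [sub_zero, map_zero, add_zero] at h1 h2
  have h3 := h.bd u h2.le
  norm_num at h1
  linarith

/-- existence and holomorphy -/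
theorem Qd.exists_fix [CompleteSpace X2] (h : Qd Q r K) (hc : 0 < c) {U : Set Z} (hU : IsOpen U)
    {u : Z → X1} {M : Z → X2 →L[ℂ] X1} (hu : DifferentiableOn ℂ u U)
    (hM : DifferentiableOn ℂ M U) (bu : ∀ z ∈ U, ‖u z‖ ≤ c * eta r K c)
    (bM : ∀ z ∈ U, ‖M z‖ ≤ c) :
    ∃ f : Z → X2, DifferentiableOn ℂ f U ∧ ∀ z ∈ U, ‖f z‖ ≤ eta r K c ∧
      ‖f z‖ ≤ 2 * K * ‖u z‖ ^ 2 ∧ Q (u z + M z (f z)) = f z := by
  have he := h.eta_pos hc
  obtain ⟨f, hf, h1⟩ := exists_fix_hol (T := fun z f => Q (u z + M z f)) (k := 1 / 2)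
    (ρ := eta r K c) (x0 := 0) (U := U) (V := U ×ˢ closedBall 0 (eta r K c)) hU (by norm_num)
    (by norm_num) he.le (fun z hz => h.ctr hc (bu z hz) (bM z hz)) (fun z hz x hx => ⟨hz, hx⟩) (by
      refine h.diff.comp (DifferentiableOn.add ?_ (DifferentiableOn.clm_apply ?_ ?_)) ?_
      · exact hu.comp differentiableOn_fst fun p hp => hp.1
      · exact hM.comp differentiableOn_fst fun p hp => hp.1
      · exact differentiableOn_snd
      · intro p hp
        refine mem_ball_zero_iff.2 (h.arg_lt hc (bu _ hp.1) (bM _ hp.1) ?_)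
        have := mem_closedBall_zero_iff.1 hp.2
        linarith)
  refine ⟨f, hf, fun z hz => ?_⟩
  have h2 := mem_closedBall_zero_iff.1 (h1 z hz).1
  exact ⟨h2, h.fix_le hc (bu z hz) (bM z hz) h2 (h1 z hz).2, (h1 z hz).2⟩

end Crest.Agent.N207.L
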