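import Crest.Agent.N207.L.Defs
import Crest.Agent.N207.J.Grn1
import Crest.Agent.N207.J.As1

/-! # N207/L/Gr1 (helper80): Green operators along a path, in the stored variables -/

set_option autoImplicit false
set_option linter.unusedSectionVars false
open Set Filter Topology MeasureTheory BoundedContinuousFunction

noncomputable section

namespace Crest.Agent.N207.L
open J

namespace Pth

variable (γ : Pth) (V : Type*) [NormedAddCommGroup V] [NormedSpace ℂ V] [CompleteSpace V]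

/-- true value `= tw d k x •` stored value (`d = 1` solutions, `d = 2` sources) -/
def tw (d k : ℕ) (x : ℝ) : ℂ := ((γ.w x ^ d * γ.om x ^ k : ℝ) : ℂ)

/-- outer factor -/
def Aw (m : ℂ) (k : ℕ) (x : ℝ) : ℂ := Complex.exp (m * γ.t x) / γ.tw 1 k x

/-- inner factor -/
def Bw (m : ℂ) (k : ℕ) (y : ℝ) : ℂ := Complex.exp (-m * γ.t y) * γ.tw 2 k y * γ.τ y

/-- `∫_a^x e^{-(k+2)(t x - t y)} f` -/
def gm (k : ℕ) : (ℝ →ᵇ V) →L[ℂ] (ℝ →ᵇ V) :=
  vop V true (γ.Aw (-(k + 2)) k) (γ.Bw (-(k + 2)) k)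

/-- `∫_x^b e^{-k(t y - t x)} f`; for `k = 0` from `x` to the base point -/
def gp (k : ℕ) : (ℝ →ᵇ V) →L[ℂ] (ℝ →ᵇ V) :=
  if k = 0 then vop V false (γ.Aw 0 0) (γ.upᶜ.indicator (γ.Bw 0 0)) -
    vop V true (γ.Aw 0 0) (γ.up.indicator (γ.Bw 0 0))
  else vop V false (γ.Aw k k) (γ.Bw k k)

/-- decaying homogeneous solution with stored value `A` at `a` -/
def em (k : ℕ) : V →L[ℂ] (ℝ →ᵇ V) :=
  mop V fun x => γ.Aw (-(k + 2)) k x / γ.Aw (-(k + 2)) k γ.a

/-- growing homogeneous solution with stored value `B` at `pt k` (zero on a half line) -/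
def ep (k : ℕ) : V →L[ℂ] (ℝ →ᵇ V) :=
  if γ.fin = true then mop V fun x => γ.Aw k k x / γ.Aw k k (γ.pt k) else 0

/-- majorant of the kernels -/
def pm (b : Bool) (K μ x : ℝ) : ℝ → ℝ := (dom b x).indicator fun y =>
  K * (Real.exp ((if b then μ else -μ) * ((γ.t y).re - (γ.t x).re)) * (γ.τ y).re)

variable {γ V} {C o : ℝ}

namespace Ok

theorem C0 (h : γ.Ok C o) : 0 ≤ C :=
  (integral_nonneg fun r => mul_nonneg (h.w0 r).le (norm_nonneg _)).trans h.int_le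

theorem mτ (h : γ.Ok C o) : AEStronglyMeasurable γ.τ volume := by
  refine LocallyIntegrable.aestronglyMeasurable fun x => ⟨Ioc (x - 1) (x + 1),
    Ioc_mem_nhds (by linarith) (by linarith), ?_⟩
  exact (intervalIntegrable_iff_integrableOn_Ioc_of_le (by linarith)).1 (h.li _ _)

theorem mup (γ : Pth) : MeasurableSet γ.up := by
  unfold up
  split_ifs
  · exact measurableSet_Ioi
  · exact MeasurableSet.empty

theorem tw_pos (h : γ.Ok C o) (ho : 0 < o) (d k : ℕ) (x : ℝ) : 0 < γ.w x ^ d * γ.om x ^ k :=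
  mul_pos (pow_pos (h.w0 x) d) (pow_pos (ho.trans_le (h.o0 x)) k)

theorem tw_ne (h : γ.Ok C o) (ho : 0 < o) (d k : ℕ) (x : ℝ) : γ.tw d k x ≠ 0 :=
  Complex.ofReal_ne_zero.2 (h.tw_pos ho d k x).ne'

theorem norm_tw (h : γ.Ok C o) (ho : 0 < o) (d k : ℕ) (x : ℝ) :
    ‖γ.tw d k x‖ = γ.w x ^ d * γ.om x ^ k := by
  rw [tw, Complex.norm_real, Real.norm_of_nonneg (h.tw_pos ho d k x).le]

theorem ctw (h : γ.Ok C o) (d k : ℕ) : Continuous (γ.tw d k) := by
  have := h.wc; have := h.oc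
  unfold tw
  fun_prop

theorem cA (h : γ.Ok C o) (ho : 0 < o) (m : ℂ) (k : ℕ) : Continuous (γ.Aw m k) := by
  have := h.cont
  exact Continuous.div (by fun_prop) (h.ctw 1 k) (h.tw_ne ho 1 k)

theorem Aw_ne (h : γ.Ok C o) (ho : 0 < o) (m : ℂ) (k : ℕ) (x : ℝ) : γ.Aw m k x ≠ 0 :=
  div_ne_zero (Complex.exp_ne_zero _) (h.tw_ne ho 1 k x)

theorem mB (h : γ.Ok C o) (m : ℂ) (k : ℕ) : AEStronglyMeasurable (γ.Bw m k) volume := by
  have := h.cont; have := h.ctw 2 k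
  refine AEStronglyMeasurable.mul (Continuous.aestronglyMeasurable ?_) h.mτ
  fun_prop

theorem norm_AA (h : γ.Ok C o) (ho : 0 < o) (m : ℝ) (k : ℕ) (x y : ℝ) :
    ‖γ.Aw m k x / γ.Aw m k y‖ = Real.exp (m * ((γ.t x).re - (γ.t y).re)) *
      (γ.w y / γ.w x * (γ.om y / γ.om x) ^ k) := by
  have := h.w0 x; have := h.w0 y
  have := ho.trans_le (h.o0 x); have := ho.trans_le (h.o0 y)
  simp only [Aw, norm_div, Complex.norm_exp, h.norm_tw ho, Complex.mul_re, Complex.ofReal_re,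
    Complex.ofReal_im, zero_mul, sub_zero, mul_sub, Real.exp_sub, div_pow]
  field_simp

theorem AB_eq (h : γ.Ok C o) (ho : 0 < o) (m : ℂ) (k : ℕ) (x y : ℝ) :
    γ.Aw m k x * γ.Bw m k y = γ.Aw m k x / γ.Aw m k y * (γ.w y * γ.τ y) := by
  have h1 := h.tw_ne ho 1 k y
  have h2 : γ.tw 2 k y = γ.w y * γ.tw 1 k y := by simp only [tw]; push_cast; ring
  rw [Bw, h2, div_eq_mul_inv, mul_assoc (γ.Aw m k x), Aw, Aw, neg_mul, Complex.exp_neg]
  field_simp

theorem norm_wτ (h : γ.Ok C o) (y : ℝ) : ‖(γ.w y : ℂ) * γ.τ y‖ = γ.w y * ‖γ.τ y‖ := by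
  rw [norm_mul, Complex.norm_real, Real.norm_of_nonneg (h.w0 y).le]

theorem ratio (h : γ.Ok C o) (ho : 0 < o) {x y α β : ℝ} (k : ℕ) (h1 : γ.w y ≤ Real.exp α * γ.w x)
    (h2 : γ.om y ≤ Real.exp β * γ.om x) :
    γ.w y / γ.w x * (γ.om y / γ.om x) ^ k ≤ Real.exp (α + k * β) := by
  have := h.w0 x; have := h.w0 y
  have := ho.trans_le (h.o0 x); have := ho.trans_le (h.o0 y)
  rw [Real.exp_add, Real.exp_nat_mul]
  gcongr
  · rwa [div_le_iff₀ ‹_›]
  · rwa [div_le_iff₀ ‹_›]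

theorem der_re (h : γ.Ok C o) (x : ℝ) :
    HasDerivWithinAt (fun y => (γ.t y).re) (γ.τ x).re (Ici x) x :=
  Complex.reCLM.hasFDerivAt.comp_hasDerivWithinAt x (h.der x)

theorem li_re (h : γ.Ok C o) (x y : ℝ) : IntervalIntegrable (fun s => (γ.τ s).re) volume x y :=
  ⟨(h.li x y).1.re, (h.li x y).2.re⟩

theorem re_mono (h : γ.Ok C o) : Monotone fun y => (γ.t y).re := by
  intro x y hxy
  have := intervalIntegral.integral_eq_sub_of_hasDeriv_right
    (Complex.continuous_re.comp h.cont).continuousOn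
    (fun s _ => (h.der_re s).mono Ioi_subset_Ici_self) (h.li_re x y)
  have h2 := intervalIntegral.integral_nonneg (μ := volume) hxy fun s _ => h.re0 s
  simp only [Function.comp] at this
  linarith

theorem exp_int (h : γ.Ok C o) (ν c y z : ℝ) :
    IntervalIntegrable (fun s => Real.exp (ν * ((γ.t s).re - c)) * (γ.τ s).re) volume y z ∧
    ν * ∫ s in y..z, Real.exp (ν * ((γ.t s).re - c)) * (γ.τ s).re =
      Real.exp (ν * ((γ.t z).re - c)) - Real.exp (ν * ((γ.t y).re - c)) := by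
  have hc : Continuous fun s => Real.exp (ν * ((γ.t s).re - c)) := by
    have := h.cont; fun_prop
  have hi := (h.li_re y z).continuousOn_mul hc.continuousOn
  refine ⟨hi, ?_⟩
  rw [← intervalIntegral.integral_const_mul]
  refine intervalIntegral.integral_eq_sub_of_hasDeriv_right hc.continuousOn (fun s _ => ?_)
    (hi.const_mul ν)
  have := ((((h.der_re s).sub_const c).const_mul ν).exp).mono Ioi_subset_Ici_self
  convert this using 1
  ring

theorem pm_nonneg (h : γ.Ok C o) {K : ℝ} (hK : 0 ≤ K) (b : Bool) (μ x y : ℝ) :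
    0 ≤ γ.pm b K μ x y :=
  indicator_nonneg (fun s _ => mul_nonneg hK (mul_nonneg (Real.exp_pos _).le (h.re0 s))) _

theorem pm_int (h : γ.Ok C o) {K μ : ℝ} (hK : 0 ≤ K) (hμ : 0 < μ) (b : Bool) (x : ℝ) :
    Integrable (γ.pm b K μ x) ∧ ∫ y, γ.pm b K μ x y ≤ K / μ := by
  rw [pm, integrable_indicator_iff (meas_dom b x), integral_indicator (meas_dom b x),
    integral_const_mul]
  set φ := fun s => Real.exp ((if b then μ else -μ) * ((γ.t s).re - (γ.t x).re)) * (γ.τ s).re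
    with hφ
  have φ0 : ∀ s, ‖φ s‖ = φ s := fun s =>
    Real.norm_of_nonneg (mul_nonneg (Real.exp_pos _).le (h.re0 s))
  suffices hs : IntegrableOn φ (dom b x) ∧ ∫ s in dom b x, φ s ≤ 1 / μ from
    ⟨hs.1.const_mul K, (mul_le_mul_of_nonneg_left hs.2 hK).trans_eq (by ring)⟩
  cases b
  · have hb : ∀ z, ∫ s in x..z, φ s ≤ 1 / μ := fun z => by
      have := (h.exp_int (-μ) (γ.t x).re x z).2
      have h2 := Real.exp_pos (-μ * ((γ.t z).re - (γ.t x).re))
      simp only [sub_self, mul_zero, Real.exp_zero] at this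
      rw [le_div_iff₀ hμ]
      simp only [hφ, Bool.false_eq_true, if_false]
      linarith
    have hi : IntegrableOn φ (Ioi x) :=
      integrableOn_Ioi_of_intervalIntegral_norm_bounded (1 / μ) x (b := id) (l := atTop)
        (fun z => (h.exp_int (-μ) (γ.t x).re x z).1.1) tendsto_id
        (Eventually.of_forall fun z => by simpa only [φ0, id] using hb z)
    exact ⟨hi, le_of_tendsto' (intervalIntegral_tendsto_integral_Ioi x hi tendsto_id) hb⟩
  · have hb : ∀ z, ∫ s in z..x, φ s ≤ 1 / μ := fun z => by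
      have := (h.exp_int μ (γ.t x).re z x).2
      have h2 := Real.exp_pos (μ * ((γ.t z).re - (γ.t x).re))
      simp only [sub_self, mul_zero, Real.exp_zero] at this
      rw [le_div_iff₀ hμ]
      simp only [hφ, if_true]
      linarith
    have hi : IntegrableOn φ (Iic x) :=
      integrableOn_Iic_of_intervalIntegral_norm_bounded (1 / μ) x (a := id) (l := atBot)
        (fun z => (h.exp_int μ (γ.t x).re z x).1.1) tendsto_id
        (Eventually.of_forall fun z => by simpa only [φ0, id] using hb z)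
    exact ⟨hi, le_of_tendsto' (intervalIntegral_tendsto_integral_Iic x hi tendsto_id) hb⟩

theorem AA_m (h : γ.Ok C o) (ho : 0 < o) (k : ℕ) {x y : ℝ} (hy : y ≤ x) :
    ‖γ.Aw (-(k + 2)) k x / γ.Aw (-(k + 2)) k y‖ ≤
      Real.exp ((k + 1) / 2 * ((γ.t y).re - (γ.t x).re)) := by
  have e := h.norm_AA ho (-(k + 2)) k x y
  push_cast at e
  rw [e]
  refine (mul_le_mul_of_nonneg_left (h.ratio ho k (h.wb y x hy) (h.ob y x hy))
    (Real.exp_pos _).le).trans ?_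
  rw [← Real.exp_add, Real.exp_le_exp, Complex.sub_re]
  have := h.re_mono hy
  have hk : (0 : ℝ) ≤ k := Nat.cast_nonneg k
  nlinarith [mul_nonneg hk (sub_nonneg.2 this)]

theorem AA_p (h : γ.Ok C o) (ho : 0 < o) {k : ℕ} (hk : k ≠ 0) {x y : ℝ} (hy : x ≤ y) :
    ‖γ.Aw k k x / γ.Aw k k y‖ ≤ Real.exp (-((k + 1) / 16) * ((γ.t y).re - (γ.t x).re)) := by
  have e := h.norm_AA ho k k x y
  push_cast at e
  rw [e]
  refine (mul_le_mul_of_nonneg_left (h.ratio ho k (h.wf x y hy) (h.of x y hy))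
    (Real.exp_pos _).le).trans ?_
  rw [← Real.exp_add, Real.exp_le_exp, Complex.sub_re]
  have := h.re_mono hy
  have hk : (0 : ℝ) ≤ k - 1 := by
    have : (1 : ℝ) ≤ k := by exact_mod_cast Nat.one_le_iff_ne_zero.2 hk
    linarith
  nlinarith [mul_nonneg hk (sub_nonneg.2 this)]

theorem AA_0 (h : γ.Ok C o) (ho : 0 < o) (x y : ℝ) :
    ‖γ.Aw 0 0 x / γ.Aw 0 0 y‖ = γ.w y / γ.w x := by
  simpa using h.norm_AA ho 0 0 x y

theorem vk_of (h : γ.Ok C o) (ho : 0 < o) {b : Bool} {m : ℂ} {k : ℕ} {μ : ℝ} (hμ : 0 < μ)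
    (hb : ∀ x, ∀ y ∈ dom b x, ‖γ.Aw m k x / γ.Aw m k y‖ ≤
      Real.exp ((if b then μ else -μ) * ((γ.t y).re - (γ.t x).re))) :
    VK b (γ.Aw m k) (γ.Bw m k) (γ.pm b C μ) (C / μ) := by
  refine ⟨h.cA ho _ _, h.Aw_ne ho _ _, h.mB _ _, fun x => (h.pm_int h.C0 hμ b x).1,
    h.pm_nonneg h.C0 b μ, fun x => (h.pm_int h.C0 hμ b x).2, fun x y hy => ?_⟩
  rw [h.AB_eq ho, norm_mul, h.norm_wτ, pm, indicator_of_mem hy, mul_left_comm C, mul_comm (γ.w y)]
  exact mul_le_mul (hb x y hy) (h.slope y) (mul_nonneg (norm_nonneg _) (h.w0 y).le)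
    (Real.exp_pos _).le

theorem vk_m (h : γ.Ok C o) (ho : 0 < o) (k : ℕ) : VK true (γ.Aw (-(k + 2)) k) (γ.Bw (-(k + 2)) k)
    (γ.pm true C ((k + 1) / 2)) (C / ((k + 1) / 2)) :=
  h.vk_of ho (by positivity) fun _ _ hy => h.AA_m ho k hy

theorem vk_p (h : γ.Ok C o) (ho : 0 < o) {k : ℕ} (hk : k ≠ 0) : VK false (γ.Aw k k) (γ.Bw k k)
    (γ.pm false C ((k + 1) / 16)) (C / ((k + 1) / 16)) :=
  h.vk_of ho (by positivity) fun _ _ hy => h.AA_p ho hk (le_of_lt hy)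

theorem vk_0 (h : γ.Ok C o) (ho : 0 < o) {b : Bool} {S : Set ℝ} (hS : MeasurableSet S)
    (hb : ∀ x, ∀ y ∈ dom b x, y ∈ S → (x < y ↔ y ∉ γ.up)) :
    VK b (γ.Aw 0 0) (S.indicator (γ.Bw 0 0)) (fun _ y => γ.w y * ‖γ.τ y‖) C := by
  have nn : ∀ y, 0 ≤ γ.w y * ‖γ.τ y‖ := fun y => mul_nonneg (h.w0 y).le (norm_nonneg _)
  refine ⟨h.cA ho _ _, h.Aw_ne ho _ _, (h.mB _ _).indicator hS, fun _ => h.int, fun _ => nn,
    fun _ => h.int_le, fun x y hy => ?_⟩
  by_cases h1 : y ∈ S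
  · rw [indicator_of_mem h1, h.AB_eq ho, norm_mul, h.norm_wτ, h.AA_0 ho]
    exact mul_le_of_le_one_left (nn y) ((div_le_one (h.w0 x)).2 (h.mono x y (hb x y hy h1)))
  · simpa [indicator_of_notMem h1] using nn y

theorem vk_f (h : γ.Ok C o) (ho : 0 < o) :
    VK false (γ.Aw 0 0) (γ.upᶜ.indicator (γ.Bw 0 0)) (fun _ y => γ.w y * ‖γ.τ y‖) C :=
  h.vk_0 ho (mup γ).compl fun _ _ hy h1 => ⟨fun _ => h1, fun _ => hy⟩

theorem vk_b (h : γ.Ok C o) (ho : 0 < o) :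
    VK true (γ.Aw 0 0) (γ.up.indicator (γ.Bw 0 0)) (fun _ y => γ.w y * ‖γ.τ y‖) C :=
  h.vk_0 ho (mup γ) fun _ _ hy h1 => ⟨fun h2 => absurd hy (not_le.2 h2), fun h2 => absurd h1 h2⟩

/-- the curve and the weights are constant where the velocity vanishes -/
theorem const (h : γ.Ok C o) {x y : ℝ} (hxy : x ≤ y) (h0 : ∀ s ∈ Ico x y, γ.τ s = 0) :
    γ.t x = γ.t y ∧ γ.w x = γ.w y ∧ γ.om x = γ.om y := by
  have e : γ.t y = γ.t x := constant_of_has_deriv_right_zero h.cont.continuousOn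
    (fun s hs => h0 s hs ▸ h.der s) y ⟨hxy, le_rfl⟩
  have a1 := h.wb x y hxy; have a2 := h.wf x y hxy
  have a3 := h.ob x y hxy; have a4 := h.of x y hxy
  simp only [e, sub_self, Complex.zero_re, mul_zero, Real.exp_zero, one_mul] at a1 a2 a3 a4
  exact ⟨e.symm, le_antisymm a1 a2, le_antisymm a3 a4⟩

theorem Aw_const (h : γ.Ok C o) {x y : ℝ} (hxy : x ≤ y) (h0 : ∀ s ∈ Ico x y, γ.τ s = 0) (m : ℂ)
    (k : ℕ) : γ.Aw m k x = γ.Aw m k y := by
  obtain ⟨h1, h2, h3⟩ := h.const hxy h0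
  simp only [Aw, tw, h1, h2, h3]

theorem em_bd (h : γ.Ok C o) (ho : 0 < o) (k : ℕ) (x : ℝ) :
    ‖γ.Aw (-(k + 2)) k x / γ.Aw (-(k + 2)) k γ.a‖ ≤ 1 := by
  rcases le_total γ.a x with hx | hx
  · refine (h.AA_m ho k hx).trans (Real.exp_le_one_iff.2 ?_)
    exact mul_nonpos_of_nonneg_of_nonpos (by positivity) (sub_nonpos.2 (h.re_mono hx))
  · rw [h.Aw_const hx fun s hs => h.left s hs.2, div_self (h.Aw_ne ho _ _ _), norm_one]

theorem ep_bd (h : γ.Ok C o) (ho : 0 < o) (hf : γ.fin = true) (k : ℕ) (x : ℝ) :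
    ‖γ.Aw k k x / γ.Aw k k (γ.pt k)‖ ≤ 1 := by
  by_cases h0 : k = 0
  · subst h0
    rw [Nat.cast_zero, h.AA_0 ho, div_le_one (h.w0 x)]
    exact h.wmin hf x
  rw [pt, if_neg h0]
  rcases le_total x γ.b with hx | hx
  · refine (h.AA_p ho h0 hx).trans (Real.exp_le_one_iff.2 ?_)
    exact mul_nonpos_of_nonpos_of_nonneg (neg_nonpos.2 (by positivity))
      (sub_nonneg.2 (h.re_mono hx))
  · rw [← h.Aw_const hx fun s hs => h.right hf s hs.1, div_self (h.Aw_ne ho _ _ _), norm_one]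

theorem norm_gm (h : γ.Ok C o) (ho : 0 < o) (k : ℕ) : ‖γ.gm V k‖ ≤ 16 * C / (k + 1) := by
  refine (h.vk_m ho k).norm_le.trans ?_
  have := h.C0
  rw [div_div_eq_mul_div]
  exact div_le_div_of_nonneg_right (by linarith) (by positivity)

theorem norm_gp (h : γ.Ok C o) (ho : 0 < o) (k : ℕ) : ‖γ.gp V k‖ ≤ 16 * C / (k + 1) := by
  have := h.C0
  unfold gp
  split_ifs with h0
  · subst h0
    refine (norm_sub_le _ _).trans
      ((add_le_add (h.vk_f ho).norm_le (h.vk_b ho).norm_le).trans ?_)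
    simp only [Nat.cast_zero, zero_add, div_one]
    linarith
  · refine (h.vk_p ho h0).norm_le.trans (le_of_eq ?_)
    rw [div_div_eq_mul_div, mul_comm]

theorem em_apply (h : γ.Ok C o) (ho : 0 < o) (k : ℕ) (A : V) (x : ℝ) :
    γ.em V k A x = (γ.Aw (-(k + 2)) k x / γ.Aw (-(k + 2)) k γ.a) • A :=
  mop_apply ((h.cA ho _ _).div_const _) (h.em_bd ho k) A x

theorem ep_apply (h : γ.Ok C o) (ho : 0 < o) (hf : γ.fin = true) (k : ℕ) (B : V) (x : ℝ) :
    γ.ep V k B x = (γ.Aw k k x / γ.Aw k k (γ.pt k)) • B := by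
  rw [ep, if_pos hf]
  exact mop_apply ((h.cA ho _ _).div_const _) (h.ep_bd ho hf k) B x

theorem norm_em (h : γ.Ok C o) (ho : 0 < o) (k : ℕ) : ‖γ.em V k‖ ≤ 1 :=
  norm_mop_le ((h.cA ho _ _).div_const _) (h.em_bd ho k)

theorem norm_ep (h : γ.Ok C o) (ho : 0 < o) (k : ℕ) : ‖γ.ep V k‖ ≤ 1 := by
  unfold ep
  split_ifs with hf
  · exact norm_mop_le ((h.cA ho _ _).div_const _) (h.ep_bd ho hf k)
  · simp

/-- the Green part of the layer -/
def grn (h : γ.Ok C o) (ho : 0 < o) {C' : ℝ} (h1 : 1 ≤ C') (h2 : 16 * C ≤ C') : Grn BH BH C' where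
  gm := γ.gm H
  gp := γ.gp H
  em := γ.em H
  ep := γ.ep H
  gm_le := fun k => (h.norm_gm ho k).trans (by gcongr)
  gp_le := fun k => (h.norm_gp ho k).trans (by gcongr)
  em_le := fun k => (h.norm_em ho k).trans h1
  ep_le := fun k => (h.norm_ep ho k).trans h1

end Ok

end Pth

end Crest.Agent.N207.L
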