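import Crest.Agent.N207.L.Gr1

/-! # N207/L/Gr2 (helper80): the Green operators solve the mode equations; uniqueness;
holomorphic dependence on the curve -/

set_option autoImplicit false
set_option linter.unusedSectionVars false
open Set Filter Topology MeasureTheory BoundedContinuousFunction

noncomputable section

namespace Crest.Agent.N207.L
open J

variable {V : Type*} [NormedAddCommGroup V] [NormedSpace ℂ V] [CompleteSpace V]

/-- `v' = τ (m v + G)` (right derivatives) -/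
structure Ode (τ : ℝ → ℂ) (m : ℂ) (G v : ℝ → V) : Prop where
  cont : Continuous v
  der : ∀ x, HasDerivWithinAt v (τ x • (m • v x + G x)) (Ici x) x

namespace Ode
variable {τ : ℝ → ℂ} {m : ℂ} {G G' v v' : ℝ → V}

theorem congr (h : Ode τ m G v) (h1 : ∀ x, G' x = G x) (h2 : ∀ x, v' x = v x) : Ode τ m G' v' := by
  rw [funext h1, funext h2]; exact h

theorem add (h : Ode τ m G v) (h' : Ode τ m G' v') :
    Ode τ m (fun x => G x + G' x) fun x => v x + v' x :=
  ⟨h.cont.add h'.cont, fun x => by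
    refine ((h.der x).add (h'.der x)).congr_deriv ?_
    simp only [smul_add]; abel⟩

theorem smul (h : Ode τ m G v) (c : ℂ) : Ode τ m (fun x => c • G x) fun x => c • v x :=
  ⟨h.cont.const_smul c, fun x => by
    refine ((h.der x).const_smul c).congr_deriv ?_
    simp only [smul_add, smul_comm c]⟩

theorem sub (h : Ode τ m G v) (h' : Ode τ m G' v') :
    Ode τ m (fun x => G x - G' x) fun x => v x - v' x :=
  (h.add (h'.smul (-1))).congr (fun x => by simp [sub_eq_add_neg]) fun x => by simp [sub_eq_add_neg]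

theorem clm {W : Type*} [NormedAddCommGroup W] [NormedSpace ℂ W] [CompleteSpace W]
    (h : Ode τ m G v) (T : V →L[ℂ] W) : Ode τ m (fun x => T (G x)) fun x => T (v x) :=
  ⟨T.continuous.comp h.cont, fun x => by
    refine ((T.restrictScalars ℝ).hasFDerivAt.comp_hasDerivWithinAt x (h.der x)).congr_deriv ?_
    simp⟩

end Ode

theorem der_of_prim {g Φ : ℝ → V} (hg : ∀ x y, IntervalIntegrable g volume x y)
    (hΦ : ∀ x y, Φ x - Φ y = ∫ s in y..x, g s) :
    Continuous Φ ∧ ∀ x, ContinuousWithinAt g (Ici x) x → HasDerivWithinAt Φ (g x) (Ici x) x := by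
  have e : Φ = fun x => Φ 0 + ∫ s in (0 : ℝ)..x, g s := by
    funext x; rw [← hΦ]; abel
  rw [e]
  refine ⟨continuous_const.add (intervalIntegral.continuous_primitive hg 0), fun x hx => ?_⟩
  refine HasDerivWithinAt.const_add _ (intervalIntegral.integral_hasDerivWithinAt_right
    (t := Ioi x) (hg 0 x) ?_ (hx.mono Ioi_subset_Ici_self))
  exact ⟨Ioc x (x + 1), Ioc_mem_nhdsGT (by linarith), (hg x (x + 1)).1.aestronglyMeasurable⟩

namespace Pth.Ok

variable {γ : Pth} {C o : ℝ}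

theorem der_exp (h : γ.Ok C o) (m : ℂ) (x : ℝ) : HasDerivWithinAt
    (fun y => Complex.exp (m * γ.t y)) (Complex.exp (m * γ.t x) * (m * γ.τ x)) (Ici x) x :=
  ((h.der x).const_mul m).cexp

theorem ode_exp (h : γ.Ok C o) (m : ℂ) (A : V) :
    Ode γ.τ m (fun _ => 0) fun x => Complex.exp (m * γ.t x) • A := by
  have := h.cont
  refine ⟨by fun_prop, fun x => ?_⟩
  convert (h.der_exp m x).smul_const A using 1
  rw [add_zero, smul_smul, smul_smul]
  congr 1
  ring

/-- the homogeneous equation -/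
theorem hom (h : γ.Ok C o) {m : ℂ} {v : ℝ → V} (hv : Ode γ.τ m (fun _ => 0) v) (x y : ℝ) :
    v x = Complex.exp (m * (γ.t x - γ.t y)) • v y := by
  have hc : Continuous fun x => Complex.exp (-m * γ.t x) • v x := by
    have := h.cont; have := hv.cont; fun_prop
  have hd : ∀ x, HasDerivWithinAt (fun x => Complex.exp (-m * γ.t x) • v x) 0 (Ici x) x := by
    intro x
    refine ((h.der_exp (-m) x).smul (hv.der x)).congr_deriv ?_
    rw [add_zero, smul_smul, smul_smul, ← add_smul]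
    rw [show Complex.exp (-m * γ.t x) * γ.τ x * m + Complex.exp (-m * γ.t x) * (-m * γ.τ x) = 0 by
      ring, zero_smul]
  have key : ∀ x y, x ≤ y → Complex.exp (-m * γ.t y) • v y = Complex.exp (-m * γ.t x) • v x :=
    fun x y hxy => constant_of_has_deriv_right_zero hc.continuousOn (fun s _ => hd s) y
      ⟨hxy, le_rfl⟩
  have e : Complex.exp (-m * γ.t x) • v x = Complex.exp (-m * γ.t y) • v y := by
    rcases le_total x y with hxy | hxy
    · exact (key x y hxy).symm
    · exact key y x hxy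
  have := congrArg (fun u => Complex.exp (m * γ.t x) • u) e
  simp only [smul_smul, ← Complex.exp_add] at this
  rw [show m * γ.t x + -m * γ.t x = 0 by ring, Complex.exp_zero, one_smul] at this
  rw [this]
  congr 2
  ring

/-- uniqueness from the value at one point -/
theorem uniq_pt (h : γ.Ok C o) {m : ℂ} {G v v' : ℝ → V} (hv : Ode γ.τ m G v) (hv' : Ode γ.τ m G v')
    {y : ℝ} (hy : v y = v' y) (x : ℝ) : v x = v' x := by
  have := h.hom ((hv.sub hv').congr (fun _ => (sub_self _).symm) fun _ => rfl) x y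
  rwa [hy, sub_self, smul_zero, sub_eq_zero] at this

/-- uniqueness from decay at infinity -/
theorem uniq_half (h : γ.Ok C o) (k : ℕ) {G v v' : ℝ → V} (hv : Ode γ.τ k G v)
    (hv' : Ode γ.τ k G v') (hl : Tendsto (fun x => v x - v' x) atTop (𝓝 0)) (y : ℝ) :
    v y = v' y := by
  have h1 := h.hom ((hv.sub hv').congr (fun _ => (sub_self _).symm) fun _ => rfl)
  have : ‖v y - v' y‖ ≤ 0 := by
    refine ge_of_tendsto (tendsto_zero_iff_norm_tendsto_zero.1 hl) ?_
    filter_upwards [eventually_ge_atTop y] with x hx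
    rw [h1 x y, norm_smul, Complex.norm_exp]
    refine le_mul_of_one_le_left (norm_nonneg _) (Real.one_le_exp ?_)
    have := h.re_mono hx
    simp only [Complex.mul_re, Complex.natCast_re, Complex.natCast_im, zero_mul, sub_zero,
      Complex.sub_re]
    exact mul_nonneg (Nat.cast_nonneg k) (by linarith)
  exact sub_eq_zero.1 (norm_le_zero_iff.1 this)

theorem tw_Aw (h : γ.Ok C o) (ho : 0 < o) (m : ℂ) (k : ℕ) (x : ℝ) :
    γ.tw 1 k x * γ.Aw m k x = Complex.exp (m * γ.t x) := by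
  rw [Aw, mul_div_cancel₀ _ (h.tw_ne ho 1 k x)]

theorem ode_of_prim (h : γ.Ok C o) (m σ : ℂ) (k : ℕ) (f : ℝ →ᵇ V) {Φ : ℝ → V}
    (hg : ∀ x y, IntervalIntegrable (fun s => γ.Bw m k s • f s) volume x y)
    (hΦ : ∀ x y, Φ x - Φ y = σ • ∫ s in y..x, γ.Bw m k s • f s) :
    Ode γ.τ m (fun x => σ • γ.tw 2 k x • f x) fun x => Complex.exp (m * γ.t x) • Φ x := by
  obtain ⟨h1, h2⟩ := der_of_prim (g := fun s => σ • γ.Bw m k s • f s) (Φ := Φ)
    (fun x y => (hg x y).smul σ) fun x y => by rw [hΦ, intervalIntegral.integral_smul]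
  have := h.cont
  refine ⟨by fun_prop, fun x => ?_⟩
  have hr : ContinuousWithinAt (fun s => σ • γ.Bw m k s • f s) (Ici x) x := by
    refine ContinuousWithinAt.const_smul (ContinuousWithinAt.smul ?_
      f.continuous.continuousWithinAt) σ
    have := h.ctw 2 k
    exact ContinuousWithinAt.mul (Continuous.continuousWithinAt (by fun_prop)) (h.rc x)
  refine ((h.der_exp m x).smul (h2 x hr)).congr_deriv ?_
  have e : Complex.exp (m * γ.t x) * Complex.exp (-m * γ.t x) = 1 := by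
    rw [← Complex.exp_add]; simp
  simp only [smul_add, smul_smul, Bw]
  rw [add_comm]
  congr 2
  · ring
  · linear_combination (σ * γ.tw 2 k x * γ.τ x) * e

theorem ode_gm (h : γ.Ok C o) (ho : 0 < o) (k : ℕ) (f : ℝ →ᵇ V) :
    Ode γ.τ (-(k + 2)) (fun x => γ.tw 2 k x • f x) fun x => γ.tw 1 k x • γ.gm V k f x := by
  have hk := h.vk_m ho k
  refine (h.ode_of_prim (-(k + 2)) 1 k f (ivl_of_dom (hk.intB f))
    (int_dom_sub (hk.intB f))).congr (fun x => by simp) fun x => ?_
  rw [gm, hk.apply, smul_smul, h.tw_Aw ho]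

theorem ode_gp (h : γ.Ok C o) (ho : 0 < o) (k : ℕ) (f : ℝ →ᵇ V) :
    Ode γ.τ k (fun x => -(γ.tw 2 k x • f x)) fun x => γ.tw 1 k x • γ.gp V k f x := by
  by_cases h0 : k = 0
  · subst h0
    have h1 := (h.vk_f ho).intB f
    have h2 := (h.vk_b ho).intB f
    have e : (fun s => γ.Bw 0 0 s • f s) = fun s => γ.upᶜ.indicator (γ.Bw 0 0) s • f s +
        γ.up.indicator (γ.Bw 0 0) s • f s := by
      funext s
      rw [← add_smul, add_comm, indicator_self_add_compl_apply]
    rw [Nat.cast_zero]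
    refine (h.ode_of_prim 0 (-1) 0 f
      (Φ := fun x => (∫ s in dom false x, γ.upᶜ.indicator (γ.Bw 0 0) s • f s) -
        ∫ s in dom true x, γ.up.indicator (γ.Bw 0 0) s • f s)
      (fun x y => e ▸ (ivl_of_dom h1 x y).add (ivl_of_dom h2 x y)) fun x y => ?_).congr
      (fun x => by simp) fun x => ?_
    · rw [e, intervalIntegral.integral_add (ivl_of_dom h1 y x) (ivl_of_dom h2 y x),
        sub_sub_sub_comm, int_dom_sub h1, int_dom_sub h2]
      simp [sub_eq_add_neg, add_comm]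
    · rw [gp, if_pos rfl, _root_.sub_apply, coe_sub, Pi.sub_apply,
        (h.vk_f ho).apply, (h.vk_b ho).apply, ← smul_sub, smul_smul, h.tw_Aw ho]
  · have hk := h.vk_p ho h0
    refine (h.ode_of_prim k (-1) k f (ivl_of_dom (hk.intB f))
      (int_dom_sub (hk.intB f))).congr (fun x => by simp) fun x => ?_
    rw [gp, if_neg h0, hk.apply, smul_smul, h.tw_Aw ho]

theorem gm_a (h : γ.Ok C o) (ho : 0 < o) (k : ℕ) (f : ℝ →ᵇ V) : γ.gm V k f γ.a = 0 := by
  rw [gm, (h.vk_m ho k).apply, dom_true, integral_Iic_eq_integral_Iio,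
    setIntegral_eq_zero_of_forall_eq_zero, smul_zero]
  intro y hy
  simp [Bw, h.left y hy]

theorem gp_pt (h : γ.Ok C o) (ho : 0 < o) (hf : γ.fin = true) (k : ℕ) (f : ℝ →ᵇ V) :
    γ.gp V k f (γ.pt k) = 0 := by
  by_cases h0 : k = 0
  · subst h0
    rw [gp, if_pos rfl, _root_.sub_apply, coe_sub, Pi.sub_apply,
      (h.vk_f ho).apply, (h.vk_b ho).apply, setIntegral_eq_zero_of_forall_eq_zero,
      setIntegral_eq_zero_of_forall_eq_zero, sub_self]
    · intro y hy
      rw [indicator_of_notMem (by simpa [up, hf, pt] using hy), zero_smul]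
    · intro y hy
      rw [indicator_of_notMem (by simpa [up, hf, pt] using hy), zero_smul]
  · rw [gp, if_neg h0, (h.vk_p ho h0).apply, setIntegral_eq_zero_of_forall_eq_zero, smul_zero]
    intro y hy
    have : γ.b < y := by simpa [pt, h0] using hy
    simp [Bw, h.right hf y this.le]

theorem ode_em (h : γ.Ok C o) (ho : 0 < o) (k : ℕ) (A : V) :
    Ode γ.τ (-(k + 2)) (fun _ => 0) fun x => γ.tw 1 k x • γ.em V k A x :=
  (h.ode_exp (-(k + 2)) ((γ.Aw (-(k + 2)) k γ.a)⁻¹ • A)).congr (fun _ => rfl) fun x => by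
    rw [h.em_apply ho, smul_smul, smul_smul, div_eq_mul_inv, ← mul_assoc, h.tw_Aw ho]

theorem em_a (h : γ.Ok C o) (ho : 0 < o) (k : ℕ) (A : V) : γ.em V k A γ.a = A := by
  rw [h.em_apply ho, div_self (h.Aw_ne ho _ _ _), one_smul]

theorem ep_half (hf : γ.fin = false) (k : ℕ) : γ.ep V k = 0 := by simp [ep, hf]

theorem ode_ep (h : γ.Ok C o) (ho : 0 < o) (k : ℕ) (B : V) :
    Ode γ.τ k (fun _ => 0) fun x => γ.tw 1 k x • γ.ep V k B x := by
  cases hf : γ.fin
  · exact (h.ode_exp k (0 : V)).congr (fun _ => rfl) fun x => by simp [ep_half hf]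
  · exact (h.ode_exp k ((γ.Aw k k (γ.pt k))⁻¹ • B)).congr (fun _ => rfl) fun x => by
      rw [h.ep_apply ho hf, smul_smul, smul_smul, div_eq_mul_inv, ← mul_assoc, h.tw_Aw ho]

theorem ep_pt (h : γ.Ok C o) (ho : 0 < o) (hf : γ.fin = true) (k : ℕ) (B : V) :
    γ.ep V k B (γ.pt k) = B := by
  rw [h.ep_apply ho hf, div_self (h.Aw_ne ho _ _ _), one_smul]

/-- the Duhamel form of the decaying amplitude solves its equation -/
theorem ode_q (h : γ.Ok C o) (ho : 0 < o) (k : ℕ) (c : ℂ) (A : V) (f : ℝ →ᵇ V) :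
    Ode γ.τ (-(k + 2)) (fun x => -(c • γ.tw 2 k x • f x))
      fun x => γ.tw 1 k x • (γ.em V k A x - c • γ.gm V k f x) :=
  ((h.ode_em ho k A).sub ((h.ode_gm ho k f).smul c)).congr (fun x => by simp) fun x => by
    rw [smul_sub, smul_comm]

/-- the Duhamel form of the growing amplitude solves its equation -/
theorem ode_p (h : γ.Ok C o) (ho : 0 < o) (k : ℕ) (c : ℂ) (B : V) (f : ℝ →ᵇ V) :
    Ode γ.τ k (fun x => c • γ.tw 2 k x • f x)
      fun x => γ.tw 1 k x • (γ.ep V k B x - c • γ.gp V k f x) :=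
  ((h.ode_ep ho k B).sub ((h.ode_gp ho k f).smul c)).congr (fun x => by simp) fun x => by
    rw [smul_sub, smul_comm]

/-- converse: equation and datum give the Duhamel form -/
theorem duh_q (h : γ.Ok C o) (ho : 0 < o) (k : ℕ) (c : ℂ) {A : V} {f : ℝ →ᵇ V} {q : ℝ → V}
    (hq : Ode γ.τ (-(k + 2)) (fun x => -(c • γ.tw 2 k x • f x)) q)
    (ha : q γ.a = γ.tw 1 k γ.a • A) (x : ℝ) :
    q x = γ.tw 1 k x • (γ.em V k A x - c • γ.gm V k f x) :=
  h.uniq_pt hq (h.ode_q ho k c A f) (by rw [ha, h.em_a ho, h.gm_a ho, smul_zero, sub_zero]) x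

theorem duh_p (h : γ.Ok C o) (ho : 0 < o) (k : ℕ) (c : ℂ) {B : V} {f : ℝ →ᵇ V} {p : ℝ → V}
    (hp : Ode γ.τ k (fun x => c • γ.tw 2 k x • f x) p)
    (hb : γ.fin = true → p (γ.pt k) = γ.tw 1 k (γ.pt k) • B)
    {M : ℝ} (hM : γ.fin = false → ∀ x, ‖p x‖ ≤ M * γ.w x) (x : ℝ) :
    p x = γ.tw 1 k x • (γ.ep V k B x - c • γ.gp V k f x) := by
  cases hf : γ.fin
  · refine h.uniq_half k hp (h.ode_p ho k c B f) ?_ x
    refine squeeze_zero_norm (a := fun x => (M + ‖γ.ep V k B - c • γ.gp V k f‖) * γ.w x)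
      (fun x => (norm_sub_le _ _).trans ?_) (by simpa using (h.dec hf).const_mul _)
    rw [add_mul, norm_smul, h.norm_tw ho, pow_one, mul_comm ‖_‖]
    refine add_le_add (hM hf x) (mul_le_mul ?_ ((γ.ep V k B - c • γ.gp V k f).norm_coe_le_norm x)
      (norm_nonneg _) (h.w0 x).le)
    exact mul_le_of_le_one_right (h.w0 x).le
      (pow_le_one₀ (ho.le.trans (h.o0 x)) (h.o1 x))
  · exact h.uniq_pt hp (h.ode_p ho k c B f)
      (by rw [hb hf, h.ep_pt ho hf, h.gp_pt ho hf, smul_zero, sub_zero]) x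

end Pth.Ok

/-! ### holomorphy -/

namespace Pth.Fam

variable {Z : Type} [NormedAddCommGroup Z] [NormedSpace ℂ Z] {γ : Pth} {t τ : Z → ℝ → ℂ}
  {U : Set Z} {C o : ℝ}

theorem dA (h : γ.Fam t τ U C o) (m : ℂ) (k : ℕ) (x : ℝ) :
    DifferentiableOn ℂ (fun z => (γ.re (t z) (τ z)).Aw m k x) U :=
  (((h.ht x).const_mul m).cexp).mul_const (γ.tw 1 k x)⁻¹

theorem dB (h : γ.Fam t τ U C o) (m : ℂ) (k : ℕ) (x : ℝ) :
    DifferentiableOn ℂ (fun z => (γ.re (t z) (τ z)).Bw m k x) U :=
  ((((h.ht x).const_mul (-m)).cexp).mul_const (γ.tw 2 k x)).mul (h.hτ x)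

theorem diff_v (h : γ.Fam t τ U C o) (ho : 0 < o) {b : Bool} (m : ℝ) {k : ℕ} {μ : ℝ} (hμ : 0 < μ)
    (hb : ∀ x, ∀ y ∈ J.dom b x, ‖γ.Aw m k x / γ.Aw m k y‖ ≤
      Real.exp ((if b then μ else -μ) * ((γ.t y).re - (γ.t x).re))) :
    DifferentiableOn ℂ (fun z => vop V b ((γ.re (t z) (τ z)).Aw m k) ((γ.re (t z) (τ z)).Bw m k))
      U := by
  obtain ⟨M, hM⟩ := h.dom
  rcases U.eq_empty_or_nonempty with rfl | ⟨z0, hz0⟩
  · exact differentiableOn_empty
  have M0 : 0 ≤ M := (norm_nonneg _).trans (hM z0 hz0 0).1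
  have K0 : 0 ≤ Real.exp (|m| * (2 * M)) * M := by positivity
  refine diffOn_vop h.op (m := γ.pm b (Real.exp (|m| * (2 * M)) * M) μ)
    (C := Real.exp (|m| * (2 * M)) * M / μ) (fun z hz => ?_) fun x y => (h.dA m k x).mul (h.dB m k y)
  have hz' := h.ok z hz
  refine ⟨hz'.cA ho _ _, hz'.Aw_ne ho _ _, hz'.mB _ _, fun x => (h.base.pm_int K0 hμ b x).1,
    h.base.pm_nonneg K0 b μ, fun x => (h.base.pm_int K0 hμ b x).2, fun x y hy => ?_⟩
  rw [hz'.AB_eq ho, norm_mul, hz'.norm_wτ, pm, indicator_of_mem hy, mul_mul_mul_comm]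
  refine mul_le_mul ?_ ?_ (mul_nonneg (hz'.w0 y).le (norm_nonneg _)) (by positivity)
  · refine le_trans ?_ (mul_le_mul_of_nonneg_left (hb x y hy) (Real.exp_pos _).le)
    rw [hz'.norm_AA ho, h.base.norm_AA ho, ← mul_assoc (Real.exp (|m| * _)), ← Real.exp_add]
    refine mul_le_mul_of_nonneg_right (Real.exp_le_exp.2 ?_) ?_
    · have a1 := (Complex.abs_re_le_norm _).trans (hM z hz x).1
      have a2 := (Complex.abs_re_le_norm _).trans (hM z hz y).1
      rw [Complex.sub_re, abs_le] at a1 a2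
      have a3 : |(t z x).re - (γ.t x).re - ((t z y).re - (γ.t y).re)| ≤ 2 * M :=
        abs_le.2 ⟨by linarith, by linarith⟩
      have a4 := (le_abs_self _).trans ((abs_mul m _).trans_le
        (mul_le_mul_of_nonneg_left a3 (abs_nonneg m)))
      change m * ((t z x).re - (t z y).re) ≤ _
      linarith
    · have := h.base.w0 x; have := h.base.w0 y
      have := ho.trans_le (h.base.o0 x); have := ho.trans_le (h.base.o0 y)
      change 0 ≤ γ.w y / γ.w x * (γ.om y / γ.om x) ^ k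
      positivity
  · exact (mul_le_of_le_one_left (norm_nonneg _) (hz'.w1 y)).trans (hM z hz y).2

theorem diff_gm (h : γ.Fam t τ U C o) (ho : 0 < o) (k : ℕ) :
    DifferentiableOn ℂ (fun z => (γ.re (t z) (τ z)).gm V k) U := by
  have := h.diff_v (V := V) ho (b := true) (-(k + 2)) (k := k) (μ := (k + 1) / 2) (by positivity)
    fun x y hy => by push_cast; exact h.base.AA_m ho k hy
  push_cast at this
  exact this

theorem diff_gp (h : γ.Fam t τ U C o) (ho : 0 < o) (k : ℕ) :
    DifferentiableOn ℂ (fun z => (γ.re (t z) (τ z)).gp V k) U := by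
  by_cases h0 : k = 0
  · obtain ⟨M, hM⟩ := h.dom
    have key : ∀ (b : Bool) (S : Set ℝ), MeasurableSet S →
        (∀ x, ∀ y ∈ J.dom b x, y ∈ S → (x < y ↔ y ∉ γ.up)) → DifferentiableOn ℂ
        (fun z => vop V b ((γ.re (t z) (τ z)).Aw 0 0) (S.indicator ((γ.re (t z) (τ z)).Bw 0 0)))
        U := by
      intro b S hS hb
      rcases U.eq_empty_or_nonempty with rfl | ⟨z0, hz0⟩
      · exact differentiableOn_empty
      have M0 : 0 ≤ M := (norm_nonneg _).trans (hM z0 hz0 0).1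
      have nn : ∀ y, 0 ≤ M * (γ.w y * ‖γ.τ y‖) := fun y =>
        mul_nonneg M0 (mul_nonneg (h.base.w0 y).le (norm_nonneg _))
      refine diffOn_vop h.op (m := fun _ y => M * (γ.w y * ‖γ.τ y‖))
        (C := ∫ y, M * (γ.w y * ‖γ.τ y‖)) (fun z hz => ?_) fun x y => ?_
      · have hv := (h.ok z hz).vk_0 ho hS hb
        refine ⟨hv.cont, hv.ne, hv.meas, fun _ => h.base.int.const_mul M, fun _ => nn,
          fun _ => le_rfl, fun x y hy => (hv.bd x y hy).trans ?_⟩
        rw [mul_left_comm]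
        exact mul_le_mul_of_nonneg_left ((hM z hz y).2.trans
          (mul_le_mul_of_nonneg_left (Complex.re_le_norm _) M0)) (h.base.w0 y).le
      · by_cases h1 : y ∈ S
        · simp only [indicator_of_mem h1]
          exact (h.dA 0 0 x).mul (h.dB 0 0 y)
        · simp [indicator_of_notMem h1]
    simp only [gp, if_pos h0]
    exact (key false γ.upᶜ (Ok.mup γ).compl fun _ _ hy h1 => ⟨fun _ => h1, fun _ => hy⟩).sub
      (key true γ.up (Ok.mup γ) fun _ _ hy h1 =>
        ⟨fun h2 => absurd hy (not_le.2 h2), fun h2 => absurd h1 h2⟩)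
  · have := h.diff_v (V := V) ho (b := false) k (k := k) (μ := (k + 1) / 16) (by positivity)
      fun x y hy => by push_cast; exact h.base.AA_p ho h0 (le_of_lt hy)
    push_cast at this
    simpa only [gp, if_neg h0] using this

theorem diff_em (h : γ.Fam t τ U C o) (ho : 0 < o) (k : ℕ) :
    DifferentiableOn ℂ (fun z => (γ.re (t z) (τ z)).em V k) U :=
  diffOn_mop h.op (fun z hz => ((h.ok z hz).cA ho _ _).div_const _)
    (fun z hz => (h.ok z hz).em_bd ho k) fun x =>
      (h.dA _ k x).mul ((h.dA _ k γ.a).inv fun z hz => (h.ok z hz).Aw_ne ho _ _ _)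

theorem diff_ep (h : γ.Fam t τ U C o) (ho : 0 < o) (k : ℕ) :
    DifferentiableOn ℂ (fun z => (γ.re (t z) (τ z)).ep V k) U := by
  cases hf : γ.fin
  · have : ∀ z, (γ.re (t z) (τ z)).ep V k = 0 := fun z => Ok.ep_half (γ := γ.re (t z) (τ z)) hf k
    simp [this]
  · have : ∀ z, (γ.re (t z) (τ z)).fin = true := fun z => hf
    simp only [ep, this, if_true]
    exact diffOn_mop h.op (fun z hz => ((h.ok z hz).cA ho _ _).div_const _)
      (fun z hz => (h.ok z hz).ep_bd ho hf k) fun x =>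
        (h.dA _ k x).mul ((h.dA _ k (γ.pt k)).inv fun z hz => (h.ok z hz).Aw_ne ho _ _ _)

end Pth.Fam

end Crest.Agent.N207.L
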