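import Crest.Agent.N207.L.Xd
import Crest.Agent.N207.J.Dul2

/-!
Row 207, block L (helper82): lemma X in the form of the class `J.Dul` (variable `L = 2 l`).
-/

set_option autoImplicit false

open Complex Set Filter Topology
open scoped Real

noncomputable section

namespace Crest.Agent.N207.L

variable {E : Type*} [NormedAddCommGroup E] [NormedSpace ℂ E]

lemma half_mem_Om {C : ℝ} (hC : 0 < C) {L : ℂ} (hL : L ∈ J.Om (2 * C)) : L / 2 ∈ J.Om C := by
  have h : 2 * C * (1 + Real.log (1 + ‖L‖)) < L.re := hL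
  have h1 : Real.log (1 + ‖L / 2‖) ≤ Real.log (1 + ‖L‖) := by
    refine Real.log_le_log (by positivity) ?_
    rw [norm_div, Complex.norm_two]; linarith [norm_nonneg L]
  show C * (1 + Real.log (1 + ‖L / 2‖)) < (L / 2).re
  rw [div_ofNat_re]
  nlinarith

/-- **Lemma X**, data size `e^{-Re l / 2}`: the function of the full length is in the class. -/
theorem lemX_dul [CompleteSpace E] {R0 c δ : ℝ} (hc : 0 < c) (hδ : 0 < δ)
    {N : ℂ → E} (hd : DifferentiableOn ℂ N (Wd R0 c δ)) {B : ℝ}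
    (hB : ∀ l ∈ Wd R0 c δ, ‖N l‖ ≤ B)
    (hM : ∀ M : ℕ, ∃ C R : ℝ, ∀ l : ℂ, R ≤ l.re →
      (∀ n ≤ M, l + n * (2 * π * I) ∈ Wd R0 c δ) →
      ‖(fwdDiff (2 * π * I))^[M] N l‖ ≤ C * Real.exp (-(M * l.re) / 2)) :
    ∃ (C : ℝ) (co : ℕ → ℕ → E), 0 < C ∧ (∀ L ∈ J.Om C, L / 2 ∈ Wd R0 c δ) ∧
      J.Dul C (fun L => N (L / 2)) co := by
  obtain ⟨C0, co, hC0, hs, h⟩ := lemX (D := 2) two_pos hc hδ hd hB (by simpa using hM)
  refine ⟨2 * C0, fun q j => ((2 : ℂ) ^ j)⁻¹ • co q j, by linarith,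
    fun L hL => hs (half_mem_Om hC0 hL),
    hd.comp (by fun_prop) fun L hL => hs (half_mem_Om hC0 hL), fun K => ?_⟩
  obtain ⟨B', hB'⟩ := h K
  refine ⟨B', fun L hL => ?_⟩
  have := hB' _ (half_mem_Om hC0 hL)
  rw [div_ofNat_re, show -((K : ℝ) * (L.re / 2)) / 2 = -(K : ℝ) * L.re / 4 by ring] at this
  convert this using 3
  unfold J.psum J.mon
  refine Finset.sum_congr rfl fun q _ => Finset.sum_congr rfl fun j _ => ?_
  rw [smul_smul, div_pow, mul_div_assoc]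
  congr 1; ring

end Crest.Agent.N207.L
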