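import Crest.Agent.N207.J.Gauge
import Crest.Agent.N207.L.Xe
import Crest.Agent.N250.H.Fix

/-!
Row 207, block L (helper82): the Banach space `Hinf U hU F` of bounded holomorphic maps
`U → F` (stored as functions vanishing off `U`), joint holomorphy of the evaluation, currying and
lemma X for families of maps.
-/

set_option autoImplicit false

open Set Filter Topology Metric
open scoped Real

noncomputable section

namespace Crest.Agent.N207.L
open J Crest.Agent.N250.H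

variable {X F Z : Type*} [NormedAddCommGroup X] [NormedSpace ℂ X] [NormedAddCommGroup F]
  [NormedSpace ℂ F] [CompleteSpace F] [NormedAddCommGroup Z] [NormedSpace ℂ Z]

/-- the gauge of bounded holomorphic maps on `U` -/
def hG (U : Set X) (hU : IsOpen U) (F : Type*) [NormedAddCommGroup F] [NormedSpace ℂ F]
    [CompleteSpace F] : Gauge (X → F) where
  R M f := DifferentiableOn ℂ f U ∧ (∀ x, ‖f x‖ ≤ M) ∧ ∀ x ∉ U, f x = 0
  nonneg h := (norm_nonneg _).trans (h.2.1 0)
  mono h h' := ⟨h.1, fun x => (h.2.1 x).trans h', h.2.2⟩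
  zero := ⟨differentiableOn_const 0, fun _ => by simp, fun _ _ => rfl⟩
  add h h' := ⟨h.1.add h'.1, fun x => (norm_add_le _ _).trans (add_le_add (h.2.1 x) (h'.2.1 x)),
    fun x hx => by simp [h.2.2 x hx, h'.2.2 x hx]⟩
  smul c _ _ h := ⟨h.1.const_smul c, fun x => by
    rw [Pi.smul_apply, norm_smul]; exact mul_le_mul_of_nonneg_left (h.2.1 x) (norm_nonneg c),
    fun x hx => by simp [h.2.2 x hx]⟩
  sep h := funext fun x => norm_le_zero_iff.1
    (le_of_forall_pos_le_add fun ε hε => by simpa using (h ε hε).2.1 x)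
  compl v M hM h := by
    have hs : ∀ x, Summable fun n => v n x := fun x =>
      Summable.of_norm_bounded hM fun n => (h n).2.1 x
    have hb : ∀ (N : ℕ) x, ‖∑' n, v (n + N) x‖ ≤ ∑' n, M (n + N) := fun N x =>
      tsum_of_norm_bounded ((summable_nat_add_iff N).2 hM).hasSum fun n => (h _).2.1 x
    have hp : ∀ N : ℕ, DifferentiableOn ℂ (fun x => ∑ n ∈ Finset.range N, v n x) U := fun N =>
      DifferentiableOn.fun_sum fun n _ => (h n).1
    have hd : DifferentiableOn ℂ (fun x => ∑' n, v n x) U := by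
      refine diffOn_of_lim (l := atTop) hU (M := ∑' n, M n)
        (F := fun (N : ℕ) x => ∑ n ∈ Finset.range N, v n x)
        (Eventually.of_forall fun N => ⟨hp N, fun x _ => ?_⟩)
        (tendstoUniformlyOn_tsum_nat hM fun n x _ => (h n).2.1 x)
      refine (norm_sum_le _ _).trans ((Finset.sum_le_sum fun n _ => (h n).2.1 x).trans ?_)
      exact hM.sum_le_tsum _ fun n _ => (norm_nonneg _).trans ((h n).2.1 0)
    refine ⟨fun x => ∑' n, v n x, fun N => ⟨?_, fun x => ?_, fun x hx => ?_⟩⟩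
    · refine (hd.sub (hp N)).congr fun x _ => ?_
      simp [Finset.sum_apply]
    · rw [Pi.sub_apply, Finset.sum_apply, ← (hs x).sum_add_tsum_nat_add N, add_sub_cancel_left]
      exact hb N x
    · simp [Finset.sum_apply, fun n => (h n).2.2 x hx]

/-- bounded holomorphic maps `U → F` -/
abbrev Hinf (U : Set X) (hU : IsOpen U) (F : Type*) [NormedAddCommGroup F] [NormedSpace ℂ F]
    [CompleteSpace F] := (hG U hU F).Sp

namespace Hinf

variable {U : Set X} {hU : IsOpen U}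

lemma diff (n : Hinf U hU F) : DifferentiableOn ℂ n.val U := (Gauge.exists_R n).choose_spec.1

lemma off (n : Hinf U hU F) {x : X} (hx : x ∉ U) : n.val x = 0 :=
  (Gauge.exists_R n).choose_spec.2.2 x hx

lemma le (n : Hinf U hU F) (x : X) : ‖n.val x‖ ≤ ‖n‖ := by
  simpa using Gauge.le_mul_norm (x := n) (C := 1) zero_le_one fun M h => by simpa using h.2.1 x

lemma norm_le (n : Hinf U hU F) {M : ℝ} (hM : 0 ≤ M) (h : ∀ x ∈ U, ‖n.val x‖ ≤ M) : ‖n‖ ≤ M := by
  refine Gauge.norm_le ⟨n.diff, fun x => ?_, fun x hx => n.off hx⟩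
  by_cases hx : x ∈ U
  · exact h x hx
  · simpa [n.off hx] using hM

lemma ext' {n m : Hinf U hU F} (h : ∀ x ∈ U, n.val x = m.val x) : n = m := by
  refine Gauge.ext (funext fun x => ?_)
  by_cases hx : x ∈ U
  · exact h x hx
  · rw [n.off hx, m.off hx]

/-- evaluation at a point -/
def ev (U : Set X) (hU : IsOpen U) (F : Type*) [NormedAddCommGroup F] [NormedSpace ℂ F]
    [CompleteSpace F] (x : X) : Hinf U hU F →L[ℂ] F :=
  (hG U hU F).out (fun f => f x) 1 zero_le_one (fun M v h => by simpa using h.2.1 x)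
    (fun _ _ => rfl) (fun _ _ => rfl)

@[simp] lemma ev_apply (x : X) (n : Hinf U hU F) : ev U hU F x n = n.val x := rfl

lemma norm_ev_le (x : X) : ‖ev U hU F x‖ ≤ 1 := Gauge.norm_out_le _ _ _ _ _ _

open Classical in
/-- a map as an element of the space (junk value `0` if it is not bounded and holomorphic) -/
def mk (U : Set X) (hU : IsOpen U) (f : X → F) : Hinf U hU F :=
  if h : ∃ M, (hG U hU F).R M (U.indicator f) then (hG U hU F).mk' _ h else 0

lemma val_mk {f : X → F} (hd : DifferentiableOn ℂ f U) {M : ℝ} (hM : ∀ x ∈ U, ‖f x‖ ≤ M)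
    {x : X} (hx : x ∈ U) : (mk U hU f).val x = f x := by
  have h : ∃ M, (hG U hU F).R M (U.indicator f) := by
    refine ⟨max M 0, hd.congr fun y hy => indicator_of_mem hy f, fun y => ?_,
      fun y hy => indicator_of_notMem hy f⟩
    by_cases hy : y ∈ U
    · rw [indicator_of_mem hy]; exact (hM y hy).trans (le_max_left _ _)
    · rw [indicator_of_notMem hy]; simp
  rw [mk, dif_pos h, Gauge.val_mk', indicator_of_mem hx]

lemma norm_mk_le {f : X → F} (hd : DifferentiableOn ℂ f U) {M : ℝ} (h0 : 0 ≤ M)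
    (hM : ∀ x ∈ U, ‖f x‖ ≤ M) : ‖mk U hU f‖ ≤ M :=
  norm_le _ h0 fun x hx => by rw [val_mk hd hM hx]; exact hM x hx

lemma mk_val (n : Hinf U hU F) : mk U hU n.val = n :=
  ext' fun _ hx => val_mk n.diff (fun y _ => n.le y) hx

theorem diffOn_ev : DifferentiableOn ℂ (ev U hU F) U :=
  diffOn_clm hU (M := 1) (fun x _ => norm_ev_le x) fun n => n.diff

/-- **joint holomorphy of the evaluation** -/
theorem diffOn_val {N : Z → Hinf U hU F} {ξ : Z → X} {W : Set Z} (hN : DifferentiableOn ℂ N W)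
    (hξ : DifferentiableOn ℂ ξ W) (hm : MapsTo ξ W U) :
    DifferentiableOn ℂ (fun z => (N z).val (ξ z)) W :=
  ((diffOn_ev (hU := hU) (F := F)).comp hξ hm).clm_apply hN

theorem diffOn_val_prod :
    DifferentiableOn ℂ (fun p : Hinf U hU F × X => p.1.val p.2) (univ ×ˢ U) :=
  diffOn_val differentiableOn_fst differentiableOn_snd fun _ hp => hp.2

/-- **currying**: holomorphy is tested pointwise -/
theorem diffOn {N : Z → Hinf U hU F} {W : Set Z} (hW : IsOpen W) {M : ℝ}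
    (hM : ∀ z ∈ W, ‖N z‖ ≤ M) (hd : ∀ x ∈ U, DifferentiableOn ℂ (fun z => (N z).val x) W) :
    DifferentiableOn ℂ N W :=
  diffOn_of_norming (ι := U) (Y := fun _ => F) (fun x => ev U hU F x.1) (fun x n => n.le x.1)
    (fun n _ hc h => n.norm_le hc fun x hx => h ⟨x, hx⟩) hW hM fun x => hd x.1 x.2

theorem diffOn_mk {f : Z → X → F} {W : Set Z} (hW : IsOpen W) {M : ℝ}
    (hM : ∀ z ∈ W, ∀ x ∈ U, ‖f z x‖ ≤ M) (h1 : ∀ z ∈ W, DifferentiableOn ℂ (f z) U)
    (h2 : ∀ x ∈ U, DifferentiableOn ℂ (fun z => f z x) W) :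
    DifferentiableOn ℂ (fun z => mk U hU (f z)) W :=
  diffOn hW (M := max M 0)
    (fun z hz => norm_mk_le (h1 z hz) (le_max_right _ _) fun x hx =>
      (hM z hz x hx).trans (le_max_left _ _))
    fun x hx => (h2 x hx).congr fun z hz => val_mk (h1 z hz) (hM z hz) hx

/-- currying of a jointly holomorphic map -/
theorem diffOn_mk' {f : Z × X → F} {W : Set Z} (hW : IsOpen W) {M : ℝ}
    (hM : ∀ p ∈ W ×ˢ U, ‖f p‖ ≤ M) (hd : DifferentiableOn ℂ f (W ×ˢ U)) :
    DifferentiableOn ℂ (fun z => mk U hU fun x => f (z, x)) W :=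
  diffOn_mk hW (fun _ hz _ hx => hM _ ⟨hz, hx⟩)
    (fun _ hz => hd.comp (by fun_prop) fun _ hx => ⟨hz, hx⟩)
    fun _ hx => hd.comp (f := fun z => (z, _)) (by fun_prop) fun _ hz => ⟨hz, hx⟩

/-- Schwarz: Lipschitz estimate inside `U` -/
lemma lip (n : Hinf U hU F) {x y : X} {r : ℝ} (hr : ball x r ⊆ U) (hy : y ∈ ball x r) :
    ‖n.val y - n.val x‖ ≤ 2 * ‖n‖ / r * ‖y - x‖ :=
  lip_le (n.diff.mono hr) (fun z _ => n.le z) hy

lemma fd (n : Hinf U hU F) {x : X} {r : ℝ} (h0 : 0 < r) (hr : ball x r ⊆ U) :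
    ‖fderiv ℂ n.val x‖ ≤ 2 * ‖n‖ / r :=
  fd_le h0 (n.diff.mono hr) fun z _ => n.le z

lemma val_fwd (h : ℂ) (M : ℕ) (N : ℂ → Hinf U hU F) (l : ℂ) (x : X) :
    ((fwdDiff h)^[M] N l).val x = (fwdDiff h)^[M] (fun l => (N l).val x) l := by
  induction M generalizing N with
  | zero => rfl
  | succ M ih => rw [Function.iterate_succ_apply, ih]; rfl

end Hinf

/-- iterated differences only see the values at `l + n h`, `n ≤ M` -/
lemma fwd_congr {E : Type*} [AddCommGroup E] (h : ℂ) (M : ℕ) {f g : ℂ → E} {l : ℂ}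
    (H : ∀ n ≤ M, f (l + n * h) = g (l + n * h)) :
    (fwdDiff h)^[M] f l = (fwdDiff h)^[M] g l := by
  rw [fwdDiff_iter_eq_sum_shift, fwdDiff_iter_eq_sum_shift]
  refine Finset.sum_congr rfl fun n hn => ?_
  rw [nsmul_eq_mul, H n (Nat.lt_succ_iff.1 (Finset.mem_range.1 hn))]

/-- **Lemma X for a family of maps** `f l : U → F` (`l` = half length). -/
theorem lemX_hinf {U : Set X} (hU : IsOpen U) {R0 c δ : ℝ} (hc : 0 < c) (hδ : 0 < δ)
    {f : ℂ → X → F} {B : ℝ} (hB : ∀ l ∈ Wd R0 c δ, ∀ x ∈ U, ‖f l x‖ ≤ B)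
    (h1 : ∀ l ∈ Wd R0 c δ, DifferentiableOn ℂ (f l) U)
    (h2 : ∀ x ∈ U, DifferentiableOn ℂ (fun l => f l x) (Wd R0 c δ))
    (hM : ∀ M : ℕ, ∃ C R : ℝ, ∀ l : ℂ, R ≤ l.re →
      (∀ n ≤ M, l + n * (2 * π * Complex.I) ∈ Wd R0 c δ) → ∀ x ∈ U,
      ‖(fwdDiff (2 * π * Complex.I))^[M] (fun l => f l x) l‖ ≤ C * Real.exp (-(M * l.re) / 2)) :
    ∃ (C : ℝ) (co : ℕ → ℕ → Hinf U hU F), 0 < C ∧ (∀ L ∈ J.Om C, L / 2 ∈ Wd R0 c δ) ∧
      J.Dul C (fun L => Hinf.mk U hU (f (L / 2))) co ∧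
      ∀ x ∈ U, Tendsto (fun L : ℝ => f ((L : ℂ) / 2) x) atTop (𝓝 ((co 0 0).val x)) := by
  have hW : IsOpen (Wd R0 c δ) :=
    (isOpen_lt continuous_const Complex.continuous_re).inter
      (isOpen_lt (f := fun l : ℂ => |l.im|) (g := fun l : ℂ => c * Real.exp (δ * l.re))
        (by fun_prop) (by fun_prop))
  obtain ⟨C, co, hC, hs, hD⟩ := lemX_dul (N := fun l => Hinf.mk U hU (f l)) hc hδ
    (Hinf.diffOn_mk hW hB h1 h2) (B := max B 0)
    (fun l hl => Hinf.norm_mk_le (h1 l hl) (le_max_right _ _) fun x hx =>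
      (hB l hl x hx).trans (le_max_left _ _)) (fun M => by
      obtain ⟨C, R, h⟩ := hM M
      refine ⟨max C 0, R, fun l hl hn => Hinf.norm_le _ (by positivity) fun x hx => ?_⟩
      rw [Hinf.val_fwd, fwd_congr _ M (g := fun l => f l x) fun n hn' =>
        Hinf.val_mk (h1 _ (hn n hn')) (hB _ (hn n hn')) hx]
      exact (h l hl hn x hx).trans (by gcongr; exact le_max_left _ _))
  refine ⟨C, co, hC, hs, hD, fun x hx => ?_⟩
  refine (((Hinf.ev U hU F x).continuous.tendsto _).comp hD.tendsto).congr' ?_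
  filter_upwards [J.eventually_mem_Om C] with L hL
  exact Hinf.val_mk (h1 _ (hs _ hL)) (hB _ (hs _ hL)) hx

end Crest.Agent.N207.L
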