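import Crest.Agent.N207.L.Inv
import Crest.Agent.N207.AI.Ev

/-! # N207/L/Inv2 (helper19): invariant fields have invariant data (`dinv`) and back (`finv`) -/

set_option autoImplicit false
open Set Filter Topology
open Crest.GeometryTopology.CoordMetric

noncomputable section

namespace Crest.Agent.N207.L
open J I CB

variable {Γ : Subgroup Iso4}

theorem InvC.deriv {v : ℝ → (Fin 4 × Fin 4) ⊕ Unit → CS} {v' : (Fin 4 × Fin 4) ⊕ Unit → CS} {t : ℝ}
    (h : ∀ᶠ s in 𝓝 t, InvC Γ (v s)) (hd : ∀ i, HasDerivAt (fun s => v s i) (v' i) t) :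
    InvC Γ v' := by
  have hc : ∀ (γ : Iso4) i, HasDerivAt (fun s => cmp γ (v s i)) (cmp γ (v' i)) t := fun γ i =>
    ((cmpL γ).restrictScalars ℝ).hasFDerivAt.comp_hasDerivAt t (hd i)
  refine ⟨fun i => ?_, fun a b => ?_, fun γ hγ a b => ?_, fun γ hγ => ?_⟩
  · exact ((hd i).star.congr_of_eventuallyEq (h.mono fun s hs => (hs.re i).symm)).unique (hd i)
  · exact (hd _).unique ((hd _).congr_of_eventuallyEq (h.mono fun s hs => hs.sy a b))
  · exact (hd _).unique ((HasDerivAt.fun_sum fun c _ => HasDerivAt.fun_sum fun d _ =>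
      (hc γ (.inl (c, d))).const_smul ((gm γ c a * gm γ d b : ℝ) : ℂ)).congr_of_eventuallyEq
        (h.mono fun s hs => hs.rot γ hγ a b))
  · exact (hd _).unique ((hc γ _).congr_of_eventuallyEq (h.mono fun s hs => hs.en γ hγ))

theorem InvC.hasSum {v : ℕ → (Fin 4 × Fin 4) ⊕ Unit → CS} {w : (Fin 4 × Fin 4) ⊕ Unit → CS}
    (h : ∀ k, InvC Γ (v k)) (hs : ∀ i, HasSum (fun k => v k i) (w i)) : InvC Γ w := by
  have hc : ∀ (γ : Iso4) i, HasSum (fun k => cmp γ (v k i)) (cmp γ (w i)) := fun γ i =>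
    (hs i).mapL (cmpL γ)
  refine ⟨fun i => ?_, fun a b => ?_, fun γ hγ a b => ?_, fun γ hγ => ?_⟩
  · have := (hs i).star
    simp only [fun k => (h k).re i] at this
    exact this.unique (hs i)
  · have := hs (.inl (a, b))
    simp only [fun k => (h k).sy a b] at this
    exact this.unique (hs _)
  · have := hasSum_sum (s := Finset.univ) fun c _ => hasSum_sum (s := Finset.univ) fun d _ =>
      (hc γ (.inl (c, d))).const_smul ((gm γ c a * gm γ d b : ℝ) : ℂ)
    simp only [← fun k => (h k).rot γ hγ a b] at this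
    exact (hs _).unique this
  · have := hc γ (.inr ())
    simp only [← fun k => (h k).en γ hγ] at this
    exact (hs _).unique this

/-- the modes of an invariant family -/
theorem InvC.modes {v : (Fin 4 × Fin 4) ⊕ Unit → CS} (h : InvC Γ v) :
    InvM Γ fun i k => P k (toH (v i)) := by
  refine ⟨fun i k => ?_, fun a b k => by rw [h.sy], fun γ hγ a b k => ?_, fun γ hγ k => ?_⟩
  · rw [Pc_P, ← Pc_star, h.re]
  · simp only [Pc_P, ← Pc_cmp]
    rw [h.rot γ hγ a b]
    simp only [map_sum, map_smul]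
  · rw [Pc_P, ← Pc_cmp, ← h.en γ hγ]

theorem pullM_iso (γ : Iso4) (u : MetricField 4) (x : E4) (a b : Fin 4) :
    pullM γ u x a b = ∑ c, ∑ d, gm γ c a * gm γ d b * u (γ x) c d := by
  have e : fderiv ℝ γ x = (γ.toContinuousLinearEquiv : E4 →L[ℝ] E4) :=
    γ.toContinuousLinearEquiv.fderiv
  simp only [pullM, Matrix.of_apply, pullT, AI.evT_two, e]
  rfl

variable {I : Set ℝ} {m : WithTop ℕ∞} {h : MetricField 4} {t : ℝ}

theorem cf_sm {S : Set E4} (hh : Inv Γ m S h) (a b : Fin 4) : ContDiffOn ℝ m (cf h a b) S :=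
  Complex.ofRealCLM.contDiff.comp_contDiffOn (hh.sm a b)

theorem invC_rst (hh : Inv Γ m (An I) h) (ht : t ∈ I) :
    InvC Γ (Sum.elim (fun ab => rst (cf h ab.1 ab.2) t) 0) := by
  have hr := fun a b ω => rst_apply (cf_sm hh a b).continuousOn ht ω
  refine ⟨fun i => ?_, fun a b => ?_, fun γ hγ a b => ?_, fun γ _ => rfl⟩
  · rcases i with ⟨a, b⟩ | i
    · ext ω
      simp only [Sum.elim_inl, ContinuousMap.star_apply, hr]
      exact Complex.conj_ofReal _
    · exact star_zero _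
  · ext ω
    simp only [Sum.elim_inl, hr, cf]
    rw [(hh.symm _ (polar_mem_An ht ω)).apply a b]
  · ext ω
    simp only [Sum.elim_inl, hr, cf, ContinuousMap.coe_sum, Finset.sum_apply,
      ContinuousMap.smul_apply, cmp_apply, smul_eq_mul]
    rw [hh.eqv γ hγ _ (polar_mem_An ht ω), pullM_iso, map_smul]
    push_cast
    rfl

theorem invC_rst_Eu (hI : IsOpen I) (hh : Inv Γ m (An I) h) (hm : 1 ≤ m) (ht : t ∈ I) :
    InvC Γ (Sum.elim (fun ab => rst (Eu (cf h ab.1 ab.2)) t) 0) := by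
  refine InvC.deriv (v := fun s => Sum.elim (fun ab => rst (cf h ab.1 ab.2) s) 0) (t := t)
    (mem_of_superset (hI.mem_nhds ht) fun s hs => invC_rst hh hs) fun i => ?_
  rcases i with ⟨a, b⟩ | i
  · exact hasDerivAt_rst (n := 0) hI ((cf_sm hh a b).of_le (by simpa using hm)) ht
  · exact hasDerivAt_const _ _

theorem dinv_md (hh : Inv Γ m (An I) h) (ht : t ∈ I) :
    InvM Γ (Sum.elim (fun ab k => mdU (cf h ab.1 ab.2) k t) 0) :=
  (invC_rst hh ht).modes.congr fun i k => by rcases i with i | i <;> simp [mdU]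

theorem dinv_mdE (hI : IsOpen I) (hh : Inv Γ m (An I) h) (hm : 1 ≤ m) (ht : t ∈ I) :
    InvM Γ (Sum.elim (fun ab k => mdU (Eu (cf h ab.1 ab.2)) k t) 0) :=
  (invC_rst_Eu hI hh hm ht).modes.congr fun i k => by rcases i with i | i <;> simp [mdU]

/-- **DINV**, decaying amplitudes -/
theorem dinv_q (hI : IsOpen I) (hh : Inv Γ m (An I) h) (hm : 1 ≤ m) (ht : t ∈ I) :
    InvM Γ (Sum.elim (fun ab k => qm (cf h ab.1 ab.2) k t) 0) :=
  ((((dinv_md hh ht).csmul (fun k => (k : ℂ)) fun k => by simp).sub (dinv_mdE hI hh hm ht)).csmul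
    (fun k => (2 * (k : ℂ) + 2)⁻¹) fun k => by simp).congr fun i k => by
      rcases i with i | i <;> simp [qm]

/-- **DINV**, growing amplitudes -/
theorem dinv_p (hI : IsOpen I) (hh : Inv Γ m (An I) h) (hm : 1 ≤ m) (ht : t ∈ I) :
    InvM Γ (Sum.elim (fun ab k => pm (cf h ab.1 ab.2) k t) 0) :=
  ((((dinv_md hh ht).csmul (fun k => (k : ℂ) + 2) fun k => by simp).add
    (dinv_mdE hI hh hm ht)).csmul (fun k => (2 * (k : ℂ) + 2)⁻¹) fun k => by simp).congr
      fun i k => by rcases i with i | i <;> simp [pm]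

/-- **DINV**, growing amplitudes without the constant mode -/
theorem dinv_p' (hI : IsOpen I) (hh : Inv Γ m (An I) h) (hm : 1 ≤ m) (ht : t ∈ I) :
    InvM Γ (Sum.elim (fun ab k => if k = 0 then 0 else pm (cf h ab.1 ab.2) k t) 0) :=
  (dinv_p hI hh hm ht).kill.congr fun i k => by rcases i with i | i <;> simp

/-- stored decaying data -/
theorem dinv_datQ (hI : IsOpen I) (hh : Inv Γ m (An I) h) (hm : 1 ≤ m) (ht : t ∈ I) {y : DD}
    (hy : DatQ h t y) : InvM Γ fun i => trD 1 (Sum.elim y 0 i) :=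
  (dinv_q hI hh hm ht).congr fun i k => by
    rcases i with ⟨a, b⟩ | i
    · exact hy a b k
    · simp [trD]

/-- stored growing data; `y'` is `y` with the constant mode removed -/
theorem dinv_datP (hI : IsOpen I) (hh : Inv Γ m (An I) h) (hm : 1 ≤ m) (ht : t ∈ I) {y y' : DD}
    (hy : DatP h t y) (e : ∀ ab k, trD 1 (y' ab) k = if k = 0 then 0 else trD 1 (y ab) k) :
    InvM Γ fun i => trD 1 (Sum.elim y' 0 i) :=
  (dinv_p' hI hh hm ht).congr fun i k => by
    rcases i with ⟨a, b⟩ | i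
    · simp only [Sum.elim_inl, e]
      split_ifs with hk
      · rfl
      · exact hy a b k hk
    · simp [trD]

/-! ### from invariant modes to an invariant field -/

/-- the real matrix field of a family of complex functions -/
def reM (U : (Fin 4 × Fin 4) ⊕ Unit → E4 → ℂ) : MetricField 4 :=
  fun x => Matrix.of fun a b => (U (.inl (a, b)) x).re

theorem ann_iso (γ : Iso4) (u : ℝ → CS) {x : E4} (hx : x ≠ 0) :
    ann u (γ x) = cmp γ (u (Real.log ‖x‖)) (prj x) := by
  have hx' : γ x ≠ 0 := fun e => hx (γ.injective (e.trans (map_zero γ).symm))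
  rw [ann, γ.norm_map, cmp_apply]
  congr 1
  apply Subtype.ext
  show (prj (γ x) : E4) = γ (prj x : E4)
  rw [prj_coe hx', prj_coe hx, γ.norm_map, map_smul]

theorem InvC.ann_re {v : (Fin 4 × Fin 4) ⊕ Unit → ℝ → CS} {x : E4}
    (hv : InvC Γ fun i => v i (Real.log ‖x‖)) (i : (Fin 4 × Fin 4) ⊕ Unit) :
    ann (v i) x = ((ann (v i) x).re : ℝ) :=
  (Complex.conj_eq_iff_re.1 (congrArg (fun u : CS => u (prj x)) (hv.re i))).symm

theorem finvC {v : (Fin 4 × Fin 4) ⊕ Unit → ℝ → CS} {x : E4} (hx : x ≠ 0)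
    (hv : InvC Γ fun i => v i (Real.log ‖x‖)) :
    (∀ a b, ann (v (.inl (a, b))) x = cf (reM fun i => ann (v i)) a b x) ∧
    (reM (fun i => ann (v i)) x).IsSymm ∧
    (∀ γ ∈ Γ, reM (fun i => ann (v i)) x = pullM γ (reM fun i => ann (v i)) x) ∧
    ann (v (.inr ())) x = ((ann (v (.inr ())) x).re : ℝ) ∧
    ∀ γ ∈ Γ, ann (v (.inr ())) (γ x) = ann (v (.inr ())) x := by
  refine ⟨fun a b => hv.ann_re _, ?_, fun γ hγ => ?_, hv.ann_re _, fun γ hγ => ?_⟩
  · ext a b
    exact congrArg (fun u : CS => (u (prj x)).re) (hv.sy b a)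
  · ext a b
    have := congrArg (fun u : CS => (u (prj x)).re) (hv.rot γ hγ a b)
    simp only [ContinuousMap.coe_sum, Finset.sum_apply, ContinuousMap.smul_apply, smul_eq_mul,
      Complex.re_sum, Complex.re_ofReal_mul] at this
    rw [pullM_iso]
    simp only [reM, Matrix.of_apply, ann_iso γ _ hx]
    exact this
  · rw [ann_iso γ _ hx, ← hv.en γ hγ]; rfl

theorem InvM.val {f : (Fin 4 × Fin 4) ⊕ Unit → Md} {n : ℕ} {M : ℝ}
    (hb : ∀ i, Mb I (n + 2) M (f i)) (ht : t ∈ I) (hf : InvM Γ fun i k => f i k t) :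
    InvC Γ fun i => val (f i) t :=
  InvC.hasSum hf.invC fun i => (hb i).hasSum ht

/-- **FINV** -/
theorem finv {f : (Fin 4 × Fin 4) ⊕ Unit → Md} {n : ℕ} {M : ℝ} (c : ℝ)
    (hf : ∀ t ∈ I, InvM Γ fun i k => f i k t) (hb : ∀ i, Mb I (n + 2) M (f i)) {x : E4}
    (hx : x ∈ An ((· - c) ⁻¹' I)) :
    (∀ a b, ann (fun t => val (f (.inl (a, b))) (t - c)) x =
      cf (reM fun i => ann fun t => val (f i) (t - c)) a b x) ∧
    (reM (fun i => ann fun t => val (f i) (t - c)) x).IsSymm ∧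
    (∀ γ ∈ Γ, reM (fun i => ann fun t => val (f i) (t - c)) x =
      pullM γ (reM fun i => ann fun t => val (f i) (t - c)) x) ∧
    ann (fun t => val (f (.inr ())) (t - c)) x =
      ((ann (fun t => val (f (.inr ())) (t - c)) x).re : ℝ) ∧
    ∀ γ ∈ Γ, ann (fun t => val (f (.inr ())) (t - c)) (γ x) =
      ann (fun t => val (f (.inr ())) (t - c)) x :=
  finvC (v := fun i t => val (f i) (t - c)) hx.1 (InvM.val hb hx.2 (hf _ hx.2))

end Crest.Agent.N207.L

end
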