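import Crest.Agent.N207.L.NkH
import Crest.Agent.N207.L.Pc3

/-!
Row 207, block L (helper82): the incoming outputs of the limit neck map are quadratic; the paths
of the collars and of the extended neck.
-/

set_option autoImplicit false
set_option linter.unusedSectionVars false

open Set Filter Topology Metric

noncomputable section

namespace Crest.Agent.N207.L
open J

variable {ι : Type} [Fintype ι]

/-- the outputs of the neck which enter the collars -/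
def inL : D3 ι →L[ℂ] D3 ι :=
  (ContinuousLinearMap.fst ℂ _ _).prod
    (((ContinuousLinearMap.fst ℂ _ _).comp (ContinuousLinearMap.snd ℂ _ _)).prod
      ((piL keep).comp ((ContinuousLinearMap.snd ℂ _ _).comp (ContinuousLinearMap.snd ℂ _ _))))

theorem inL_apply (u : D3 ι) : inL u = (u.1, u.2.1, piL keep u.2.2) := rfl

theorem norm_inL_le (u : D3 ι) : ‖inL u‖ ≤ ‖u‖ :=
  max_le (norm_fst_le u) (max_le ((norm_fst_le u.2).trans (norm_snd_le u))
    ((norm_piL_le norm_keep_le _).trans ((norm_snd_le u.2).trans (norm_snd_le u))))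

theorem duh_bd' {γ : Pth} {C o : ℝ} (h : γ.Ok C o) (ho : 0 < o) {X Xf : CL} {A : H} {k : ℕ}
    {x : ℝ} {c : ℂ} {G : BH →L[ℂ] BH} (hG : ‖G‖ ≤ 16 * C / (k + 1))
    (hX : tru 6 γ.w γ.om X k x = γ.tw 1 k x • (c • (((wt (6 : ℕ) k)⁻¹ : ℝ) : ℂ) • A -
      (2 * (k : ℂ) + 2)⁻¹ • G (srcM Xf k) x)) :
    ‖trc x X k‖ ≤ ‖c‖ * ‖A‖ + 8 * C * ‖Xf k‖ := by
  have h1 : ∀ y : ℝ, ‖(fun _ : ℝ => (1 : ℂ)) y‖ ≤ 1 := fun _ => by simp
  rw [← norm_smul]
  refine duh_bd h ho (e := mop H fun _ => 1) (norm_mop_le continuous_const h1) hG ?_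
  rw [hX, mop_apply continuous_const h1, one_smul, smul_comm c]

section
variable {N : NL ι} {γ : Pth} {C o η : ℝ} {S : Tr ι} {A B : ι → D}

theorem trc_q_le' (h : γ.Ok C o) (ho : 0 < o)
    (hs : Sol N γ.τ γ.w γ.om η (S.p γ) (S.q γ) (S.F γ)) (hd : Dat γ (S.p γ) (S.q γ) A B) (i : ι)
    (x : ℝ) (k : ℕ) : ‖trc x (S.2.1 i) k‖ ≤
      ‖γ.Aw (-(k + 2)) k x / γ.Aw (-(k + 2)) k γ.a‖ * ‖A i k‖ + 8 * C * ‖S.2.2 i k‖ := by
  refine le_trans (duh_bd' h ho (A := P k (A i k)) (h.norm_gm ho k) ?_)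
    (add_le_add_left (mul_le_mul_of_nonneg_left (norm_P_le k _) (norm_nonneg _)) _)
  rw [← h.em_apply ho]
  refine h.duh_q ho k _ ((hs.ode_q i k).congr (fun x => ?_) fun _ => rfl) ?_ x
  · rw [← tru_src]; rfl
  · rw [← smul_trD]; exact hd.hq i k

theorem trc_p_le' (h : γ.Ok C o) (ho : 0 < o) (hf : γ.fin = true)
    (hs : Sol N γ.τ γ.w γ.om η (S.p γ) (S.q γ) (S.F γ)) (hd : Dat γ (S.p γ) (S.q γ) A B) (i : ι)
    (x : ℝ) (k : ℕ) : ‖trc x (S.1 i) k‖ ≤
      ‖γ.Aw k k x / γ.Aw k k (γ.pt k)‖ * ‖B i k‖ + 8 * C * ‖S.2.2 i k‖ := by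
  refine le_trans (duh_bd' h ho (A := P k (B i k)) (h.norm_gp ho k) ?_)
    (add_le_add_left (mul_le_mul_of_nonneg_left (norm_P_le k _) (norm_nonneg _)) _)
  rw [← h.ep_apply ho hf]
  refine h.duh_p ho k _ ((hs.ode_p i k).congr (fun x => ?_) fun _ => rfl) (fun _ => ?_)
    (M := 0) (fun h' => by simp [hf] at h') x
  · rw [← tru_src]; rfl
  · rw [← smul_trD]
    have := hd.hp hf i k
    by_cases h0 : k = 0
    · subst h0
      simpa [trD] using this
    · simpa [Pth.pt, h0] using this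

end

theorem norm_le_two' {z a : D} {b : CL} {e c : ℝ} (he : 0 ≤ e) (hc : 0 ≤ c)
    (h : ∀ k, ‖z k‖ ≤ e * ‖a k‖ + c * ‖b k‖) : ‖z‖ ≤ 2 * (e * ‖a‖ + c * ‖b‖) := by
  have := norm_le_two (z := z) (a := (e : ℂ) • a) (b := b) hc fun k => by
    rw [lp.coeFn_smul, Pi.smul_apply, norm_smul, Complex.norm_real, Real.norm_of_nonneg he]
    exact h k
  rwa [norm_smul, Complex.norm_real, Real.norm_of_nonneg he] at this

theorem ok_nk {l o : ℝ} (hl : 1 ≤ l) (ho : 0 ≤ o) (ho1 : o ≤ 1) : ((neck l 0).omc o).Ok 10 o :=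
  (ok_neck (c := 0) hl le_rfl (by norm_num) (by simp) (by norm_num)).omc ho ho1

theorem nk_re {l o : ℝ} (x : ℝ) : (((neck l 0).omc o).t x).re = cl (-l) l x := by
  simp [Pth.omc, neck]

/-- the incoming outputs of a real neck -/
theorem IsSol.inc {N : NL ι} {l o K : ℝ} (hl : 1 ≤ l) (ho : 0 < o) (ho1 : o ≤ 1) (hK : 0 ≤ K)
    {v : DD ι} {S : Tr ι} (h : IsSol N ((neck l 0).omc o) K (killB v) S) :
    ‖inL (outL (-l) l S)‖ ≤ 2 * (Real.exp (-(l / 4)) * ‖v‖ + 80 * (K * ‖v‖ ^ 2)) := by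
  have ok := ok_nk hl ho.le ho1
  have e0 := Real.exp_pos (-(l / 4))
  have hF : ∀ i, ‖S.2.2 i‖ ≤ K * ‖v‖ ^ 2 := fun i => (norm_le_pi_norm _ i).trans (h.le2.trans
    (mul_le_mul_of_nonneg_left (pow_le_pow_left₀ (norm_nonneg _) (norm_killB_le v) 2) hK))
  have r1 : (((neck l 0).omc o).t (-l)).re = -l := by rw [nk_re, cl_of_le le_rfl]
  have r2 : (((neck l 0).omc o).t l).re = l := by rw [nk_re, cl_of_ge (by linarith) le_rfl]
  have key : ∀ {z a : D} (i : ι), ‖a‖ ≤ ‖v‖ →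
      (∀ k, ‖z k‖ ≤ Real.exp (-(l / 4)) * ‖a k‖ + 8 * 10 * ‖S.2.2 i k‖) →
      ‖z‖ ≤ 2 * (Real.exp (-(l / 4)) * ‖v‖ + 80 * (K * ‖v‖ ^ 2)) := fun i ha hz => by
    refine (norm_le_two' e0.le (by norm_num) hz).trans ?_
    have := hF i
    have := mul_le_mul_of_nonneg_left ha e0.le
    linarith
  have h0 : 0 ≤ 2 * (Real.exp (-(l / 4)) * ‖v‖ + 80 * (K * ‖v‖ ^ 2)) := by positivity
  have hA : ∀ i, ‖(killB v).1 i‖ ≤ ‖v‖ := fun i =>
    (norm_le_pi_norm _ i).trans ((norm_fst_le _).trans (norm_killB_le v))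
  have hB : ∀ i, ‖(killB v).2 i‖ ≤ ‖v‖ := fun i =>
    (norm_le_pi_norm _ i).trans ((norm_snd_le _).trans (norm_killB_le v))
  have B0 : ∀ i, (killB v).2 i 0 = 0 := fun i => by
    change kill (v.2 i) 0 = 0
    rw [kill_apply, if_pos rfl]
  refine max_le ((pi_norm_le_iff_of_nonneg h0).2 fun i => key i (hB i) fun k => ?_)
    (max_le ((pi_norm_le_iff_of_nonneg h0).2 fun i => key i (hA i) fun k => ?_)
      ((pi_norm_le_iff_of_nonneg h0).2 fun i => key i (hB i) fun k => ?_))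
  · refine (trc_p_le' ok ho rfl h.sol h.dat i (-l) k).trans (add_le_add_left ?_ _)
    by_cases hk : k = 0
    · subst hk; simp [B0]
    refine mul_le_mul_of_nonneg_right ?_ (norm_nonneg _)
    rw [Pth.pt, if_neg hk]
    refine (ok.AA_p ho hk (x := -l) (y := l) (by linarith)).trans (Real.exp_le_exp.2 ?_)
    have : (1 : ℝ) ≤ k := Nat.one_le_cast.2 (Nat.pos_of_ne_zero hk)
    rw [r1, r2]; nlinarith
  · refine (trc_q_le' ok ho h.sol h.dat i l k).trans (add_le_add_left ?_ _)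
    refine mul_le_mul_of_nonneg_right ?_ (norm_nonneg _)
    refine (ok.AA_m ho k (x := l) (y := -l) (by linarith)).trans (Real.exp_le_exp.2 ?_)
    have : (0 : ℝ) ≤ k := Nat.cast_nonneg k
    rw [r1, r2]; nlinarith
  · change ‖keep (trc l (S.1 i)) k‖ ≤ _
    rw [keep_apply]
    split_ifs with hk
    · subst hk
      refine (trc_p_le' ok ho rfl h.sol h.dat i l 0).trans (add_le_add_left ?_ _)
      simp [B0]
    · rw [norm_zero]; positivity

/-- **the limit map is quadratic on the incoming outputs** -/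
theorem Neck.quad {N : NL ι} {o ε K R0 : ℝ} {Nm : ℂ → DD ι → D3 ι} (h : Neck N o ε K R0 Nm)
    (ho : 0 < o) (ho1 : o ≤ 1) (hK : 0 ≤ K) {v : DD ι} (hv : v ∈ ball (0 : DD ι) ε) {u : D3 ι}
    (ht : Tendsto (fun L : ℝ => Nm ((L : ℂ) / 2) v) atTop (𝓝 u)) :
    ‖inL u‖ ≤ 160 * K * ‖v‖ ^ 2 := by
  have h1 : Tendsto (fun L : ℝ => 2 * (Real.exp (-(L / 2 / 4)) * ‖v‖ + 80 * (K * ‖v‖ ^ 2))) atTop
      (𝓝 (2 * (0 * ‖v‖ + 80 * (K * ‖v‖ ^ 2)))) := by
    refine (((Real.tendsto_exp_neg_atTop_nhds_zero.comp ?_).mul_const _).add_const _).const_mul _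
    exact (tendsto_id.atTop_div_const two_pos).atTop_div_const four_pos
  refine (le_of_tendsto_of_tendsto ((inL.continuous.tendsto u).comp ht).norm h1 ?_).trans_eq
    (by ring)
  filter_upwards [eventually_gt_atTop (2 * R0), eventually_ge_atTop 2] with L hL h2
  obtain ⟨S, hS, e⟩ := h.real (L / 2) (by linarith) v hv
  have e2 : ((L / 2 : ℝ) : ℂ) = (L : ℂ) / 2 := by push_cast; rfl
  simp only [Function.comp]
  rw [← e2, e]
  exact hS.inc (by linarith) ho ho1 hK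

/-! ### paths -/

/-- the collar of an outer end -/
def colL (κ : ℝ) : Pth := str 1 (1 + 3) (1 + 3) 1 0 (omL 1 κ)

/-- the collar of a puncture -/
def colR (κ : ℝ) : Pth := str (-4) (-4 + 3) (-4) 1 0 (omR (-4 + 3) κ)

/-- the extended neck `[-R, R]` (both collars included) -/
def xnk (R κ : ℝ) : Pth := { neck R 0 with om := fun x => max (omL (-R) κ x) (omR R κ x) }

variable {κ : ℝ}

theorem fam_colL (h0 : 0 ≤ κ) (h1 : κ ≤ 1 / 8) :
    (colL κ).Fam (colt 1) (colτ 1) (ball 0 (1 / 2)) 10 (Real.exp (-κ)) := by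
  obtain ⟨a, b, c, d, e⟩ := omL_props (a := 1) (b := 1 + 3) (by norm_num) h0 h1
  exact fam_col (by norm_num) le_rfl one_pos le_rfl (Or.inl (by norm_num)) (by simp) (by simp)
    (by norm_num) a b c (Real.exp_pos _).le d e

theorem fam_colR (h0 : 0 ≤ κ) (h1 : κ ≤ 1 / 8) :
    (colR κ).Fam (colt (-4)) (colτ (-4)) (ball 0 (1 / 2)) 10 (Real.exp (-κ)) := by
  obtain ⟨a, b, c, d, e⟩ := omR_props (a := -4) (b := -4 + 3) (by norm_num) h0 h1
  exact fam_col le_rfl (by norm_num) one_pos le_rfl (Or.inl (by norm_num)) (by simp) (by simp)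
    (by norm_num) a b c (Real.exp_pos _).le d e

theorem ok_xnk {R : ℝ} (hR : 1 ≤ R) (h0 : 0 ≤ κ) (h1 : κ ≤ 1 / 8) :
    (xnk R κ).Ok 10 (Real.exp (-κ)) := by
  obtain ⟨a, b, c, d, e⟩ := omL_props (a := -R) (b := R) (u := 1 / 4) (by linarith) h0 (by linarith)
  obtain ⟨a', _, c', d', e'⟩ :=
    omR_props (a := -R) (b := R) (u := 1 / 4) (by linarith) h0 (by linarith)
  have r : ∀ r s, ((neck R 0).t s - (neck R 0).t r).re = cl (-R) R s - cl (-R) R r := fun r s => by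
    simp [neck]
  have mx : ∀ {E x y x' y' : ℝ}, 0 ≤ E → x ≤ E * x' → y ≤ E * y' → max x y ≤ E * max x' y' :=
    fun hE p q => max_le (p.trans (mul_le_mul_of_nonneg_left (le_max_left _ _) hE))
      (q.trans (mul_le_mul_of_nonneg_left (le_max_right _ _) hE))
  exact { ok_neck (R := R) (ζ := 0) (c := 0) (C := 10) hR le_rfl (by norm_num) (by simp)
      (by norm_num) with
    oc := a.max a'
    o0 := fun x => (b x).trans (le_max_left _ _)
    o1 := fun x => max_le (c x) (c' x)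
    ob := fun r' s h => by
      change _ ≤ Real.exp (1 / 4 * ((neck R 0).t s - (neck R 0).t r').re) * _
      rw [r]; exact mx (Real.exp_pos _).le (d r' s h) (d' r' s h)
    of := fun r' s h => by
      change _ ≤ Real.exp (1 / 4 * ((neck R 0).t s - (neck R 0).t r').re) * _
      rw [r]; exact mx (Real.exp_pos _).le (e r' s h) (e' r' s h) }

end Crest.Agent.N207.L
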