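import Crest.Agent.N207.L.Lp1

/-!
Row 207, block L (helper82): the solution on the extended neck, restricted to the collars and to
the neck, solves the collar-neck loop.
-/

set_option autoImplicit false
set_option linter.unusedSectionVars false

open Set Filter Topology Metric

noncomputable section

namespace Crest.Agent.N207.L
open J

variable {ι : Type} [Fintype ι]

/-- data of the outer collar: `q` from the core, `p` from the neck -/
def dL (y : DD ι) (u : D3 ι) : DD ι := (y.1, u.1)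

/-- data of the puncture collar: `q`, `p_0` from the neck, `p_k` from the core -/
def dR (y : DD ι) (u : D3 ι) : DD ι := (u.2.1, u.2.2 + piL kill y.2)

theorem norm_dL_le (y : DD ι) (u : D3 ι) : ‖dL y u‖ ≤ ‖y‖ + ‖u‖ :=
  max_le ((norm_fst_le y).trans (le_add_of_nonneg_right (norm_nonneg _)))
    ((norm_fst_le u).trans (le_add_of_nonneg_left (norm_nonneg _)))

theorem norm_dR_le (y : DD ι) (u : D3 ι) : ‖dR y u‖ ≤ ‖y‖ + ‖u‖ :=
  max_le (((norm_fst_le u.2).trans (norm_snd_le u)).trans (le_add_of_nonneg_left (norm_nonneg _)))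
    ((norm_add_le _ _).trans ((add_le_add ((norm_snd_le u.2).trans (norm_snd_le u))
      ((norm_piL_le norm_kill_le _).trans (norm_snd_le y))).trans_eq (add_comm _ _)))

/-- the collar solutions -/
def SL (N : NL ι) (κ : ℝ) (d : DD ι) : Tr ι := N.sol 10 (Real.exp (-κ)) (colL κ) d
def SR (N : NL ι) (κ : ℝ) (d : DD ι) : Tr ι := N.sol 10 (Real.exp (-κ)) (colR κ) d

/-- the solution on the extended neck (neck of half length `l`, path `[-(l+3), l+3]`) -/
def XS (N : NL ι) (κ l : ℝ) (y : DD ι) : Tr ι :=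
  N.sol 10 (Real.exp (-κ)) (xnk (l + 3) κ) (killB y)

/-- the data sent by the collars to the neck -/
def lpT (N : NL ι) (κ : ℝ) (y : DD ι) (u : D3 ι) : DD ι :=
  (trQ (1 + 3) (SL N κ (dL y u)), piL kill (trP (-4) (SR N κ (dR y u))))

/-- collar coordinate to path coordinate -/
def phL (l x : ℝ) : ℝ := cl 1 (1 + 3) x + -(l + 4)
def phR (l x : ℝ) : ℝ := cl (-4) (-4 + 3) x + (l + 4)

/-- the collar solutions are the restrictions of the solution on the extended neck -/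
structure Idn (N : NL ι) (κ l : ℝ) (y : DD ι) (u : D3 ι) : Prop where
  pL : cmpV ((XS N κ l y).p (xnk (l + 3) κ)) (phL l) = (SL N κ (dL y u)).p (colL κ)
  qL : cmpV ((XS N κ l y).q (xnk (l + 3) κ)) (phL l) = (SL N κ (dL y u)).q (colL κ)
  FL : cmpV ((XS N κ l y).F (xnk (l + 3) κ)) (phL l) = (SL N κ (dL y u)).F (colL κ)
  pR : cmpV ((XS N κ l y).p (xnk (l + 3) κ)) (phR l) = (SR N κ (dR y u)).p (colR κ)
  qR : cmpV ((XS N κ l y).q (xnk (l + 3) κ)) (phR l) = (SR N κ (dR y u)).q (colR κ)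
  FR : cmpV ((XS N κ l y).F (xnk (l + 3) κ)) (phR l) = (SR N κ (dR y u)).F (colR κ)

lemma cl_add (a b c x : ℝ) : cl (a + c) (b + c) (x + c) = cl a b x + c := by
  unfold cl; rw [min_add_add_right, max_add_add_right]

variable {κ R l : ℝ}

lemma omL_mid {a x : ℝ} (h : a + 1 ≤ x) : omL a κ x = Real.exp (-κ) := by
  rw [omL, cl_of_ge (by linarith) h]; congr 1; ring

lemma omR_mid {b x : ℝ} (h : x ≤ b - 1) : omR b κ x = Real.exp (-κ) := by
  rw [omR, cl_of_le h]; congr 1; ring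

lemma omL_left (a : ℝ) : omL a κ a = 1 := by rw [omL, cl_of_le le_rfl]; simp

lemma omR_right (b : ℝ) : omR b κ b = 1 := by rw [omR, cl_of_ge (by linarith) le_rfl]; simp

lemma xnk_w_end (hR : 1 ≤ R) {x : ℝ} (hx : |x| = R) : (xnk R κ).w x = 1 := by
  change Real.exp (5 / 8 * (cl 1 R |x| - R)) = 1
  rw [hx, cl_of_mem hR le_rfl, sub_self, mul_zero, Real.exp_zero]

lemma xnk_om_left (h0 : 0 ≤ κ) : (xnk R κ).om (-R) = 1 := by
  change max (omL (-R) κ (-R)) (omR R κ (-R)) = 1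
  rw [omL_left]
  exact max_eq_left ((omR_props (a := R - 1) (by linarith) h0 le_rfl).2.2.1 _)

lemma xnk_om_right (h0 : 0 ≤ κ) : (xnk R κ).om R = 1 := by
  change max (omL (-R) κ R) (omR R κ R) = 1
  rw [omR_right]
  exact max_eq_right ((omL_props (b := -R + 1) le_rfl h0 le_rfl).2.2.1 _)

lemma colL_w (x : ℝ) : (colL κ).w x = 1 := by simp [colL, str]
lemma colR_w (x : ℝ) : (colR κ).w x = 1 := by simp [colR, str]

section Res
variable {N : NL ι} {η : ℝ} {p q F : ι → Md}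

theorem res_xnk {a b c : ℝ} (hab : a ≤ b) (h1 : -R ≤ a + c) (h2 : b + c ≤ R) {τ : ℝ → ℂ}
    {w om : ℝ → ℝ} (hτ : ∀ x, τ x = ind a b x) (hw : ∀ x, (xnk R κ).w (cl a b x + c) ≤ w x)
    (hom : ∀ x, (xnk R κ).om (cl a b x + c) ≤ om x)
    (h : Sol N (xnk R κ).τ (xnk R κ).w (xnk R κ).om η p q F) :
    Sol N τ w om η (cmpV p fun x => cl a b x + c) (cmpV q fun x => cl a b x + c)
      (cmpV F fun x => cl a b x + c) := by
  refine h.cmp (κ := 1) ((cl_cont a b).add continuous_const)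
    (fun x y hxy => add_le_add_left (cl_mono a b hxy) c) (fun x => (cl_der' hab x).add_const c)
    (fun x => ?_) le_rfl (by simp) (fun x => (Real.exp_pos _).le)
    (fun x => (Real.exp_pos _).le.trans (le_max_left _ _)) (fun x => by simpa using hw x) hom
  rw [hτ]
  change _ = _ * ((ind (-R) R _ : ℂ) + 0 * _)
  rcases ind_cases a b x with ⟨p1, p2, p3⟩ | ⟨_, p3⟩
  · rw [cl_of_mem p1 p2.le, ind_of_mem (a := -R) (by linarith) (by linarith)]; simp
  · simp [p3]

theorem res_L (hl : 1 ≤ l) (h0 : 0 ≤ κ)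
    (h : Sol N (xnk (l + 3) κ).τ (xnk (l + 3) κ).w (xnk (l + 3) κ).om η p q F) :
    Sol N (colL κ).τ (colL κ).w (colL κ).om η (cmpV p (phL l)) (cmpV q (phL l))
      (cmpV F (phL l)) := by
  refine res_xnk (by norm_num) (by linarith) (by linarith) (fun _ => rfl)
    (fun x => (neck_w_le (by linarith) 0 _).trans_eq (colL_w x).symm) (fun x => max_le ?_ ?_) h
  · change _ ≤ omL 1 κ x
    rw [omL, omL, show -(l + 3) = 1 + -(l + 4) by ring,
      show 1 + -(l + 4) + 1 = 1 + 1 + -(l + 4) by ring, cl_add,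
      cl_cl le_rfl (by norm_num) (by norm_num)]
    exact le_of_eq (by congr 1; ring)
  · rw [omR_mid (by linarith [cl_le (show (1 : ℝ) ≤ 1 + 3 by norm_num) x])]
    exact (omL_props (b := 1 + 1) le_rfl h0 le_rfl).2.1 x

theorem res_R (hl : 1 ≤ l) (h0 : 0 ≤ κ)
    (h : Sol N (xnk (l + 3) κ).τ (xnk (l + 3) κ).w (xnk (l + 3) κ).om η p q F) :
    Sol N (colR κ).τ (colR κ).w (colR κ).om η (cmpV p (phR l)) (cmpV q (phR l))
      (cmpV F (phR l)) := by
  refine res_xnk (by norm_num) (by linarith) (by linarith) (fun _ => rfl)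
    (fun x => (neck_w_le (by linarith) 0 _).trans_eq (colR_w x).symm) (fun x => max_le ?_ ?_) h
  · rw [omL_mid (by linarith [le_cl (-4) (-4 + 3) x])]
    exact (omR_props (a := -4) (by norm_num) h0 le_rfl).2.1 x
  · change _ ≤ omR (-4 + 3) κ x
    rw [omR, omR, show l + 3 = -4 + 3 + (l + 4) by ring,
      show -4 + 3 + (l + 4) - 1 = -4 + 3 - 1 + (l + 4) by ring, cl_add,
      cl_cl (by norm_num) (by norm_num) le_rfl]
    exact le_of_eq (by congr 1; ring)

theorem res_N (hl : 1 ≤ l)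
    (h : Sol N (xnk (l + 3) κ).τ (xnk (l + 3) κ).w (xnk (l + 3) κ).om η p q F) :
    Sol N ((neck l 0).omc (Real.exp (-κ))).τ ((neck l 0).omc (Real.exp (-κ))).w
      ((neck l 0).omc (Real.exp (-κ))).om η (cmpV p fun x => cl (-l) l x + 0)
      (cmpV q fun x => cl (-l) l x + 0) (cmpV F fun x => cl (-l) l x + 0) := by
  have a1 := le_cl (-l) l
  have a2 := cl_le (show -l ≤ l by linarith)
  refine res_xnk (by linarith) (by linarith) (by linarith) (fun x => by simp [Pth.omc, neck])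
    (fun x => Real.exp_le_exp.2 ?_) (fun x => max_le ?_ ?_) h
  · have : cl 1 (l + 3) |cl (-l) l x + 0| ≤ cl 1 l |x| := by
      unfold cl
      rw [add_zero]
      refine max_le_max le_rfl ((min_le_left _ _).trans (le_min ?_ ?_))
      · rcases abs_cases x with ⟨e, h⟩ | ⟨e, h⟩ <;> rw [e, abs_le] <;>
          simp only [max_def, min_def] <;> split_ifs <;> constructor <;> linarith
      · exact abs_le.2 ⟨a1 x, a2 x⟩
    linarith
  · exact (omL_mid (by linarith [a1 x])).le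
  · exact (omR_mid (by linarith [a2 x])).le

end Res

theorem trc_of {g om : ℝ → ℝ} {x o : ℝ} (hg : g x = 1) (ho : om x = o) (X : CL) (k : ℕ) :
    trD o (trc x X) k = tru 6 g om X k x := by
  rw [tru_eq, hg, ho]; simp

section Match
variable {N : NL ι} {η : ℝ} {p q F : ι → Md} {y : DD ι}

lemma nk_w1 {o : ℝ} (hl : 1 ≤ l) {x : ℝ} (hx : |x| = l) : ((neck l 0).omc o).w x = 1 := by
  change Real.exp (5 / 8 * (cl 1 l |x| - l)) = 1
  rw [hx, cl_of_mem hl le_rfl, sub_self, mul_zero, Real.exp_zero]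

/-- the data of the restriction to the neck -/
theorem dat_N {o : ℝ} (ho : 0 < o) (l1 : 1 ≤ l) (hd : Dat (xnk (l + 3) κ) p q y.1 (piL kill y.2))
    {v : DD ι} (pv2 : ∀ i, PrpD (v.2 i))
    (dv : Dat ((neck l 0).omc o) (cmpV p fun x => cl (-l) l x + 0)
      (cmpV q fun x => cl (-l) l x + 0) v.1 v.2) :
    (∀ i k, trD o (v.1 i) k = q i k (-l)) ∧ (∀ i k, k ≠ 0 → trD o (v.2 i) k = p i k l) ∧
      (∀ i, trD o (v.2 i) 0 = 0) ∧ killB v = v := by
  have w1 := nk_w1 (o := o) l1 (x := -l) (by rw [abs_neg, abs_of_nonneg (by linarith)])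
  have w2 := nk_w1 (o := o) l1 (x := l) (abs_of_nonneg (by linarith))
  have c1 : cl (-l) l (-l) + 0 = -l := by rw [add_zero, cl_of_le le_rfl]
  have c2 : cl (-l) l l + 0 = l := by rw [add_zero, cl_of_ge (by linarith) le_rfl]
  have c3 : cl (-l) l 0 + 0 = 0 := by rw [add_zero, cl_of_mem (by linarith) (by linarith)]
  have v3 : ∀ i, trD o (v.2 i) 0 = 0 := fun i => by
    have a : p i 0 (cl (-l) l 0 + 0) = (((neck l 0).omc o).w 0 : ℂ) • trD o (v.2 i) 0 :=
      dv.hp rfl i 0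
    have b : p i 0 0 = _ • trD _ (kill (y.2 i)) 0 := hd.hp rfl i 0
    rw [c3, b, trD_kill, if_pos rfl, smul_zero] at a
    exact (smul_eq_zero.1 a.symm).resolve_left (Complex.ofReal_ne_zero.2 (Real.exp_pos _).ne')
  refine ⟨fun i k => ?_, fun i k hk => ?_, v3, Prod.ext rfl (funext fun i =>
    PrpD.ext ho (pv2 i).kill (pv2 i) fun k => ?_)⟩
  · have : q i k (cl (-l) l (-l) + 0) = (((neck l 0).omc o).w (-l) : ℂ) • trD o (v.1 i) k :=
      dv.hq i k
    rw [c1, w1] at this; simpa using this.symm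
  · have := dv.hp rfl i k
    rw [Pth.pt, if_neg hk] at this
    change p i k (cl (-l) l l + 0) = (((neck l 0).omc o).w l : ℂ) • trD o (v.2 i) k at this
    rw [c2, w2] at this; simpa using this.symm
  · change trD o (kill (v.2 i)) k = _
    rw [trD_kill]; split_ifs with hk
    · rw [hk, v3]
    · rfl

lemma phL_a (l : ℝ) : phL l 1 = -(l + 3) := by rw [phL, cl_of_le le_rfl]; ring
lemma phL_b (l : ℝ) : phL l (1 + 3) = -l := by rw [phL, cl_of_ge (by norm_num) le_rfl]; ring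
lemma phR_a (l : ℝ) : phR l (-4) = l := by rw [phR, cl_of_le le_rfl]; ring
lemma phR_b (l : ℝ) : phR l (-4 + 3) = l + 3 := by rw [phR, cl_of_ge (by norm_num) le_rfl]; ring
lemma colL_om : (colL κ).om (1 + 3) = Real.exp (-κ) := omL_mid (by norm_num)
lemma colR_om : (colR κ).om (-4) = Real.exp (-κ) := omR_mid (by norm_num)

theorem dat_L (h0 : 0 ≤ κ) (l1 : 1 ≤ l) (hd : Dat (xnk (l + 3) κ) p q y.1 (piL kill y.2))
    {B : ι → D} (hB : ∀ i k, trD (Real.exp (-κ)) (B i) k = p i k (-l)) :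
    Dat (colL κ) (cmpV p (phL l)) (cmpV q (phL l)) y.1 B := by
  refine ⟨fun i k => ?_, fun _ i k => ?_⟩
  · have : q i k (-(l + 3)) = ((xnk (l + 3) κ).w (-(l + 3)) : ℂ) •
        trD ((xnk (l + 3) κ).om (-(l + 3))) (y.1 i) k := hd.hq i k
    change q i k (phL l 1) = ((colL κ).w 1 : ℂ) • trD (omL 1 κ 1) (y.1 i) k
    rw [phL_a, this, xnk_om_left h0, omL_left, colL_w,
      xnk_w_end (by linarith) (by rw [abs_neg, abs_of_nonneg (by linarith)])]
  · have e : (colL κ).pt k = 1 + 3 := by unfold Pth.pt; split_ifs <;> rfl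
    rw [e]
    change p i k (phL l (1 + 3)) = _ • trD ((colL κ).om (1 + 3)) (B i) k
    rw [phL_b, colL_om, hB, colL_w]; simp

theorem dat_R (h0 : 0 ≤ κ) (l1 : 1 ≤ l) (hd : Dat (xnk (l + 3) κ) p q y.1 (piL kill y.2))
    {A B : ι → D} (hA : ∀ i k, trD (Real.exp (-κ)) (A i) k = q i k l)
    (hB : ∀ i, trD (Real.exp (-κ)) (B i) 0 = p i 0 l) :
    Dat (colR κ) (cmpV p (phR l)) (cmpV q (phR l)) A (piL keep B + piL kill y.2) := by
  refine ⟨fun i k => ?_, fun _ i k => ?_⟩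
  · change q i k (phR l (-4)) = ((colR κ).w (-4) : ℂ) • trD ((colR κ).om (-4)) (A i) k
    rw [phR_a, colR_om, hA, colR_w]; simp
  · change p i k (phR l ((colR κ).pt k)) =
      _ • trD (omR (-4 + 3) κ (-4 + 3)) (keep (B i) + kill (y.2 i)) k
    rw [colR_w, omR_right, trD_add, trD_keep, trD_kill, Pth.pt]
    split_ifs with hk
    · subst hk
      change p i 0 (phR l (-4)) = _
      rw [phR_a, trD_mode0 1 (Real.exp (-κ)), hB]; simp
    · have := hd.hp rfl i k
      rw [Pth.pt, if_neg hk] at this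
      change p i k (l + 3) = ((xnk (l + 3) κ).w (l + 3) : ℂ) •
        trD ((xnk (l + 3) κ).om (l + 3)) (kill (y.2 i)) k at this
      change p i k (phR l (-4 + 3)) = _
      rw [phR_b, this, xnk_om_right h0, trD_kill, if_neg hk,
        xnk_w_end (by linarith) (abs_of_nonneg (by linarith))]; simp

/-- the neck map at the data of the restriction -/
theorem neck_out {ε K R0 : ℝ} {Nm : ℂ → DD ι → D3 ι} (h : Neck N (Real.exp (-κ)) ε K R0 Nm)
    (h0 : 0 ≤ κ) (hK : 1 ≤ K) (hR : 1 ≤ R0) (hl : R0 < l) (hη0 : 0 ≤ η) (hε : η < ε)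
    (hη : K * η ≤ N.eta 10 (Real.exp (-κ)))
    (hs : Sol N (xnk (l + 3) κ).τ (xnk (l + 3) κ).w (xnk (l + 3) κ).om η p q F)
    (hd : Dat (xnk (l + 3) κ) p q y.1 (piL kill y.2)) :
    ∃ (v : DD ι) (u : D3 ι), Nm l v = u ∧ ‖v‖ ≤ η ∧ ‖u‖ ≤ K * η ∧ (∀ i, PrpD (v.1 i)) ∧
      (∀ i, PrpD (v.2 i)) ∧ (∀ i k, trD (Real.exp (-κ)) (v.1 i) k = q i k (-l)) ∧
      (∀ i k, k ≠ 0 → trD (Real.exp (-κ)) (v.2 i) k = p i k l) ∧
      (∀ i, trD (Real.exp (-κ)) (v.2 i) 0 = 0) ∧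
      (∀ i k, trD (Real.exp (-κ)) (u.1 i) k = p i k (-l)) ∧
      (∀ i k, trD (Real.exp (-κ)) (u.2.1 i) k = q i k l) ∧
      ∀ i k, trD (Real.exp (-κ)) (u.2.2 i) k = p i k l := by
  have ho : 0 < Real.exp (-κ) := Real.exp_pos _
  have l1 : 1 ≤ l := by linarith
  have okN := ok_nk l1 ho.le (Real.exp_le_one_iff.2 (by linarith))
  have hN := res_N l1 hs
  obtain ⟨v, hv, pv1, pv2, dv⟩ := hN.exists_dat okN ho hη0
  obtain ⟨v1, v2, v3, kv⟩ := dat_N ho l1 hd pv2 dv
  obtain ⟨S, hS, eS⟩ := h.real l hl v (mem_ball_zero_iff.2 (hv.trans_lt hε))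
  rw [kv] at hS
  have Kv : K * ‖v‖ ≤ K * η := mul_le_mul_of_nonneg_left hv (by linarith)
  obtain ⟨ep, eq, -⟩ := N.uniq 10 ho _ okN _ _ _ _ _ _ v.1 v.2 (hS.sol.mono (Kv.trans hη))
    (hN.mono ((le_mul_of_one_le_left hη0 hK).trans hη)) hS.dat dv
  have w1 := nk_w1 (o := Real.exp (-κ)) l1 (x := -l) (by rw [abs_neg, abs_of_nonneg (by linarith)])
  have w2 := nk_w1 (o := Real.exp (-κ)) l1 (x := l) (abs_of_nonneg (by linarith))
  have c1 : cl (-l) l (-l) + 0 = -l := by rw [add_zero, cl_of_le le_rfl]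
  have c2 : cl (-l) l l + 0 = l := by rw [add_zero, cl_of_ge (by linarith) le_rfl]
  refine ⟨v, _, eS, hv, (norm_outL_le _ _ _).trans (hS.le.trans Kv), pv1, pv2, v1, v2, v3,
    fun i k => ?_, fun i k => ?_, fun i k => ?_⟩
  · exact ((trc_of w1 rfl _ k).trans (congrFun (congrFun (congrFun ep i) k) _)).trans
      (congrArg (p i k) c1)
  · exact ((trc_of w2 rfl _ k).trans (congrFun (congrFun (congrFun eq i) k) _)).trans
      (congrArg (q i k) c2)
  · exact ((trc_of w2 rfl _ k).trans (congrFun (congrFun (congrFun ep i) k) _)).trans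
      (congrArg (p i k) c2)

theorem lp_fix {S S' : Tr ι} {v : DD ι} (a2 : cmpV q (phL l) = S.q (colL κ))
    (b1 : cmpV p (phR l) = S'.p (colR κ)) (pv1 : ∀ i, PrpD (v.1 i)) (pv2 : ∀ i, PrpD (v.2 i))
    (v1 : ∀ i k, trD (Real.exp (-κ)) (v.1 i) k = q i k (-l))
    (v2 : ∀ i k, k ≠ 0 → trD (Real.exp (-κ)) (v.2 i) k = p i k l)
    (v3 : ∀ i, trD (Real.exp (-κ)) (v.2 i) 0 = 0) :
    (trQ (1 + 3) S, piL kill (trP (-4) S')) = v := by
  have ho : 0 < Real.exp (-κ) := Real.exp_pos _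
  refine Prod.ext (funext fun i => ?_) (funext fun i => ?_)
  · refine PrpD.ext ho (prp_trc _ _) (pv1 i) fun k => ?_
    rw [v1]
    exact ((trc_of (colL_w _) colL_om _ k).trans
      (congrFun (congrFun (congrFun a2 i) k) _).symm).trans (congrArg (q i k) (phL_b l))
  · refine PrpD.ext ho (prp_trc _ _).kill (pv2 i) fun k => ?_
    change trD _ (kill _) k = _
    rw [trD_kill]; split_ifs with hk
    · rw [hk, v3]
    · rw [v2 i k hk]
      exact ((trc_of (colR_w _) colR_om _ k).trans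
        (congrFun (congrFun (congrFun b1 i) k) _).symm).trans (congrArg (p i k) (phR_a l))

end Match

theorem XS_sol {N : NL ι} (h0 : 0 ≤ κ) (h1 : κ ≤ 1 / 8) (hl : 1 ≤ l) {y : DD ι}
    (hy : ‖y‖ ≤ N.eta 10 (Real.exp (-κ))) :
    Sol N (xnk (l + 3) κ).τ (xnk (l + 3) κ).w (xnk (l + 3) κ).om (2 * ‖y‖)
      ((XS N κ l y).p (xnk (l + 3) κ)) ((XS N κ l y).q (xnk (l + 3) κ))
      ((XS N κ l y).F (xnk (l + 3) κ)) :=
  (NL.sol_sol (ok_xnk (by linarith) h0 h1) (Real.exp_pos _) ((norm_killB_le y).trans hy)).mono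
    (by linarith [norm_killB_le y])

theorem XS_dat (N : NL ι) (h0 : 0 ≤ κ) (h1 : κ ≤ 1 / 8) (hl : 1 ≤ l) (y : DD ι) :
    Dat (xnk (l + 3) κ) ((XS N κ l y).p (xnk (l + 3) κ)) ((XS N κ l y).q (xnk (l + 3) κ)) y.1
      (piL kill y.2) :=
  N.sol_dat (ok_xnk (by linarith) h0 h1) (Real.exp_pos _) (killB y)

/-- **the loop is solved by the traces of the solution on the extended neck** -/
theorem xnk_match {N : NL ι} {ε K R0 : ℝ} {Nm : ℂ → DD ι → D3 ι}
    (h : Neck N (Real.exp (-κ)) ε K R0 Nm) (h0 : 0 ≤ κ) (h1 : κ ≤ 1 / 8) (hK : 1 ≤ K)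
    (hR : 1 ≤ R0) (hl : R0 < l) {y : DD ι} (hε : 2 * ‖y‖ < ε)
    (hη : 3 * K * ‖y‖ ≤ N.eta 10 (Real.exp (-κ))) :
    ∃ v : DD ι, ‖v‖ ≤ 2 * ‖y‖ ∧ lpT N κ y (inL (Nm l v)) = v ∧ Idn N κ l y (inL (Nm l v)) := by
  have ho : 0 < Real.exp (-κ) := Real.exp_pos _
  have l1 : 1 ≤ l := by linarith
  have y0 := norm_nonneg y
  have yK : ‖y‖ ≤ K * ‖y‖ := le_mul_of_one_le_left y0 hK
  have hs := XS_sol (N := N) h0 h1 l1 (y := y) (by linarith)
  have hd := XS_dat N h0 h1 l1 y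
  obtain ⟨v, u, e, hv, hu, pv1, pv2, v1, v2, v3, u1, u2, u3⟩ :=
    neck_out h h0 hK hR hl (by positivity) hε (by linarith) hs hd
  have nu := (norm_inL_le u).trans hu
  obtain ⟨a1, a2, a3⟩ := (res_L l1 h0 hs).eq_sol (v := dL y (inL u)) (fam_colL h0 h1).base ho
    (by linarith) (dat_L h0 l1 hd u1) ((norm_dL_le _ _).trans (by linarith))
  obtain ⟨b1, b2, b3⟩ := (res_R l1 h0 hs).eq_sol (v := dR y (inL u)) (fam_colR h0 h1).base ho
    (by linarith) (dat_R h0 l1 hd u2 fun i => u3 i 0) ((norm_dR_le _ _).trans (by linarith))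
  refine ⟨v, hv, ?_⟩
  rw [e]
  exact ⟨lp_fix a2 b1 pv1 pv2 v1 v2 v3, a1, a2, a3, b1, b2, b3⟩

end Crest.Agent.N207.L
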