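import Crest.Agent.N207.L.Lp2

/-!
Row 207, block L (helper82): the collar-neck loop, holomorphic in the neck map and the core data.
-/

set_option autoImplicit false
set_option linter.unusedSectionVars false

open Set Filter Topology Metric

noncomputable section

namespace Crest.Agent.N207.L
open J Crest.Agent.N250.H

variable {ι : Type} [Fintype ι] {N : NL ι} {κ ε K R0 : ℝ} {Nm : ℂ → DD ι → D3 ι}

/-- `u (n, y)` = what the neck `n` sends into the collars when the cores send `y` -/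
structure Loop (N : NL ι) (κ ε R0 : ℝ) (Nm : ℂ → DD ι → D3 ι) (n0 : HN ι ε) (ε' C : ℝ)
    (u : HN ι ε × DD ι → D3 ι) : Prop where
  diff : DifferentiableOn ℂ u (ball (n0, 0) ε')
  le : ∀ z ∈ ball ((n0, 0) : HN ι ε × DD ι) ε', ‖u z‖ ≤ C * (‖z.2‖ ^ 2 + ‖z.1 - n0‖)
  eta : ∀ z ∈ ball ((n0, 0) : HN ι ε × DD ι) ε', ‖z.2‖ + ‖u z‖ < N.eta 10 (Real.exp (-κ))
  keep : ∀ z, piL keep (u z).2.2 = (u z).2.2
  real : ∀ l : ℝ, R0 < l → ∀ z ∈ ball ((n0, 0) : HN ι ε × DD ι) ε',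
    (∀ v ∈ ball (0 : DD ι) ε, z.1.val v = Nm l v) → Idn N κ l z.2 (u z)

theorem Loop.mono {n0 : HN ι ε} {ε' ε'' C : ℝ} {u : HN ι ε × DD ι → D3 ι}
    (h : Loop N κ ε R0 Nm n0 ε' C u) (he : ε'' ≤ ε') : Loop N κ ε R0 Nm n0 ε'' C u :=
  ⟨h.diff.mono (ball_subset_ball he), fun z hz => h.le z (ball_subset_ball he hz),
    fun z hz => h.eta z (ball_subset_ball he hz), h.keep,
    fun l hl z hz => h.real l hl z (ball_subset_ball he hz)⟩

theorem keep_keep (A : D) : keep (keep A) = keep A := CL.ext fun k => by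
  rw [keep_apply, keep_apply]; split_ifs <;> rfl

theorem norm_lpT_le (h0 : 0 ≤ κ) (h1 : κ ≤ 1 / 8) {y : DD ι} {u : D3 ι}
    (h : ‖y‖ + ‖u‖ ≤ N.eta 10 (Real.exp (-κ))) : ‖lpT N κ y u‖ ≤ 2 * (‖y‖ + ‖u‖) := by
  have a := norm_dL_le y u
  have b := norm_dR_le y u
  refine max_le ((norm_trQ_le _ _).trans ?_)
    ((norm_piL_le norm_kill_le _).trans ((norm_trP_le _ _).trans ?_))
  · exact (NL.norm_sol (fam_colL h0 h1).base (Real.exp_pos _) (a.trans h)).trans (by linarith)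
  · exact (NL.norm_sol (fam_colR h0 h1).base (Real.exp_pos _) (b.trans h)).trans (by linarith)

section
variable {Z : Type*} [NormedAddCommGroup Z] [NormedSpace ℂ Z] {y : Z → DD ι} {u : Z → D3 ι}
  {W : Set Z}

theorem diffOn_dL (hy : DifferentiableOn ℂ y W) (hu : DifferentiableOn ℂ u W) :
    DifferentiableOn ℂ (fun z => dL (y z) (u z)) W := hy.fst.prodMk hu.fst

theorem diffOn_dR (hy : DifferentiableOn ℂ y W) (hu : DifferentiableOn ℂ u W) :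
    DifferentiableOn ℂ (fun z => dR (y z) (u z)) W :=
  hu.snd.fst.prodMk (hu.snd.snd.add ((piL kill).differentiable.comp_differentiableOn hy.snd))

theorem diffOn_SL (h0 : 0 ≤ κ) (h1 : κ ≤ 1 / 8) (hy : DifferentiableOn ℂ y W)
    (hu : DifferentiableOn ℂ u W) (h : ∀ z ∈ W, ‖y z‖ + ‖u z‖ < N.eta 10 (Real.exp (-κ))) :
    DifferentiableOn ℂ (fun z => SL N κ (dL (y z) (u z))) W :=
  ((fam_colL h0 h1).base.diff_sol (Real.exp_pos _) N).comp (diffOn_dL hy hu) fun z hz =>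
    mem_ball_zero_iff.2 ((norm_dL_le _ _).trans_lt (h z hz))

theorem diffOn_SR (h0 : 0 ≤ κ) (h1 : κ ≤ 1 / 8) (hy : DifferentiableOn ℂ y W)
    (hu : DifferentiableOn ℂ u W) (h : ∀ z ∈ W, ‖y z‖ + ‖u z‖ < N.eta 10 (Real.exp (-κ))) :
    DifferentiableOn ℂ (fun z => SR N κ (dR (y z) (u z))) W :=
  ((fam_colR h0 h1).base.diff_sol (Real.exp_pos _) N).comp (diffOn_dR hy hu) fun z hz =>
    mem_ball_zero_iff.2 ((norm_dR_le _ _).trans_lt (h z hz))

theorem diffOn_lpT (h0 : 0 ≤ κ) (h1 : κ ≤ 1 / 8) (hy : DifferentiableOn ℂ y W)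
    (hu : DifferentiableOn ℂ u W) (h : ∀ z ∈ W, ‖y z‖ + ‖u z‖ < N.eta 10 (Real.exp (-κ))) :
    DifferentiableOn ℂ (fun z => lpT N κ (y z) (u z)) W :=
  ((trQ (1 + 3)).differentiable.comp_differentiableOn (diffOn_SL h0 h1 hy hu h)).prodMk
    ((piL kill).differentiable.comp_differentiableOn
      ((trP (-4)).differentiable.comp_differentiableOn (diffOn_SR h0 h1 hy hu h)))

end

theorem mem_ball_pr {E E' : Type*} [NormedAddCommGroup E] [NormedAddCommGroup E'] {n0 : E}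
    {r : ℝ} {z : E × E'} (hz : z ∈ ball ((n0, 0) : E × E') r) : ‖z.1 - n0‖ < r ∧ ‖z.2‖ < r := by
  rw [← ball_prod_same] at hz
  exact ⟨mem_ball_iff_norm.1 hz.1, mem_ball_zero_iff.1 hz.2⟩

theorem lp_num {K' a d x u : ℝ} (hK' : 0 ≤ K') (b0 : 0 ≤ a) (b1 : 0 ≤ d) (b2 : 0 ≤ x) (b3 : d ≤ 1)
    (a1 : u ≤ K' * x ^ 2 + d) (a2 : K' * x ^ 2 ≤ x / 32) (a3 : x ≤ 2 * (a + u)) :
    u ≤ (18 * K' + 1) * (a ^ 2 + d) := by
  have a5 : x ≤ 3 * (a + d) := by linarith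
  have a6 : x ^ 2 ≤ 18 * (a ^ 2 + d) := by
    refine (pow_le_pow_left₀ b2 a5 2).trans ?_
    nlinarith [sq_nonneg (a - d)]
  have := mul_le_mul_of_nonneg_left a6 hK'
  nlinarith [sq_nonneg a]

theorem lp_num2 {K' s x : ℝ} (hK' : 0 ≤ K') (s3 : (K' + 1) * s ≤ 1 / 32) (b : 0 ≤ x) (a : x < s) :
    K' * x ^ 2 ≤ x / 32 := by
  have : K' * x ≤ 1 / 32 := by nlinarith
  nlinarith

/-- **the loop** -/
theorem loop (h : Neck N (Real.exp (-κ)) ε K R0 Nm) (h0 : 0 ≤ κ) (h1 : κ ≤ 1 / 8) (hK : 1 ≤ K)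
    (hR : 1 ≤ R0) (hε : 0 < ε) (n0 : HN ι ε) {K' : ℝ} (hK' : 0 ≤ K')
    (hq : ∀ v ∈ ball (0 : DD ι) ε, ‖inL (n0.val v)‖ ≤ K' * ‖v‖ ^ 2) :
    ∃ (ε' C : ℝ) (u : HN ι ε × DD ι → D3 ι), 0 < ε' ∧ 0 < C ∧ Loop N κ ε R0 Nm n0 ε' C u := by
  have hη : 0 < N.eta 10 (Real.exp (-κ)) := N.eta_pos (fam_colL h0 h1).base (Real.exp_pos _)
  obtain ⟨s, s0, s1, s2, s3⟩ : ∃ s : ℝ, 0 < s ∧ s ≤ ε ∧ s ≤ N.eta 10 (Real.exp (-κ)) ∧
      (K' + 1) * s ≤ 1 / 32 := by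
    refine ⟨min (min ε (N.eta 10 (Real.exp (-κ)))) (1 / 32 / (K' + 1)), by positivity,
      (min_le_left _ _).trans (min_le_left _ _), (min_le_left _ _).trans (min_le_right _ _), ?_⟩
    rw [← le_div_iff₀' (by positivity)]
    exact min_le_right _ _
  obtain ⟨e, e0, e1⟩ : ∃ e : ℝ, 0 < e ∧ K * e = s / 64 :=
    ⟨s / 64 / K, by positivity, by field_simp⟩
  have e2 : e ≤ s / 64 := e1 ▸ le_mul_of_one_le_left e0.le hK
  have e3 : s / 64 ≤ 1 := by nlinarith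
  have hU : ∀ (n : HN ι ε), ∀ v ∈ ball (0 : DD ι) s,
      ‖inL (n.val v)‖ ≤ K' * ‖v‖ ^ 2 + ‖n - n0‖ := fun n v hv => by
    have e : n.val v = n0.val v + (n - n0).val v := by simp
    rw [e, map_add]
    exact (norm_add_le _ _).trans (add_le_add (hq v (ball_subset_ball s1 hv))
      ((norm_inL_le _).trans (Hinf.le _ v)))
  have hv2 : ∀ v ∈ ball (0 : DD ι) s, K' * ‖v‖ ^ 2 ≤ ‖v‖ / 32 := fun v hv =>
    lp_num2 hK' s3 (norm_nonneg v) (mem_ball_zero_iff.1 hv)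
  have hS : ∀ z ∈ ball ((n0, 0) : HN ι ε × DD ι) e, ∀ v ∈ ball (0 : DD ι) s,
      ‖z.2‖ + ‖inL (z.1.val v)‖ ≤ s / 16 := fun z hz v hv => by
    linarith [hU z.1 v hv, hv2 v hv, (mem_ball_pr hz).2, mem_ball_zero_iff.1 hv,
      (mem_ball_pr hz).1]
  have dU : DifferentiableOn ℂ (fun p : (HN ι ε × DD ι) × DD ι => inL (p.1.1.val p.2))
      (ball (n0, 0) e ×ˢ ball 0 s) :=
    inL.differentiable.comp_differentiableOn (Hinf.diffOn_val differentiableOn_fst.fst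
      differentiableOn_snd fun _ hp => ball_subset_ball s1 hp.2)
  have dT := diffOn_lpT (N := N) h0 h1 differentiableOn_fst.snd dU fun p hp =>
    (hS _ hp.1 _ hp.2).trans_lt (by linarith)
  have cb : closedBall (0 : DD ι) (s / 2) ⊆ ball 0 s := closedBall_subset_ball (by linarith)
  have hC : ∀ z ∈ ball ((n0, 0) : HN ι ε × DD ι) e,
      Ctr (fun v => lpT N κ z.2 (inL (z.1.val v))) (closedBall 0 (s / 2))
        (2 * (s / 8) / (s / 2)) := fun z hz => by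
    refine ctr_of_small (by linarith) ?_ (fun v hv => ?_) (by linarith)
    · rw [add_halves]
      exact dT.comp (f := fun v => (z, v)) (by fun_prop) fun v hv => ⟨hz, hv⟩
    · rw [add_halves] at hv
      rw [sub_zero]
      have := hS z hz v hv
      exact (norm_lpT_le h0 h1 (by linarith)).trans (by linarith)
  have k1 : 2 * (s / 8) / (s / 2) = 1 / 2 := by field_simp; norm_num
  rw [k1] at hC
  obtain ⟨x, dx, hx⟩ := exists_fix_hol (T := fun (z : HN ι ε × DD ι) v =>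
    lpT N κ z.2 (inL (z.1.val v))) isOpen_ball (by norm_num) (by norm_num) (by linarith) hC
    (fun z hz v hv => (⟨hz, cb hv⟩ : (z, v) ∈ ball (n0, 0) e ×ˢ ball 0 s)) dT
  refine ⟨e, 18 * K' + 1, fun z => inL (z.1.val (x z)), e0, by positivity,
    dU.comp (f := fun z => (z, x z)) (differentiableOn_id.prodMk dx)
      fun z hz => ⟨hz, cb (hx z hz).1⟩, fun z hz => ?_,
    fun z hz => (hS z hz _ (cb (hx z hz).1)).trans_lt (by linarith),
    fun z => funext fun i => keep_keep _, fun l hl z hz hn => ?_⟩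
  · have xb := cb (hx z hz).1
    have a1 := hU z.1 _ xb
    have a2 := hv2 _ xb
    have a3 := norm_lpT_le (N := N) h0 h1 ((hS z hz _ xb).trans (by linarith))
    have a4 : lpT N κ z.2 (inL (z.1.val (x z))) = x z := (hx z hz).2
    rw [a4] at a3
    exact lp_num hK' (norm_nonneg _) (norm_nonneg _) (norm_nonneg _)
      ((mem_ball_pr hz).1.le.trans (e2.trans e3)) a1 a2 a3
  · have b0 := norm_nonneg z.2
    have b2 := (mem_ball_pr hz).2
    have b3 : K * ‖z.2‖ ≤ s / 64 := e1 ▸ mul_le_mul_of_nonneg_left b2.le (by linarith)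
    obtain ⟨v, hv, fx, id⟩ := xnk_match h h0 h1 hK hR hl (y := z.2) (by linarith) (by linarith)
    have vb : v ∈ closedBall (0 : DD ι) (s / 2) := mem_closedBall_zero_iff.2 (by linarith)
    rw [← hn v (ball_subset_ball s1 (cb vb))] at fx id
    have : x z = v := (hC z hz).uniq (by norm_num) (hx z hz).1 vb (hx z hz).2 fx
    subst this
    exact id

/-- **class of the neck map and the loop**, all in one -/
theorem neck_loop (hN : NeckStmt N) (h0 : 0 ≤ κ) (h1 : κ ≤ 1 / 8) :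
    ∃ (ε R0 Cd ε' C : ℝ) (Nm : ℂ → DD ι → D3 ι) (co : ℕ → ℕ → HN ι ε)
      (u : HN ι ε × DD ι → D3 ι), 1 ≤ R0 ∧ 0 < ε' ∧ 0 < C ∧ Dul Cd (nH ε Nm) co ∧
      Loop N κ ε R0 Nm (co 0 0) ε' C u ∧ ∃ L0 : ℝ, ∀ l : ℝ, L0 ≤ l → ∀ y : DD ι,
        (nH ε Nm ((2 * l : ℝ) : ℂ), y) ∈ ball ((co 0 0, 0) : HN ι ε × DD ι) ε' →
        1 ≤ l ∧ Idn N κ l y (u (nH ε Nm ((2 * l : ℝ) : ℂ), y)) := by
  have ho := Real.exp_pos (-κ)
  have ho1 : Real.exp (-κ) ≤ 1 := Real.exp_le_one_iff.2 (by linarith)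
  obtain ⟨ε, K, R0, Nm, hε, hK, hR, h⟩ := hN _ ho ho1
  have K0 : 0 ≤ K := by linarith
  obtain ⟨Cd, co, -, -, hD, ht, -⟩ := h.dul K0
  obtain ⟨ε', C, u, e0, C0, hL⟩ := loop h h0 h1 hK hR hε (co 0 0) (K' := 160 * K) (by positivity)
    fun v hv => h.quad ho ho1 K0 hv (ht v hv)
  refine ⟨ε, R0, Cd, ε', C, Nm, co, u, hR, e0, C0, hD, hL, R0 + 1, fun l hl y hy =>
    ⟨by linarith, hL.real l (by linarith) _ hy fun v hv => ?_⟩⟩
  have e : ((2 * l : ℝ) : ℂ) / 2 = l := by push_cast; ring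
  have hW : ((2 * l : ℝ) : ℂ) / 2 ∈ Wd R0 1 (1 / 8) := by
    rw [e]
    exact ⟨by simpa using (by linarith : R0 < l), by simpa using Real.exp_pos _⟩
  rw [h.val_nH K0 hW hv, e]

end Crest.Agent.N207.L
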