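import Crest.Agent.N207.L.Lp3

/-!
Row 207, block L (helper82): the root end.  The solution on the half line `[1, ∞)` and its
restriction to the collar.
-/

set_option autoImplicit false
set_option linter.unusedSectionVars false

open Set Filter Topology Metric

noncomputable section

namespace Crest.Agent.N207.L
open J

variable {ι : Type} [Fintype ι] {N : NL ι} {κ : ℝ}

/-- the half line with the analytic weight of the collar -/
def hnk (κ : ℝ) : Pth := { half 1 (3 / 2) with om := omL 1 κ }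

lemma hnk_w (x : ℝ) : (hnk κ).w x = Real.exp (-(3 / 2) * (max 1 x - 1)) := rfl

lemma hnk_w_le (x : ℝ) : (hnk κ).w x ≤ 1 :=
  Real.exp_le_one_iff.2 (by nlinarith [le_max_left 1 x])

theorem ok_hnk (h0 : 0 ≤ κ) (h1 : κ ≤ 1 / 8) : (hnk κ).Ok 10 (Real.exp (-κ)) := by
  obtain ⟨a, b, c, d, e⟩ := omL_props (a := 1) (b := 1 + 1) (u := 1 / 4) le_rfl h0 (by linarith)
  have r : ∀ r s : ℝ, r ≤ s → Real.exp (1 / 4 * (cl 1 (1 + 1) s - cl 1 (1 + 1) r)) ≤
      Real.exp (1 / 4 * ((half 1 (3 / 2)).t s - (half 1 (3 / 2)).t r).re) := fun r s h => by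
    have : cl 1 (1 + 1) s - cl 1 (1 + 1) r ≤ max 1 s - max 1 r := by
      unfold cl
      simp only [max_def, min_def]; split_ifs <;> linarith
    have e : ((half 1 (3 / 2)).t s - (half 1 (3 / 2)).t r).re = max 1 s - max 1 r := by
      simp only [half, Complex.sub_re, Complex.ofReal_re]
    rw [e]
    exact Real.exp_le_exp.2 (mul_le_mul_of_nonneg_left this (by norm_num))
  exact { ok_half (a := 1) (δ := 3 / 2) (C := 10) (by norm_num) le_rfl (by norm_num)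
      (by norm_num) with
    oc := a
    o0 := b
    o1 := c
    ob := fun r' s h => (d r' s h).trans
      (mul_le_mul_of_nonneg_right (r r' s h) (Real.exp_pos _).le)
    of := fun r' s h => (e r' s h).trans
      (mul_le_mul_of_nonneg_right (r r' s h) (Real.exp_pos _).le) }

/-- the solution on the half line -/
def HS (N : NL ι) (κ : ℝ) (y : ι → D) : Tr ι := N.sol 10 (Real.exp (-κ)) (hnk κ) (y, 0)

/-- what the half line sends into the collar -/
def uH (N : NL ι) (κ : ℝ) (y : ι → D) : ι → D :=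
  ((hnk κ).w (1 + 3) : ℂ) • trP (1 + 3) (HS N κ y)

theorem norm_pr0 (y : ι → D) : ‖((y, 0) : DD ι)‖ = ‖y‖ := by simp

theorem HS_sol (h0 : 0 ≤ κ) (h1 : κ ≤ 1 / 8) {y : ι → D} (hy : ‖y‖ ≤ N.eta 10 (Real.exp (-κ))) :
    Sol N (hnk κ).τ (hnk κ).w (hnk κ).om (2 * ‖y‖) ((HS N κ y).p (hnk κ)) ((HS N κ y).q (hnk κ))
      ((HS N κ y).F (hnk κ)) := by
  have := NL.sol_sol (N := N) (v := (y, 0)) (ok_hnk h0 h1) (Real.exp_pos _)
    ((norm_pr0 y).trans_le hy)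
  rwa [norm_pr0] at this

theorem HS_dat (N : NL ι) (h0 : 0 ≤ κ) (h1 : κ ≤ 1 / 8) (y : ι → D) :
    Dat (hnk κ) ((HS N κ y).p (hnk κ)) ((HS N κ y).q (hnk κ)) y 0 :=
  N.sol_dat (ok_hnk h0 h1) (Real.exp_pos _) (y, 0)

theorem diffOn_HS (h0 : 0 ≤ κ) (h1 : κ ≤ 1 / 8) :
    DifferentiableOn ℂ (HS N κ) (ball 0 (N.eta 10 (Real.exp (-κ)))) :=
  ((ok_hnk h0 h1).diff_sol (Real.exp_pos _) N).comp (f := fun y => (y, 0)) (by fun_prop)
    fun y hy => mem_ball_zero_iff.2 ((norm_pr0 y).trans_lt (mem_ball_zero_iff.1 hy))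

theorem diffOn_uH (h0 : 0 ≤ κ) (h1 : κ ≤ 1 / 8) :
    DifferentiableOn ℂ (uH N κ) (ball 0 (N.eta 10 (Real.exp (-κ)))) :=
  ((trP (1 + 3)).differentiable.comp_differentiableOn (diffOn_HS h0 h1)).const_smul
    ((hnk κ).w (1 + 3) : ℂ)

theorem norm_uH_le (h0 : 0 ≤ κ) (h1 : κ ≤ 1 / 8) {y : ι → D}
    (hy : ‖y‖ ≤ N.eta 10 (Real.exp (-κ))) :
    ‖uH N κ y‖ ≤ 81 * N.K2 (Real.exp (-κ)) * ‖y‖ ^ 2 := by
  have h := NL.norm_sol_sub (N := N) (v := (y, 0)) (ok_hnk h0 h1) (Real.exp_pos _)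
    ((norm_pr0 y).trans_le hy)
  have e : trP (1 + 3) (HS N κ y) = trP (1 + 3) (HS N κ y - (hnk κ).L0 (y, 0)) := by
    rw [map_sub]
    refine (sub_zero _).symm.trans (congrArg _ (funext fun i => ?_))
    change 0 = trc (1 + 3) ((hnk κ).EP 0)
    rw [map_zero, map_zero]
  rw [norm_pr0] at h
  rw [uH, norm_smul, e, Complex.norm_real, Real.norm_of_nonneg ((ok_hnk h0 h1).w0 _).le]
  refine (mul_le_of_le_one_left (norm_nonneg _) (hnk_w_le _)).trans
    ((norm_trP_le _ _).trans (h.trans_eq (by ring)))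

theorem res_H {η : ℝ} {p q F : ι → Md} (h : Sol N (hnk κ).τ (hnk κ).w (hnk κ).om η p q F) :
    Sol N (colL κ).τ (colL κ).w (colL κ).om η (cmpV p (cl 1 (1 + 3))) (cmpV q (cl 1 (1 + 3)))
      (cmpV F (cl 1 (1 + 3))) := by
  refine h.cmp (κ := 1) (cl_cont _ _) (cl_mono _ _) (cl_der' (by norm_num)) (fun x => ?_) le_rfl
    (by simp) (fun x => (Real.exp_pos _).le) (fun x => (Real.exp_pos _).le)
    (fun x => by rw [colL_w, one_mul]; exact hnk_w_le _) fun x => ?_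
  · change (ind 1 (1 + 3) x : ℂ) = _ * if 1 ≤ cl 1 (1 + 3) x then 1 else 0
    rw [if_pos (le_cl _ _ _), mul_one]
  · change omL 1 κ _ ≤ omL 1 κ x
    rw [omL, omL, cl_cl le_rfl (by norm_num) (by norm_num)]

/-- **the collar solution of the root end is the restriction of the solution on the half line** -/
theorem hnk_match (h0 : 0 ≤ κ) (h1 : κ ≤ 1 / 8) {y : ι → D}
    (hy : 2 * ‖y‖ ≤ N.eta 10 (Real.exp (-κ))) :
    ‖((y, uH N κ y) : DD ι)‖ ≤ 2 * ‖y‖ ∧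
    cmpV ((HS N κ y).p (hnk κ)) (cl 1 (1 + 3)) = (SL N κ (y, uH N κ y)).p (colL κ) ∧
    cmpV ((HS N κ y).q (hnk κ)) (cl 1 (1 + 3)) = (SL N κ (y, uH N κ y)).q (colL κ) ∧
    cmpV ((HS N κ y).F (hnk κ)) (cl 1 (1 + 3)) = (SL N κ (y, uH N κ y)).F (colL κ) := by
  have y0 := norm_nonneg y
  have hy' : ‖y‖ ≤ N.eta 10 (Real.exp (-κ)) := by linarith
  have n1 : ‖((y, uH N κ y) : DD ι)‖ ≤ 2 * ‖y‖ := by
    refine max_le (by change ‖y‖ ≤ _; linarith) ?_
    change ‖uH N κ y‖ ≤ _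
    rw [uH, norm_smul, Complex.norm_real, Real.norm_of_nonneg ((ok_hnk h0 h1).w0 _).le]
    refine (mul_le_of_le_one_left (norm_nonneg _) (hnk_w_le _)).trans ((norm_trP_le _ _).trans ?_)
    exact (NL.norm_sol (ok_hnk h0 h1) (Real.exp_pos _) ((norm_pr0 y).trans_le hy')).trans_eq
      (by rw [norm_pr0])
  refine ⟨n1, (res_H (HS_sol h0 h1 hy')).eq_sol (v := (y, uH N κ y)) (fam_colL h0 h1).base
    (Real.exp_pos _) hy ⟨fun i k => ?_, fun _ i k => ?_⟩ (n1.trans hy)⟩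
  · have := (HS_dat N h0 h1 y).hq i k
    change (HS N κ y).q (hnk κ) i k (cl 1 (1 + 3) 1) = ((colL κ).w 1 : ℂ) • trD (omL 1 κ 1) (y i) k
    rw [cl_of_le le_rfl, colL_w]
    refine this.trans ?_
    change ((hnk κ).w 1 : ℂ) • trD (omL 1 κ 1) (y i) k = _
    rw [hnk_w]; simp
  · have e : (colL κ).pt k = 1 + 3 := by unfold Pth.pt; split_ifs <;> rfl
    rw [e]
    change tru 6 (hnk κ).w (hnk κ).om ((HS N κ y).1 i) k (cl 1 (1 + 3) (1 + 3)) =
      _ • trD (omL 1 κ (1 + 3)) (((hnk κ).w (1 + 3) : ℂ) • trc (1 + 3) ((HS N κ y).1 i)) k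
    rw [cl_of_ge (by norm_num) le_rfl, colL_w, trD_smul, tru_eq, Complex.ofReal_one, one_smul]
    rfl

end Crest.Agent.N207.L
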