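import Crest.Agent.N207.L.Nk0

/-! # N207/L/Nk1 (helper80): restriction of a neck solution to its three pieces;
reparametrisation -/

set_option autoImplicit false
set_option linter.unusedSectionVars false
open Set Filter Topology Metric Complex
open scoped Real

noncomputable section

namespace Crest.Agent.N207.L
open J

variable {ι : Type} [Fintype ι]

/-- the weight in the middle -/
def cw (R : ℝ) : ℝ := Real.exp (5 / 8 * (1 - R))

theorem cw_pos (R : ℝ) : 0 < cw R := Real.exp_pos _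

abbrev nk (o R : ℝ) (ζ : ℂ) : Pth := (neck R ζ).omc o
abbrev lf (o R : ℝ) : Pth := (str (-R) (-1) (-1) (cw R) (5 / 8) fun _ => 1).omc o
abbrev rt (o R : ℝ) : Pth := (str 1 R 1 (cw R) (5 / 8) fun _ => 1).omc o
abbrev mp (o w0 : ℝ) (ζ : ℂ) : Pth := (mid ζ w0).omc o

variable {o R w0 : ℝ} {ζ : ℂ}

theorem nk_w (o R : ℝ) (ζ : ℂ) (x : ℝ) : (nk o R ζ).w x = Real.exp (5 / 8 * (cl 1 R |x| - R)) := rfl

theorem nk_w_end (hR : 1 ≤ R) {x : ℝ} (hx : |x| = R) : (nk o R ζ).w x = 1 := by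
  rw [nk_w, hx, cl_of_mem hR le_rfl, sub_self, mul_zero, Real.exp_zero]

theorem nk_w_mid {x : ℝ} (hx : |x| ≤ 1) : (nk o R ζ).w x = cw R := by
  rw [nk_w, cl_of_le hx, cw]

theorem lf_w (hR : 1 ≤ R) (ζ : ℂ) (x : ℝ) : (lf o R).w x = (nk o R ζ).w (cl (-R) (-1) x) := by
  have h1 := le_cl (-R) (-1) x
  have h2 := cl_le (show -R ≤ -1 by linarith) x
  change cw R * Real.exp (5 / 8 * |cl (-R) (-1) x - -1|) = _
  rw [nk_w, cw, ← Real.exp_add, abs_of_nonpos (by linarith), abs_of_nonpos (by linarith),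
    cl_of_mem (a := 1) (by linarith) (by linarith)]
  congr 1
  ring

theorem rt_w (hR : 1 ≤ R) (ζ : ℂ) (x : ℝ) : (rt o R).w x = (nk o R ζ).w (cl 1 R x) := by
  have h1 := le_cl 1 R x
  have h2 := cl_le hR x
  change cw R * Real.exp (5 / 8 * |cl 1 R x - 1|) = _
  rw [nk_w, cw, ← Real.exp_add, abs_of_nonneg (by linarith), abs_of_nonneg (by linarith),
    cl_of_mem h1 h2]
  congr 1
  ring

theorem trc_eq {g g' : ℝ → ℝ} (ho : 0 < o) {X X' : CL} {x x' : ℝ}
    (h : ∀ k, tru 6 g (fun _ => o) X k x = tru 6 g' (fun _ => o) X' k x') :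
    (g x : ℂ) • trc x X = (g' x' : ℂ) • trc x' X' :=
  PrpD.ext ho ((prp_trc x X).smul' _) ((prp_trc x' X').smul' _) fun k => by
    rw [trD_smul, trD_smul]
    exact (tru_eq g _ X k x).symm.trans ((h k).trans (tru_eq g' _ X' k x'))

section Res
variable {N : NL ι} {η : ℝ} {p q F : ι → Md}

theorem res_sol (ho : 0 ≤ o) {a b : ℝ} (hab : a ≤ b) {γ : Pth} (hom : ∀ x, o ≤ γ.om x)
    (hτ : ∀ x, γ.τ x = ind a b x * (nk o R ζ).τ x)
    (hw : ∀ x, (nk o R ζ).w (cl a b x) ≤ γ.w x)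
    (h : Sol N (nk o R ζ).τ (nk o R ζ).w (nk o R ζ).om η p q F) :
    Sol N γ.τ γ.w γ.om η (cmpV p (cl a b)) (cmpV q (cl a b)) (cmpV F (cl a b)) := by
  refine h.cmp (κ := 1) (cl_cont a b) (cl_mono a b) (cl_der' hab) (fun x => ?_) le_rfl (by simp)
    (fun x => (Real.exp_pos _).le) (fun _ => ho) (fun x => by simpa using hw x) hom
  rw [hτ]
  rcases ind_cases a b x with ⟨h1, h2, _⟩ | ⟨_, h3⟩
  · rw [cl_of_mem h1 h2.le]
  · simp [h3]

theorem res_lf (ho : 0 ≤ o) (hR : 1 ≤ R)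
    (h : Sol N (nk o R ζ).τ (nk o R ζ).w (nk o R ζ).om η p q F) :
    Sol N (lf o R).τ (lf o R).w (lf o R).om η (cmpV p (cl (-R) (-1))) (cmpV q (cl (-R) (-1)))
      (cmpV F (cl (-R) (-1))) := by
  refine res_sol ho (by linarith) (fun _ => le_rfl) (fun x => ?_) (fun x => (lf_w hR ζ x).ge) h
  change (ind (-R) (-1) x : ℂ) = _ * ((ind (-R) R x : ℂ) + ζ * ind (-1) 1 x)
  rcases ind_cases (-R) (-1) x with ⟨h1, h2, h3⟩ | ⟨_, h3⟩
  · rw [h3, ind_of_mem h1 (by linarith), ind_of_lt h2]; simp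
  · simp [h3]

theorem res_rt (ho : 0 ≤ o) (hR : 1 ≤ R)
    (h : Sol N (nk o R ζ).τ (nk o R ζ).w (nk o R ζ).om η p q F) :
    Sol N (rt o R).τ (rt o R).w (rt o R).om η (cmpV p (cl 1 R)) (cmpV q (cl 1 R))
      (cmpV F (cl 1 R)) := by
  refine res_sol ho hR (fun _ => le_rfl) (fun x => ?_) (fun x => (rt_w hR ζ x).ge) h
  change (ind 1 R x : ℂ) = _ * ((ind (-R) R x : ℂ) + ζ * ind (-1) 1 x)
  rcases ind_cases 1 R x with ⟨h1, h2, h3⟩ | ⟨_, h3⟩
  · rw [h3, ind_of_mem (by linarith) h2, ind_of_ge h1]; simp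
  · simp [h3]

theorem res_mp (ho : 0 ≤ o) (hR : 1 ≤ R) (hw : cw R ≤ w0)
    (h : Sol N (nk o R ζ).τ (nk o R ζ).w (nk o R ζ).om η p q F) :
    Sol N (mp o w0 ζ).τ (mp o w0 ζ).w (mp o w0 ζ).om η (cmpV p (cl (-1) 1)) (cmpV q (cl (-1) 1))
      (cmpV F (cl (-1) 1)) := by
  refine res_sol ho (by norm_num) (fun _ => le_rfl) (fun x => ?_) (fun x => ?_) h
  · change (1 + ζ) * (ind (-1) 1 x : ℂ) = _ * ((ind (-R) R x : ℂ) + ζ * ind (-1) 1 x)
    rcases ind_cases (-1) 1 x with ⟨h1, h2, h3⟩ | ⟨_, h3⟩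
    · rw [h3, ind_of_mem (by linarith) (by linarith)]; simp
    · simp [h3]
  · rw [nk_w_mid (abs_le.2 ⟨le_cl _ _ _, cl_le (by norm_num) x⟩)]
    exact hw

variable {S : Tr ι} {A B : ι → D}

theorem dat_lf (hR : 1 ≤ R) (h : Dat (nk o R ζ) (S.p (nk o R ζ)) (S.q (nk o R ζ)) A B) :
    Dat (lf o R) (cmpV (S.p (nk o R ζ)) (cl (-R) (-1))) (cmpV (S.q (nk o R ζ)) (cl (-R) (-1)))
      A (trP (-1) S) := by
  have e1 : cl (-R) (-1) (-R) = -R := cl_of_le le_rfl
  have e2 : cl (-R) (-1) (-1) = -1 := cl_of_ge (by linarith) le_rfl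
  refine ⟨fun i k => ?_, fun _ i k => ?_⟩
  · change S.q (nk o R ζ) i k (cl (-R) (-1) (-R)) = ((lf o R).w (-R) : ℂ) • trD o (A i) k
    rw [lf_w hR ζ, e1]
    exact h.hq i k
  · have : (lf o R).pt k = -1 := by unfold Pth.pt; split_ifs <;> rfl
    rw [this]
    change S.p (nk o R ζ) i k (cl (-R) (-1) (-1)) = _
    rw [lf_w hR ζ, e2]
    exact tru_eq _ _ _ k (-1)

theorem dat_rt (hR : 1 ≤ R) (h : Dat (nk o R ζ) (S.p (nk o R ζ)) (S.q (nk o R ζ)) A (piL kill B)) :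
    Dat (rt o R) (cmpV (S.p (nk o R ζ)) (cl 1 R)) (cmpV (S.q (nk o R ζ)) (cl 1 R))
      (trQ 1 S) (piL kill B + piL keep (trP 1 S)) := by
  have e1 : cl 1 R 1 = 1 := cl_of_le le_rfl
  have e2 : cl 1 R R = R := cl_of_ge hR le_rfl
  refine ⟨fun i k => ?_, fun _ i k => ?_⟩
  · change S.q (nk o R ζ) i k (cl 1 R 1) = ((rt o R).w 1 : ℂ) • _
    rw [rt_w hR ζ, e1]
    exact tru_eq _ _ _ k 1
  · change S.p (nk o R ζ) i k (cl 1 R ((rt o R).pt k)) =
      _ • trD o (kill (B i) + keep (trP 1 S i)) k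
    rw [trD_add, trD_kill, trD_keep, rt_w hR ζ]
    by_cases h0 : k = 0
    · have : (rt o R).pt k = 1 := if_pos h0
      rw [this, e1, if_pos h0, if_pos h0, zero_add]
      exact tru_eq _ _ _ k 1
    · have : (rt o R).pt k = R := if_neg h0
      have h2 := h.hp rfl i k
      have h3 : (nk o R ζ).pt k = R := if_neg h0
      rw [h3, piL_apply, trD_kill, if_neg h0] at h2
      rw [this, e2, if_neg h0, if_neg h0, add_zero]
      exact h2

theorem dat_mp (hw : w0 ≠ 0) (h : Dat (nk o R ζ) (S.p (nk o R ζ)) (S.q (nk o R ζ)) A (piL kill B)) :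
    Dat (mp o w0 ζ) (cmpV (S.p (nk o R ζ)) (cl (-1) 1)) (cmpV (S.q (nk o R ζ)) (cl (-1) 1))
      (((cw R / w0 : ℝ) : ℂ) • trQ (-1) S) (((cw R / w0 : ℝ) : ℂ) • piL kill (trP 1 S)) := by
  have e1 : cl (-1) 1 (-1) = -1 := cl_of_le le_rfl
  have e2 : cl (-1) 1 1 = 1 := cl_of_ge (by norm_num) le_rfl
  have e3 : cl (-1) 1 0 = 0 := cl_of_mem (by norm_num) (by norm_num)
  have ew : (w0 : ℂ) * ((cw R / w0 : ℝ) : ℂ) = cw R := by
    rw [← Complex.ofReal_mul, mul_div_cancel₀ _ hw]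
  refine ⟨fun i k => ?_, fun _ i k => ?_⟩
  · change S.q (nk o R ζ) i k (cl (-1) 1 (-1)) =
      (w0 : ℂ) • trD o (((cw R / w0 : ℝ) : ℂ) • trQ (-1) S i) k
    rw [trD_smul, smul_smul, ew, e1, ← nk_w_mid (o := o) (ζ := ζ) (x := -1) (by simp)]
    exact tru_eq _ _ _ k (-1)
  · change S.p (nk o R ζ) i k (cl (-1) 1 ((mp o w0 ζ).pt k)) =
      (w0 : ℂ) • trD o (((cw R / w0 : ℝ) : ℂ) • kill (trP 1 S i)) k
    rw [trD_smul, smul_smul, ew, trD_kill]
    by_cases h0 : k = 0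
    · have : (mp o w0 ζ).pt k = 0 := if_pos h0
      have h2 := h.hp rfl i k
      have h3 : (nk o R ζ).pt k = 0 := if_pos h0
      rw [h3, piL_apply, trD_kill, if_pos h0, smul_zero] at h2
      rw [this, e3, if_pos h0, smul_zero, h2]
    · have : (mp o w0 ζ).pt k = 1 := if_neg h0
      rw [this, e2, if_neg h0, ← nk_w_mid (o := o) (ζ := ζ) (x := 1) (by simp)]
      exact tru_eq _ _ _ k 1

/-! ### reparametrisation for a real stretch -/

/-- the real stretch -/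
def stch (s x : ℝ) : ℝ := x + s * cl (-1) 1 x

theorem stch_sub {s : ℝ} (hs : |s| ≤ 1 / 2) {x y : ℝ} (h : x ≤ y) :
    (y - x) / 2 ≤ stch s y - stch s x := by
  have h1 := cl_sub_le (-1) 1 h
  have h2 := sub_nonneg.2 (cl_mono (-1) 1 h)
  have h3 := (abs_le.1 hs).1
  unfold stch
  nlinarith

theorem stch_neg (hR : 1 ≤ R) (s : ℝ) : stch s (-R) = -(R + s) := by
  rw [stch, cl_of_le (by linarith)]; ring

theorem stch_pos (hR : 1 ≤ R) (s : ℝ) : stch s R = R + s := by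
  rw [stch, cl_of_ge (by norm_num) hR]; ring

theorem stch_zero (s : ℝ) : stch s 0 = 0 := by
  rw [stch, cl_of_mem (by norm_num) (by norm_num)]; ring

theorem rep_sol (ho : 0 ≤ o) (hR : 1 ≤ R) {s η' : ℝ} (hs : |s| ≤ 1 / 2) (hη : 4 * η ≤ η')
    (h : Sol N (nk o (R + s) 0).τ (nk o (R + s) 0).w (nk o (R + s) 0).om η p q F) :
    Sol N (nk o R s).τ (nk o R s).w (nk o R s).om η' (cmpV p (stch s)) (cmpV q (stch s))
      (cmpV F (stch s)) := by
  refine h.cmp (κ := 2) (d := fun x => 1 + s * ind (-1) 1 x)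
    (continuous_id.add (continuous_const.mul (cl_cont _ _)))
    (fun x y hxy => by have := stch_sub hs hxy; linarith)
    (fun x => (hasDerivWithinAt_id x _).add ((cl_der' (by norm_num) x).const_mul s))
    (fun x => ?_) (by norm_num) (by linarith) (fun x => (Real.exp_pos _).le) (fun _ => ho)
    (fun x => ?_) fun _ => le_rfl
  · have e : ind (-(R + s)) (R + s) (stch s x) = ind (-R) R x := by
      rw [← stch_neg hR, ← stch_pos hR s]
      rcases ind_cases (-R) R x with ⟨h1, h2, h3⟩ | ⟨h1 | h1, h3⟩ <;> rw [h3]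
      · have := stch_sub hs h1; have := stch_sub hs h2.le
        exact ind_of_mem (by linarith) (by linarith)
      · have := stch_sub hs h1.le
        exact ind_of_lt (by linarith)
      · have := stch_sub hs h1
        exact ind_of_ge (by linarith)
    change (ind (-R) R x : ℂ) + s * ind (-1) 1 x = ((1 + s * ind (-1) 1 x : ℝ) : ℂ) *
      ((ind (-(R + s)) (R + s) (stch s x) : ℂ) + 0 * ind (-1) 1 (stch s x))
    rw [e]
    rcases ind_cases (-1) 1 x with ⟨h1, h2, h3⟩ | ⟨_, h3⟩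
    · rw [h3, ind_of_mem (by linarith) (by linarith)]; simp
    · simp [h3]
  · have e2 : Real.exp (5 / 8) ≤ 2 := by
      have := Real.log_two_gt_d9
      rw [← Real.le_log_iff_exp_le (by norm_num)]; linarith
    rw [nk_w, nk_w]
    refine le_trans ?_ (mul_le_mul_of_nonneg_right e2 (Real.exp_pos _).le)
    rw [← Real.exp_add, Real.exp_le_exp]
    have a1 : |stch s x| ≤ |x| + 1 / 2 := by
      refine (abs_add_le _ _).trans (add_le_add_right ?_ _)
      rw [abs_mul]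
      have : |cl (-1) 1 x| ≤ 1 := abs_le.2 ⟨le_cl _ _ _, cl_le (by norm_num) x⟩
      nlinarith [abs_nonneg s, abs_nonneg (cl (-1) 1 x)]
    obtain ⟨a2, a3⟩ := abs_le.1 hs
    have : cl 1 (R + s) |stch s x| ≤ cl 1 R |x| + 1 / 2 := by
      unfold cl
      simp only [max_def, min_def]
      split_ifs <;> linarith
    linarith

theorem rep_dat (hR : 1 ≤ R) {s : ℝ} (hRs : 1 ≤ R + s)
    (h : Dat (nk o (R + s) 0) p q A (piL kill B)) :
    Dat (nk o R s) (cmpV p (stch s)) (cmpV q (stch s)) A (piL kill B) := by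
  refine ⟨fun i k => ?_, fun _ i k => ?_⟩
  · change q i k (stch s (-R)) = ((nk o R s).w (-R) : ℂ) • trD o (A i) k
    rw [stch_neg hR, nk_w_end hR (by rw [abs_neg, abs_of_nonneg (by linarith)]),
      ← nk_w_end (o := o) (ζ := 0) hRs (x := -(R + s))
        (by rw [abs_neg, abs_of_nonneg (by linarith)])]
    exact h.hq i k
  · have h2 := h.hp rfl i k
    change p i k (stch s ((nk o R s).pt k)) = _ • trD o (kill (B i)) k
    by_cases h0 : k = 0
    · have : (nk o R s).pt k = 0 := if_pos h0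
      have h3 : (nk o (R + s) 0).pt k = 0 := if_pos h0
      rw [h3, piL_apply, trD_kill, if_pos h0, smul_zero] at h2
      rw [this, stch_zero, trD_kill, if_pos h0, smul_zero, h2]
    · have : (nk o R s).pt k = R := if_neg h0
      have h3 : (nk o (R + s) 0).pt k = R + s := if_neg h0
      rw [h3, nk_w_end hRs (abs_of_nonneg (by linarith))] at h2
      rw [this, stch_pos hR, nk_w_end hR (abs_of_nonneg (by linarith))]
      exact h2

end Res

end Crest.Agent.N207.L
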