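import Crest.Agent.N207.L.Nk1

/-! # N207/L/Nk2 (helper80): gluing of the three pieces -/

set_option autoImplicit false
set_option linter.unusedSectionVars false
open Set Filter Topology Metric Complex
open scoped Real

noncomputable section

namespace Crest.Agent.N207.L
open J

variable {ι : Type} [Fintype ι] {N : NL ι} {C o η ε K : ℝ}

theorem IsSol.uniq (hU : Uniq N C o η) (ho : 0 < o) {γ : Pth} (hγ : γ.Ok C o) {v : DD ι}
    {S : Tr ι} (hS : IsSol N γ K v S) (hK : K * ‖v‖ ≤ η) {p q F : ι → Md}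
    (hs : Sol N γ.τ γ.w γ.om η p q F) (hd : Dat γ p q v.1 v.2) : S.p γ = p ∧ S.q γ = q := by
  obtain ⟨h1, h2, -⟩ := hU γ hγ _ _ _ p q F v.1 v.2
    (hS.sol.le hK (fun x => (hγ.w0 x).le) fun x => ho.le.trans (hγ.o0 x)) hs hS.dat hd
  exact ⟨h1, h2⟩

theorem trP_eq (ho : 0 < o) {γ γ' : Pth} (h1 : γ.om = fun _ => o) (h2 : γ'.om = fun _ => o)
    {S S' : Tr ι} {φ : ℝ → ℝ} (h : S'.p γ' = cmpV (S.p γ) φ) (x : ℝ) :
    (γ'.w x : ℂ) • trP x S' = (γ.w (φ x) : ℂ) • trP (φ x) S := by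
  funext i
  refine trc_eq ho fun k => ?_
  have := congrFun (congrFun (congrFun h i) k) x
  simp only [Tr.p, cmpV, cmpM, h1, h2] at this
  exact this

theorem trQ_eq (ho : 0 < o) {γ γ' : Pth} (h1 : γ.om = fun _ => o) (h2 : γ'.om = fun _ => o)
    {S S' : Tr ι} {φ : ℝ → ℝ} (h : S'.q γ' = cmpV (S.q γ) φ) (x : ℝ) :
    (γ'.w x : ℂ) • trQ x S' = (γ.w (φ x) : ℂ) • trQ (φ x) S := by
  funext i
  refine trc_eq ho fun k => ?_
  have := congrFun (congrFun (congrFun h i) k) x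
  simp only [Tr.q, cmpV, cmpM, h1, h2] at this
  exact this

theorem smul_cancel {V : Type*} [AddCommGroup V] [Module ℂ V] {c : ℝ} (hc : 0 < c) {x y : V}
    (h : (c : ℂ) • x = (c : ℂ) • y) : x = y :=
  smul_right_injective V (Complex.ofReal_ne_zero.2 hc.ne') h

theorem IsSol.trQ_le (ho : 0 < o) {γ : Pth} (hγ : γ.Ok C o) {v : DD ι} {S : Tr ι}
    (hS : IsSol N γ K v S) (x : ℝ) : ‖trQ x S‖ ≤ 2 * (‖v.1‖ + 8 * C * (K * ‖v‖ ^ 2)) := by
  have C0 := hγ.C0
  have h0 : 0 ≤ K * ‖v‖ ^ 2 := (norm_nonneg _).trans hS.le2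
  refine (pi_norm_le_iff_of_nonneg (by positivity)).2 fun i =>
    (norm_trc_q hγ ho hS.sol hS.dat i x).trans ?_
  have a := norm_le_pi_norm v.1 i
  have b := (norm_le_pi_norm S.2.2 i).trans hS.le2
  gcongr

theorem IsSol.trP_le (ho : 0 < o) {γ : Pth} (hγ : γ.Ok C o) (hf : γ.fin = true) {v : DD ι}
    {S : Tr ι} (hS : IsSol N γ K v S) (x : ℝ) :
    ‖piL kill (trP x S)‖ ≤ 2 * (‖piL kill v.2‖ + 8 * C * (K * ‖v‖ ^ 2)) := by
  have C0 := hγ.C0
  have h0 : 0 ≤ K * ‖v‖ ^ 2 := (norm_nonneg _).trans hS.le2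
  refine (pi_norm_le_iff_of_nonneg (by positivity)).2 fun i =>
    (norm_kill_trc_p hγ ho hf hS.sol hS.dat i x).trans ?_
  have a := norm_le_pi_norm (piL kill v.2) i
  have b := (norm_le_pi_norm S.2.2 i).trans hS.le2
  rw [piL_apply] at a
  gcongr

theorem kill_mix (B T : ι → D) : piL kill (piL kill B + piL keep T) = piL kill B := by
  funext i
  refine CL.ext fun k => ?_
  simp only [piL_apply, Pi.add_apply, kill_apply, keep_apply, lp.coeFn_add]
  split_ifs <;> simp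

theorem norm_ofReal_smul {V : Type*} [NormedAddCommGroup V] [NormedSpace ℂ V] {c : ℝ} (hc : 0 ≤ c)
    (x : V) : ‖(c : ℂ) • x‖ = c * ‖x‖ := by
  rw [norm_smul, Complex.norm_real, Real.norm_of_nonneg hc]

/-- **gluing**: high differences of the outputs of the neck are small -/
theorem glue_neck (hU : Uniq N C o η) (hE : Exi N C o ε K) (hP : PolyStmt N) (hKη : K * ε ≤ η)
    (hK : 1 ≤ K) (ho : 0 < o) (ho1 : o ≤ 1) (hC : 4 ≤ C) {R w0 ε' : ℝ} {ζ : ℂ} {M : ℕ}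
    (hR : 1 ≤ R) (hw : cw R ≤ w0) (hζ : -1 / 2 ≤ ζ.re)
    (hnk : ∀ n ≤ M, (nk o R (ζ + n * (2 * π * I))).Ok C o)
    (hmp : ∀ n ≤ M, (mp o w0 (ζ + n * (2 * π * I))).Ok C o)
    (hε' : 0 < ε') (h1 : (1 + 44 * K) * ε' < ε) (h2 : 8 * C * K * (1 + 44 * K) ^ 2 * ε' ≤ 1)
    (hρ : 20 * (2 * M + 1) * (cw R / w0 * (4 * ε')) < ε) {v : DD ι} (hv : ‖v‖ < ε')
    {S : ℕ → Tr ι} (hS : ∀ n ≤ M, IsSol N (nk o R (ζ + n * (2 * π * I))) K (killB v) (S n)) :
    ‖dif M fun n => outL (-R) R (S n)‖ ≤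
      K * ε * (40 * (2 * M + 1) * (cw R / w0 * (4 * ε')) / ε) ^ M := by
  have c0 := cw_pos R
  have w0p : 0 < w0 := c0.trans_le hw
  set κ : ℝ := cw R / w0 with hκ
  have κ0 : 0 < κ := by positivity
  have K0 : 0 < K := by linarith
  have okL : (lf o R).Ok C o := (ok_left hR c0 le_rfl hC).omc ho.le ho1
  have okR : (rt o R).Ok C o := (ok_right hR c0 le_rfl hC).omc ho.le ho1
  obtain ⟨SL, hL⟩ := hE.box okL (str_tau _ _ _ _ _ _)
  obtain ⟨SR, hRt⟩ := hE.box okR (str_tau _ _ _ _ _ _)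
  have hex : ∀ n : ℕ, ∃ Sm, n ≤ M → Box N (mp o w0 (ζ + n * (2 * π * I))) ε K Sm := fun n => by
    by_cases hn : n ≤ M
    · obtain ⟨Sm, h⟩ := hE.box (hmp n hn) (mid_tau w0 (by simpa using hζ))
      exact ⟨Sm, fun _ => h⟩
    · exact ⟨fun _ => 0, fun h => absurd h hn⟩
  choose Sm hSm using hex
  set vL : D3 ι → DD ι := fun z => (v.1, ((κ⁻¹ : ℝ) : ℂ) • z.1) with hvL
  set vR : D3 ι → DD ι := fun z =>
    (((κ⁻¹ : ℝ) : ℂ) • z.2.1, piL kill v.2 + piL keep (((κ⁻¹ : ℝ) : ℂ) • z.2.2)) with hvR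
  have v1 : ‖v.1‖ ≤ ε' := (norm_fst_le v).trans hv.le
  have v2 : ‖piL kill v.2‖ ≤ ε' := (norm_piL_le norm_kill_le _).trans ((norm_snd_le v).trans hv.le)
  have sc : ∀ z ∈ ball (0 : D3 ι) (11 * K * (κ * (4 * ε'))), ∀ u : ι → D, ‖u‖ ≤ ‖z‖ →
      ‖((κ⁻¹ : ℝ) : ℂ) • u‖ ≤ 44 * K * ε' := fun z hz u hu => by
    rw [norm_ofReal_smul (by positivity), inv_mul_le_iff₀ κ0]
    have := mem_ball_zero_iff.1 hz
    nlinarith
  have e44 : 0 ≤ 44 * K * ε' := by positivity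
  have nL : ∀ z ∈ ball (0 : D3 ι) (11 * K * (κ * (4 * ε'))), ‖vL z‖ ≤ (1 + 44 * K) * ε' :=
    fun z hz => max_le (by linarith) (by have := sc z hz _ (norm_fst_le z); linarith)
  have nR : ∀ z ∈ ball (0 : D3 ι) (11 * K * (κ * (4 * ε'))), ‖vR z‖ ≤ (1 + 44 * K) * ε' :=
    fun z hz => max_le
      (by have := sc z hz _ ((norm_fst_le z.2).trans (norm_snd_le z)); linarith)
      ((norm_add_le _ _).trans (by
        have := (norm_piL_le norm_keep_le _).trans
          (sc z hz _ ((norm_snd_le z.2).trans (norm_snd_le z)))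
        linarith))
  have mL : ∀ z ∈ ball (0 : D3 ι) (11 * K * (κ * (4 * ε'))), vL z ∈ ball (0 : DD ι) ε :=
    fun z hz => mem_ball_zero_iff.2 ((nL z hz).trans_lt h1)
  have mR : ∀ z ∈ ball (0 : D3 ι) (11 * K * (κ * (4 * ε'))), vR z ∈ ball (0 : DD ι) ε :=
    fun z hz => mem_ball_zero_iff.2 ((nR z hz).trans_lt h1)
  have dL : DifferentiableOn ℂ (fun z => SL (vL z)) (ball 0 (11 * K * (κ * (4 * ε')))) :=
    hL.diff.comp (by rw [hvL]; fun_prop) mL
  have dR : DifferentiableOn ℂ (fun z => SR (vR z)) (ball 0 (11 * K * (κ * (4 * ε')))) :=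
    hRt.diff.comp (by rw [hvR]; fun_prop) mR
  have quad : ∀ t : ℝ, 0 ≤ t → t ≤ (1 + 44 * K) * ε' → 8 * C * (K * t ^ 2) ≤ ε' := by
    intro t t0 ht
    calc 8 * C * (K * t ^ 2) ≤ 8 * C * (K * ((1 + 44 * K) * ε') ^ 2) := by
          have : 0 ≤ C := by linarith
          gcongr
      _ = 8 * C * K * (1 + 44 * K) ^ 2 * ε' * ε' := by ring
      _ ≤ 1 * ε' := mul_le_mul_of_nonneg_right h2 hε'.le
      _ = ε' := one_mul _
  have nkB : ‖killB v‖ ≤ ε' := (norm_killB_le v).trans hv.le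
  have e1 : ε' ≤ (1 + 44 * K) * ε' := by nlinarith
  have Kη : ∀ t : ℝ, t < ε → K * t ≤ η := fun t ht =>
    (mul_le_mul_of_nonneg_left ht.le K0.le).trans hKη
  have fix : ∀ n ≤ M, ∀ y : DD ι, y = (κ : ℂ) • (trQ (-1) (S n), piL kill (trP 1 (S n))) →
      ‖y‖ ≤ κ * (4 * ε') ∧ (κ : ℂ) • ((trQ (-1) (SL (vL (outL (-1) 1 (Sm n y)))),
        piL kill (trP 1 (SR (vR (outL (-1) 1 (Sm n y)))))) : DD ι) = y ∧
      ((trP (-R) (SL (vL (outL (-1) 1 (Sm n y)))), trQ R (SR (vR (outL (-1) 1 (Sm n y)))),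
        trP R (SR (vR (outL (-1) 1 (Sm n y))))) : D3 ι) = outL (-R) R (S n) := by
    intro n hn y hy
    have hSn := hS n hn
    have okn := hnk n hn
    have hs := hSn.sol.le (Kη _ (nkB.trans_lt (e1.trans_lt h1))) (fun x => (okn.w0 x).le)
      fun _ => ho.le
    have yb : ‖y‖ ≤ κ * (4 * ε') := by
      rw [hy, norm_ofReal_smul κ0.le]
      have q := quad _ (norm_nonneg _) (nkB.trans e1)
      refine mul_le_mul_of_nonneg_left (max_le ?_ ?_) κ0.le
      · have a := hSn.trQ_le ho okn (-1)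
        have e : (killB v).1 = v.1 := rfl
        rw [e] at a
        change ‖trQ (-1) (S n)‖ ≤ _
        linarith
      · have a := hSn.trP_le ho okn rfl 1
        have b := (norm_piL_le norm_kill_le (killB v).2).trans ((norm_snd_le _).trans nkB)
        change ‖piL kill (trP 1 (S n))‖ ≤ _
        linarith
    have e0 : 0 < κ * (4 * ε') := by positivity
    have yε : ‖y‖ < ε := by
      have : (0 : ℝ) ≤ M := Nat.cast_nonneg M
      nlinarith [mul_nonneg this e0.le]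
    have hm := (hSm n hn).sol y (mem_ball_zero_iff.2 yε)
    obtain ⟨mp1, mq1⟩ := hm.uniq hU ho (hmp n hn) (Kη _ yε) (res_mp ho.le hR hw hs)
      (hy ▸ dat_mp w0p.ne' hSn.dat)
    have conv : ∀ a b : ι → D, (w0 : ℂ) • a = (cw R : ℂ) • b → ((κ⁻¹ : ℝ) : ℂ) • a = b := by
      intro a b h
      refine smul_cancel c0 ?_
      rw [← h, smul_smul, ← Complex.ofReal_mul, hκ]
      congr 2
      field_simp
    have c1 : cl (-1) 1 (-1) = -1 := cl_of_le le_rfl
    have c2 : cl (-1) 1 1 = 1 := cl_of_ge (by norm_num) le_rfl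
    have z1 := trP_eq ho rfl rfl mp1 (-1)
    have z2 := trQ_eq ho rfl rfl mq1 1
    have z3 := trP_eq ho rfl rfl mp1 1
    rw [c1, nk_w_mid (by simp)] at z1
    rw [c2, nk_w_mid (by simp)] at z2 z3
    set z := outL (-1) 1 (Sm n y) with hz
    have zL : vL z = (v.1, trP (-1) (S n)) := Prod.ext rfl (conv _ _ z1)
    have zR : vR z = (trQ 1 (S n), piL kill v.2 + piL keep (trP 1 (S n))) :=
      Prod.ext (conv _ _ z2) (congrArg (fun u => piL kill v.2 + piL keep u) (conv _ _ z3))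
    have zb : z ∈ ball (0 : D3 ι) (11 * K * (κ * (4 * ε'))) := by
      have := (norm_outL_le (-1) 1 _).trans (hm.le.trans (mul_le_mul_of_nonneg_left yb K0.le))
      rw [mem_ball_zero_iff]
      nlinarith [mul_pos K0 e0]
    obtain ⟨lp1, lq1⟩ := (hL.sol _ (mL z zb)).uniq hU ho okL
      (Kη _ (mem_ball_zero_iff.1 (mL z zb))) (res_lf ho.le hR hs) (zL ▸ dat_lf hR hSn.dat)
    obtain ⟨rp1, rq1⟩ := (hRt.sol _ (mR z zb)).uniq hU ho okR
      (Kη _ (mem_ball_zero_iff.1 (mR z zb))) (res_rt ho.le hR hs) (zR ▸ dat_rt hR hSn.dat)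
    have l1 := trP_eq ho rfl rfl lp1 (-R)
    have l2 := trQ_eq ho rfl rfl lq1 (-1)
    have r1 := trP_eq ho rfl rfl rp1 1
    have r2 := trP_eq ho rfl rfl rp1 R
    have r3 := trQ_eq ho rfl rfl rq1 R
    rw [← lf_w hR] at l1 l2
    rw [← rt_w hR] at r1 r2 r3
    rw [cl_of_le le_rfl] at l1 r1
    rw [cl_of_ge (by linarith) le_rfl] at l2
    rw [cl_of_ge hR le_rfl] at r2 r3
    refine ⟨yb, ?_, ?_⟩
    · rw [smul_cancel (okL.w0 _) l2, smul_cancel (okR.w0 _) r1, hy]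
    · rw [smul_cancel (okL.w0 _) l1, smul_cancel (okR.w0 _) r2, smul_cancel (okR.w0 _) r3]
      rfl
  have key := glue_dif (M := M) (ρ := ε) (C0 := K) (e := κ * (4 * ε')) (B := K * ε)
    (Mid := fun n y => outL (-1) 1 (Sm n y))
    (Ψ := fun z => (κ : ℂ) • ((trQ (-1) (SL (vL z)), piL kill (trP 1 (SR (vR z)))) : DD ι))
    (Out := fun z => ((trP (-R) (SL (vL z)), trQ R (SR (vR z)), trP R (SR (vR z))) : D3 ι))
    (y := fun n => (κ : ℂ) • ((trQ (-1) (S n), piL kill (trP 1 (S n))) : DD ι))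
    K0 (by positivity) hρ
    (fun n hn => (outL (-1) 1).differentiable.comp_differentiableOn (hSm n hn).diff)
    (fun n hn y hy => (norm_outL_le _ _ _).trans ((hSm n hn).sol y hy).le)
    (fun r hr hrM y hy => hP C o ε K w0 ζ r Sm ho hr
      (fun n hn => ⟨hmp n (hn.trans hrM), hSm n (hn.trans hrM)⟩) y hy)
    (DifferentiableOn.const_smul (((trQ (-1)).differentiable.comp_differentiableOn dL).prodMk
      (((piL kill).comp (trP 1)).differentiable.comp_differentiableOn dR)) (κ : ℂ))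
    (fun z hz => ?_)
    (((trP (-R)).differentiable.comp_differentiableOn dL).prodMk
      (((trQ R).differentiable.comp_differentiableOn dR).prodMk
        ((trP R).differentiable.comp_differentiableOn dR)))
    (fun z hz => ?_) (fun n hn => ⟨(fix n hn _ rfl).1, (fix n hn _ rfl).2.1⟩)
  · rw [dif_congr fun n hn => (fix n hn _ rfl).2.2] at key
    exact key
  · rw [norm_ofReal_smul κ0.le]
    refine mul_le_mul_of_nonneg_left (max_le ?_ ?_) κ0.le
    · have := (hL.sol _ (mL z hz)).trQ_le ho okL (-1)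
      have := quad _ (norm_nonneg _) (nL z hz)
      change ‖trQ (-1) (SL (vL z))‖ ≤ _
      have e : (vL z).1 = v.1 := rfl
      rw [e] at *
      linarith
    · have a := (hRt.sol _ (mR z hz)).trP_le ho okR rfl 1
      have := quad _ (norm_nonneg _) (nR z hz)
      have e : piL kill (vR z).2 = piL kill v.2 := kill_mix _ _
      rw [e] at a
      change ‖piL kill (trP 1 (SR (vR z)))‖ ≤ _
      linarith
  · have a : ‖SL (vL z)‖ ≤ K * ε := (hL.sol _ (mL z hz)).le.trans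
      (mul_le_mul_of_nonneg_left (mem_ball_zero_iff.1 (mL z hz)).le K0.le)
    have b : ‖SR (vR z)‖ ≤ K * ε := (hRt.sol _ (mR z hz)).le.trans
      (mul_le_mul_of_nonneg_left (mem_ball_zero_iff.1 (mR z hz)).le K0.le)
    exact max_le ((norm_trP_le _ _).trans a)
      (max_le ((norm_trQ_le _ _).trans b) ((norm_trP_le _ _).trans b))

end Crest.Agent.N207.L
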