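import Crest.Agent.N207.L.Nk2

/-! # N207/L/Nk3 (helper80): the one-neck scattering map -/

set_option autoImplicit false
set_option linter.unusedSectionVars false
open Set Filter Topology Metric Complex
open scoped Real

noncomputable section

namespace Crest.Agent.N207.L
open J

variable {ι : Type} [Fintype ι] {N : NL ι} {C o η ε K : ℝ}

/-- a real stretch does not change the outputs -/
theorem rep_out (hU : Uniq N C o η) (ho : 0 < o) {R s : ℝ} (hR : 1 ≤ R) (hs : |s| ≤ 1 / 2)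
    (hRs : 1 ≤ R + s) (ok : (nk o R s).Ok C o) {v : DD ι} (h4 : 4 * (K * ‖killB v‖) ≤ η)
    {S S' : Tr ι} (hS : IsSol N (nk o R s) K (killB v) S)
    (hS' : IsSol N (nk o (R + s) 0) K (killB v) S') :
    outL (-R) R S = outL (-(R + s)) (R + s) S' := by
  have h0 : 0 ≤ K * ‖killB v‖ := (norm_nonneg _).trans hS.le
  obtain ⟨p1, q1⟩ := hS.uniq hU ho ok (by linarith) (rep_sol ho.le hR hs h4 hS'.sol)
    (rep_dat hR hRs hS'.dat)
  have a1 := trP_eq ho rfl rfl p1 (-R)
  have a2 := trQ_eq ho rfl rfl q1 R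
  have a3 := trP_eq ho rfl rfl p1 R
  rw [stch_neg hR, nk_w_end hR (by rw [abs_neg, abs_of_nonneg (by linarith)]),
    nk_w_end hRs (by rw [abs_neg, abs_of_nonneg (by linarith)])] at a1
  rw [stch_pos hR, nk_w_end hR (abs_of_nonneg (by linarith)),
    nk_w_end hRs (abs_of_nonneg (by linarith))] at a2 a3
  rw [outL_apply, outL_apply, smul_cancel one_pos a1, smul_cancel one_pos a2,
    smul_cancel one_pos a3]

/-- the chart of half lengths around `R` -/
def nV (R : ℝ) : Set ℂ := {l | l - R ∈ nU R 2}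

theorem nV_eq (R : ℝ) : nV R = ({l : ℂ | R - 1 / 2 < l.re} ∩ {l | l.re < R + 1 / 2}) ∩
    ball (R : ℂ) (2 * Real.exp (5 / 8 * R)) := by
  ext l
  simp only [nV, nU, mem_setOf_eq, sub_re, ofReal_re, abs_lt, mem_inter_iff, mem_ball,
    dist_eq_norm]
  constructor
  · rintro ⟨⟨h1, h2⟩, h3⟩; exact ⟨⟨by linarith, by linarith⟩, h3⟩
  · rintro ⟨⟨h1, h2⟩, h3⟩; exact ⟨⟨by linarith, by linarith⟩, h3⟩

theorem convex_nV (R : ℝ) : Convex ℝ (nV R) := by
  rw [nV_eq]
  exact ((convex_halfSpace_re_gt _).inter (convex_halfSpace_re_lt _)).inter (convex_ball _ _)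

theorem isOpen_nV (R : ℝ) : IsOpen (nV R) := by
  rw [nV_eq]
  exact ((isOpen_lt continuous_const continuous_re).inter
    (isOpen_lt continuous_re continuous_const)).inter isOpen_ball

theorem mem_nV {R : ℝ} (hR : 1 ≤ R) {l : ℂ} (h1 : |l.re - R| < 1 / 2)
    (h2 : |l.im| < 1 * Real.exp (1 / 8 * l.re)) : l ∈ nV R := by
  refine ⟨by simpa using h1, (norm_le_abs_re_add_abs_im _).trans_lt ?_⟩
  simp only [sub_re, ofReal_re, sub_im, ofReal_im, sub_zero]
  have a1 : Real.exp (1 / 8 * l.re) ≤ Real.exp (5 / 8 * R) :=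
    Real.exp_le_exp.2 (by have := (abs_lt.1 h1).2; linarith)
  have a2 : 1 ≤ Real.exp (5 / 8 * R) := Real.one_le_exp (by linarith)
  linarith

theorem real_mem_nV {R x : ℝ} (hR : 1 ≤ R) (h1 : |x - R| < 1 / 2) : (x : ℂ) ∈ nV R :=
  mem_nV hR (by simpa using h1) (by simpa using Real.exp_pos _)

theorem isOpen_Wd (R0 c δ : ℝ) : IsOpen (Wd R0 c δ) :=
  (isOpen_lt continuous_const continuous_re).inter (isOpen_lt (f := fun l : ℂ => |l.im|)
    (g := fun l : ℂ => c * Real.exp (δ * l.re)) (by fun_prop) (by fun_prop))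

theorem frequently_real {p : ℂ → Prop} {x : ℝ} (h : ∀ᶠ y : ℝ in 𝓝 x, p y) :
    ∃ᶠ z in 𝓝[≠] (x : ℂ), p z := by
  have ht : Tendsto (fun y : ℝ => (y : ℂ)) (𝓝[≠] x) (𝓝[≠] (x : ℂ)) :=
    tendsto_nhdsWithin_iff.2 ⟨continuous_ofReal.continuousAt.mono_left nhdsWithin_le_nhds,
      eventually_nhdsWithin_of_forall fun y hy => by simpa using hy⟩
  exact ht.frequently (h.filter_mono nhdsWithin_le_nhds).frequently

/-- **the one-neck scattering map** -/
theorem neckStmt (hPc : PieceStmt N) (hP : PolyStmt N) : NeckStmt N := by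
  intro o ho ho1
  obtain ⟨η, ε, K, hε, hK, hKη, hU, hE⟩ := hPc 18 o ho
  have K0 : 0 < K := by linarith
  obtain ⟨ε', hε', h1, h2⟩ : ∃ ε' : ℝ, 0 < ε' ∧ (1 + 44 * K) * ε' < ε ∧
      8 * 18 * K * (1 + 44 * K) ^ 2 * ε' ≤ 1 := by
    refine ⟨min (ε / (2 * (1 + 44 * K))) (1 / (8 * 18 * K * (1 + 44 * K) ^ 2)), by positivity,
      ?_, ?_⟩
    · refine (mul_le_mul_of_nonneg_left (min_le_left _ _) (by positivity)).trans_lt ?_
      rw [mul_div_assoc', mul_comm 2, mul_div_mul_left _ _ (by positivity)]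
      linarith
    · refine (mul_le_mul_of_nonneg_left (min_le_right _ _) (by positivity)).trans_eq ?_
      field_simp
  have e4 : 4 * ε' < ε := by nlinarith
  have hex : ∀ R : ℝ, ∃ S : ℂ × DD ι → Tr ι, 1 ≤ R →
      DifferentiableOn ℂ S (nU R 2 ×ˢ ball 0 ε) ∧ ∀ ζ ∈ nU R 2, (nk o R ζ).Ok 18 o ∧
        ∀ v ∈ ball (0 : DD ι) ε, IsSol N (nk o R ζ) K v (S (ζ, v)) := fun R => by
    by_cases hR : 1 ≤ R
    · have hf := (fam_neck (c := 2) (C := 18) hR (by norm_num) (by norm_num)).omc ho.le ho1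
      obtain ⟨S, a, b⟩ := hE ℂ _ _ _ _ hf
      refine ⟨S, fun _ => ⟨a, fun ζ hζ => ⟨hf.ok ζ hζ, fun v hv => ?_⟩⟩⟩
      obtain ⟨b1, b2, b3, b4⟩ := b ζ hζ v hv
      exact ⟨b1, b2, b3, b4.hq, b4.hp⟩
    · exact ⟨fun _ => 0, fun h => absurd h hR⟩
  choose SR hSR using hex
  have kb : ∀ v ∈ ball (0 : DD ι) ε', ‖killB v‖ < ε' := fun v hv =>
    (norm_killB_le v).trans_lt (mem_ball_zero_iff.1 hv)
  have kb' : ∀ v ∈ ball (0 : DD ι) ε', killB v ∈ ball (0 : DD ι) ε := fun v hv =>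
    mem_ball_zero_iff.2 ((kb v hv).trans (by linarith))
  set G : ℝ → ℂ → DD ι → D3 ι := fun R l v => outL (-R) R (SR R (l - R, killB v)) with hG
  have Gd : ∀ R, 1 ≤ R →
      DifferentiableOn ℂ (fun p : ℂ × DD ι => G R p.1 p.2) (nV R ×ˢ ball 0 ε') := fun R hR =>
    (outL (-R) R).differentiable.comp_differentiableOn ((hSR R hR).1.comp
      (f := fun p : ℂ × DD ι => (p.1 - R, killB p.2)) (by fun_prop)
      fun p hp => ⟨hp.1, kb' _ hp.2⟩)
  have Gr : ∀ R x : ℝ, 1 ≤ R → 1 ≤ x → |x - R| < 1 / 2 → ∀ v ∈ ball (0 : DD ι) ε',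
      G R x v = G x x v := by
    intro R x hR hx hxR v hv
    obtain ⟨s, rfl⟩ : ∃ s, x = R + s := ⟨x - R, by ring⟩
    have hs : |s| < 1 / 2 := by simpa using hxR
    have m1 : (s : ℂ) ∈ nU R 2 := by simpa [nV] using real_mem_nV hR hxR
    have m0 : (0 : ℂ) ∈ nU (R + s) 2 := by
      simpa [nV] using real_mem_nV (R := R + s) (x := R + s) hx (by simp)
    have := rep_out hU ho hR hs.le hx ((hSR R hR).2 s m1).1
      (by have := mul_le_mul_of_nonneg_left (kb v hv).le K0.le; nlinarith)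
      (((hSR R hR).2 s m1).2 _ (kb' v hv)) (((hSR _ hx).2 0 m0).2 _ (kb' v hv))
    simpa [hG] using this
  have Gi : ∀ R R' : ℝ, 2 ≤ R → 2 ≤ R' → |R - R'| < 1 / 4 → ∀ v ∈ ball (0 : DD ι) ε',
      ∀ l ∈ nV R ∩ nV R', G R l v = G R' l v := by
    intro R R' hR hR' hRR v hv
    have an : ∀ R, 1 ≤ R → AnalyticOnNhd ℂ (fun l => G R l v) (nV R) := fun R hR =>
      ((Gd R hR).comp (f := fun l => (l, v)) (by fun_prop) fun l hl => ⟨hl, hv⟩).analyticOnNhd
        (isOpen_nV R)
    refine AnalyticOnNhd.eqOn_of_preconnected_of_frequently_eq (𝕜 := ℂ) (U := nV R ∩ nV R')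
      ((an R (by linarith)).mono inter_subset_left) ((an R' (by linarith)).mono inter_subset_right)
      ((convex_nV R).inter (convex_nV R')).isPreconnected (z₀ := (R : ℂ))
      ⟨real_mem_nV (by linarith) (by simp), real_mem_nV (by linarith) (by linarith)⟩
      (frequently_real ?_)
    filter_upwards [ball_mem_nhds R (show (0 : ℝ) < 1 / 4 by norm_num)] with x hx
    rw [mem_ball, Real.dist_eq, abs_lt] at hx
    rw [abs_lt] at hRR
    rw [Gr R x (by linarith) (by linarith) (abs_lt.2 ⟨by linarith, by linarith⟩) v hv,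
      Gr R' x (by linarith) (by linarith) (abs_lt.2 ⟨by linarith, by linarith⟩) v hv]
  have mW : ∀ l ∈ Wd 2 1 (1 / 8), l ∈ nV l.re := fun l hl =>
    mem_nV (by linarith [hl.1]) (by simp) hl.2
  refine ⟨ε', K, 2, fun l v => G l.re l v, hε', hK, by norm_num, fun p hp => ?_,
    fun l hl v hv => ?_, fun M => ?_, fun l hl v hv => ?_⟩
  · have hR : 2 < p.1.re := hp.1.1
    have a := ((Gd p.1.re (by linarith)) p ⟨mW _ hp.1, hp.2⟩).differentiableAt
      (((isOpen_nV _).prod isOpen_ball).mem_nhds ⟨mW _ hp.1, hp.2⟩)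
    refine (a.congr_of_eventuallyEq ?_).differentiableWithinAt
    have c : ContinuousAt (fun x : ℂ × DD ι => x.1.re) p := by fun_prop
    filter_upwards [((isOpen_Wd _ _ _).prod isOpen_ball).mem_nhds hp,
      c.eventually (ball_mem_nhds p.1.re (show (0 : ℝ) < 1 / 4 by norm_num))] with x hx hx'
    have hx2 : |x.1.re - p.1.re| < 1 / 4 := hx'
    exact Gi _ _ hx.1.1.le hR.le hx2 _ hx.2 _
      ⟨mW _ hx.1, mem_nV (by linarith) (by linarith) hx.1.2⟩
  · have a := ((hSR l.re (by linarith [hl.1])).2 _ (mW l hl)).2 _ (kb' v hv)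
    exact (norm_outL_le _ _ _).trans (a.le.trans
      (mul_le_mul_of_nonneg_left (norm_killB_le v) K0.le))
  · refine ⟨K * ε * (40 * (2 * M + 1) * (Real.exp (5 / 8) * (4 * ε')) / ε) ^ M,
      160 * (2 * M + 1) + 2, fun l hl hW v hv => ?_⟩
    have M0 : (0 : ℝ) ≤ M := Nat.cast_nonneg M
    set R := l.re with hRdef
    have hR : 2 ≤ R := by linarith
    have ere : ∀ n : ℕ, (l + n * (2 * π * I)).re = R := fun n => by simp [hRdef]
    have mU : ∀ n ≤ M, l - R + n * (2 * π * I) ∈ nU R 2 := fun n hn => by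
      have := mW _ (hW n hn)
      rw [ere] at this
      rw [show l - R + n * (2 * π * I) = l + n * (2 * π * I) - R by ring]
      exact this
    have eκ : cw R / Real.exp (-(R / 8)) = Real.exp (5 / 8) * Real.exp (-(R / 2)) := by
      rw [cw, ← Real.exp_sub, ← Real.exp_add]; congr 1; ring
    have key := glue_neck (w0 := Real.exp (-(R / 8))) (ζ := l - R) (M := M) (R := R)
      (S := fun n => SR R (l - R + n * (2 * π * I), killB v)) hU hE hP hKη hK ho ho1
      (by norm_num) (by linarith) (Real.exp_le_exp.2 (by linarith)) (by simp [hRdef]; norm_num)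
      (fun n hn => ((hSR R (by linarith)).2 _ (mU n hn)).1) (fun n hn => ?_) hε' h1 h2 ?_
      (mem_ball_zero_iff.1 hv) fun n hn => ((hSR R (by linarith)).2 _ (mU n hn)).2 _ (kb' v hv)
    · rw [← dif_fun]
      refine le_of_eq_of_le (congrArg _ (dif_congr fun n _ => ?_)) (key.trans (le_of_eq ?_))
      · simp only [hG, ere]
        rw [show l + n * (2 * π * I) - R = l - R + n * (2 * π * I) by ring]
      · rw [eκ, show -(M * R) / 2 = M * -(R / 2) by ring, Real.exp_nat_mul, mul_assoc (K * ε),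
          ← mul_pow]
        congr 2
        ring
    · refine (ok_mid (by simp [hRdef]; norm_num) (Real.exp_pos _)
        (Real.exp_le_one_iff.2 (by linarith)) ?_).omc ho.le ho1
      have a1 := (hW n hn).2
      rw [ere] at a1
      have a2 : ‖1 + (l - R + n * (2 * π * I))‖ ≤ 1 + Real.exp (1 / 8 * R) := by
        refine (norm_le_abs_re_add_abs_im _).trans (add_le_add (le_of_eq ?_) ?_)
        · simp [hRdef]
        · simpa using a1.le
      have a3 : Real.exp (1 / 8 * R) * Real.exp (-(R / 8)) = 1 := by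
        rw [← Real.exp_add, show 1 / 8 * R + -(R / 8) = 0 by ring, Real.exp_zero]
      have a4 : Real.exp (-(R / 8)) ≤ 1 := Real.exp_le_one_iff.2 (by linarith)
      have := mul_le_mul_of_nonneg_right a2 (Real.exp_pos (-(R / 8))).le
      linarith
    · rw [eκ, ← Real.exp_add]
      have a1 := Real.add_one_le_exp (-(5 / 8 + -(R / 2)))
      have a2 : Real.exp (5 / 8 + -(R / 2)) * Real.exp (-(5 / 8 + -(R / 2))) = 1 := by
        rw [← Real.exp_add, add_neg_cancel, Real.exp_zero]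
      have a3 := Real.exp_pos (5 / 8 + -(R / 2))
      have a4 : 20 * (2 * M + 1) * Real.exp (5 / 8 + -(R / 2)) ≤ 1 := by nlinarith
      calc _ = 20 * (2 * M + 1) * Real.exp (5 / 8 + -(R / 2)) * (4 * ε') := by ring
        _ ≤ 1 * (4 * ε') := by gcongr
        _ < ε := by linarith
  · have m0 : (0 : ℂ) ∈ nU l 2 := by
      simpa [nV] using real_mem_nV (R := l) (x := l) (by linarith) (by simp)
    exact ⟨SR l (0, killB v), ((hSR l (by linarith)).2 0 m0).2 _ (kb' v hv), by simp [hG]⟩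

end Crest.Agent.N207.L
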