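import Crest.Agent.N207.L.Nk0
import Crest.Agent.N207.L.Hinf

/-!
Row 207, block L (helper82): the one-neck map as a curve of class `J.Dul` in `Hinf`.
-/

set_option autoImplicit false

open Set Filter Topology Metric

noncomputable section

namespace Crest.Agent.N207.L
open J

/-- bounded holomorphic scattering maps -/
abbrev HN (ι : Type) [Fintype ι] (ε : ℝ) : Type := Hinf (ball (0 : DD ι) ε) isOpen_ball (D3 ι)

variable {ι : Type} [Fintype ι]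

/-- the neck map of full length `L` as a point of `HN` -/
def nH (ε : ℝ) (Nm : ℂ → DD ι → D3 ι) (L : ℂ) : HN ι ε := Hinf.mk _ isOpen_ball (Nm (L / 2))

namespace Neck
variable {N : NL ι} {o ε K R0 : ℝ} {Nm : ℂ → DD ι → D3 ι}

lemma diff1 (h : Neck N o ε K R0 Nm) {l : ℂ} (hl : l ∈ Wd R0 1 (1 / 8)) :
    DifferentiableOn ℂ (Nm l) (ball 0 ε) :=
  h.diff.comp (f := fun v => (l, v)) (by fun_prop) fun _ hv => ⟨hl, hv⟩

lemma diff2 (h : Neck N o ε K R0 Nm) {v : DD ι} (hv : v ∈ ball (0 : DD ι) ε) :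
    DifferentiableOn ℂ (fun l => Nm l v) (Wd R0 1 (1 / 8)) :=
  h.diff.comp (f := fun l => (l, v)) (by fun_prop) fun _ hl => ⟨hl, hv⟩

lemma bd (h : Neck N o ε K R0 Nm) (hK : 0 ≤ K) {l : ℂ} (hl : l ∈ Wd R0 1 (1 / 8)) :
    ∀ v ∈ ball (0 : DD ι) ε, ‖Nm l v‖ ≤ K * ε := fun v hv =>
  (h.le l hl v hv).trans (mul_le_mul_of_nonneg_left (mem_ball_zero_iff.1 hv).le hK)

lemma val_nH (h : Neck N o ε K R0 Nm) (hK : 0 ≤ K) {L : ℂ} (hL : L / 2 ∈ Wd R0 1 (1 / 8))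
    {v : DD ι} (hv : v ∈ ball (0 : DD ι) ε) : (nH ε Nm L).val v = Nm (L / 2) v :=
  Hinf.val_mk (h.diff1 hL) (h.bd hK hL) hv

/-- **the neck map is in the class**; `co 0 0` is the pointwise limit for real lengths -/
theorem dul (h : Neck N o ε K R0 Nm) (hK : 0 ≤ K) :
    ∃ (C : ℝ) (co : ℕ → ℕ → HN ι ε), 0 < C ∧ (∀ L ∈ Om C, L / 2 ∈ Wd R0 1 (1 / 8)) ∧
      Dul C (nH ε Nm) co ∧
      (∀ v ∈ ball (0 : DD ι) ε,
        Tendsto (fun L : ℝ => Nm ((L : ℂ) / 2) v) atTop (𝓝 ((co 0 0).val v))) ∧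
      ∀ v ∈ ball (0 : DD ι) ε, ‖(co 0 0).val v‖ ≤ K * ‖v‖ := by
  obtain ⟨C, co, hC, hs, hD, ht⟩ := lemX_hinf (U := ball (0 : DD ι) ε) isOpen_ball one_pos
    (by norm_num : (0 : ℝ) < 1 / 8) (fun _ hl => h.bd hK hl) (fun _ hl => h.diff1 hl)
    (fun _ hv => h.diff2 hv) h.dif
  refine ⟨C, co, hC, hs, hD, ht, fun v hv => le_of_tendsto (ht v hv).norm ?_⟩
  filter_upwards [eventually_mem_Om C] with L hL
  exact h.le _ (hs _ hL) v hv

end Neck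

end Crest.Agent.N207.L
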