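import Crest.Agent.N207.L.Tru
import Crest.Agent.N207.L.Gr2
import Crest.Agent.N207.J.As5

/-! # N207/L/Pc1 (helper59): the linear part of a piece, at the level of sequences -/

set_option autoImplicit false
set_option linter.unusedSectionVars false
set_option maxHeartbeats 400000
open Set Filter Topology MeasureTheory BoundedContinuousFunction

noncomputable section

namespace Crest.Agent.N207.L
open J Crest.Agent.N250.H

namespace Pth

def EM (γ : Pth) : D →L[ℂ] CL := dg (γ.em H)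
def EP (γ : Pth) : D →L[ℂ] CL := dg (γ.ep H)
def GM (γ : Pth) : CL →L[ℂ] CL := dg fun k => (((k : ℂ) + 1) / 2) • γ.gm H k
def GP (γ : Pth) : CL →L[ℂ] CL := dg fun k => (((k : ℂ) + 1) / 2) • γ.gp H k

variable {ι : Type} [Fintype ι]

/-- free part -/
def L0 (γ : Pth) : (ι → D) × (ι → D) →L[ℂ] Tr ι :=
  (ContinuousLinearMap.pi fun i => γ.EP ∘L ContinuousLinearMap.proj i ∘L
    ContinuousLinearMap.snd ℂ _ _).prod ((ContinuousLinearMap.pi fun i => γ.EM ∘L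
      ContinuousLinearMap.proj i ∘L ContinuousLinearMap.fst ℂ _ _).prod 0)

/-- forced part -/
def L1 (γ : Pth) : (ι → CL) →L[ℂ] Tr ι :=
  (ContinuousLinearMap.pi fun i => -γ.GP ∘L ContinuousLinearMap.proj i).prod
    ((ContinuousLinearMap.pi fun i => -γ.GM ∘L ContinuousLinearMap.proj i).prod
      (ContinuousLinearMap.id ℂ _))

theorem L0_apply (γ : Pth) (v : (ι → D) × (ι → D)) :
    γ.L0 v = (fun i => γ.EP (v.2 i), fun i => γ.EM (v.1 i), 0) := rfl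

theorem L1_apply (γ : Pth) (f : ι → CL) :
    γ.L1 f = (fun i => -γ.GP (f i), fun i => -γ.GM (f i), f) := rfl

/-- the triple with data `v` and source `f` -/
def tri (γ : Pth) (v : (ι → D) × (ι → D)) (f : ι → CL) : Tr ι := γ.L0 v + γ.L1 f

theorem tri_p (γ : Pth) (v : (ι → D) × (ι → D)) (f : ι → CL) (i : ι) :
    (γ.tri v f).1 i = γ.EP (v.2 i) - γ.GP (f i) := (sub_eq_add_neg _ _).symm

theorem tri_q (γ : Pth) (v : (ι → D) × (ι → D)) (f : ι → CL) (i : ι) :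
    (γ.tri v f).2.1 i = γ.EM (v.1 i) - γ.GM (f i) := (sub_eq_add_neg _ _).symm

theorem tri_F (γ : Pth) (v : (ι → D) × (ι → D)) (f : ι → CL) : (γ.tri v f).2.2 = f := zero_add f

theorem tw_one_eq (γ : Pth) (X : CL) (k : ℕ) (x : ℝ) :
    tru 6 γ.w γ.om X k x = (wn 6 k)⁻¹ • P k (γ.tw 1 k x • X k x) := by
  rw [tru, map_smul, smul_smul, ← wt_eq_wn, tw]
  congr 1
  push_cast
  ring

theorem tw_two_eq (γ : Pth) (X : CL) (k : ℕ) (x : ℝ) :
    tru 4 (fun x => γ.w x ^ 2) γ.om X k x = (wn 4 k)⁻¹ • P k (γ.tw 2 k x • X k x) := by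
  rw [tru, map_smul, smul_smul, ← wt_eq_wn, tw]
  congr 1
  push_cast
  ring

variable {γ : Pth} {C o : ℝ}

namespace Ok

theorem hm_bd (h : γ.Ok C o) (ho : 0 < o) (k : ℕ) :
    ‖(((k : ℂ) + 1) / 2) • γ.gm H k‖ ≤ 16 * C / 2 := Grn.half_bd (h.norm_gm ho) k

theorem hp_bd (h : γ.Ok C o) (ho : 0 < o) (k : ℕ) :
    ‖(((k : ℂ) + 1) / 2) • γ.gp H k‖ ≤ 16 * C / 2 := Grn.half_bd (h.norm_gp ho) k

theorem EM_apply (h : γ.Ok C o) (ho : 0 < o) (A : D) (k : ℕ) : γ.EM A k = γ.em H k (A k) :=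
  dg_apply (h.norm_em ho) A k

theorem EP_apply (h : γ.Ok C o) (ho : 0 < o) (A : D) (k : ℕ) : γ.EP A k = γ.ep H k (A k) :=
  dg_apply (h.norm_ep ho) A k

theorem GM_apply (h : γ.Ok C o) (ho : 0 < o) (f : CL) (k : ℕ) :
    γ.GM f k = (((k : ℂ) + 1) / 2) • γ.gm H k (f k) := dg_apply (h.hm_bd ho) f k

theorem GP_apply (h : γ.Ok C o) (ho : 0 < o) (f : CL) (k : ℕ) :
    γ.GP f k = (((k : ℂ) + 1) / 2) • γ.gp H k (f k) := dg_apply (h.hp_bd ho) f k

theorem norm_EM (h : γ.Ok C o) (ho : 0 < o) : ‖γ.EM‖ ≤ 1 := norm_dg_le (h.norm_em ho)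
theorem norm_EP (h : γ.Ok C o) (ho : 0 < o) : ‖γ.EP‖ ≤ 1 := norm_dg_le (h.norm_ep ho)
theorem norm_GM (h : γ.Ok C o) (ho : 0 < o) : ‖γ.GM‖ ≤ 16 * C / 2 := norm_dg_le (h.hm_bd ho)
theorem norm_GP (h : γ.Ok C o) (ho : 0 < o) : ‖γ.GP‖ ≤ 16 * C / 2 := norm_dg_le (h.hp_bd ho)

theorem norm_L0 (h : γ.Ok C o) (ho : 0 < o) (v : (ι → D) × (ι → D)) : ‖γ.L0 v‖ ≤ ‖v‖ := by
  have h0 := norm_nonneg v
  rw [L0_apply]
  refine norm_prod_le_iff.2 ⟨?_, norm_prod_le_iff.2 ⟨?_, by simp⟩⟩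
  · refine (pi_norm_le_iff_of_nonneg h0).2 fun i => ((γ.EP).le_of_opNorm_le (h.norm_EP ho) _).trans ?_
    rw [one_mul]
    exact (norm_le_pi_norm v.2 i).trans (norm_snd_le v)
  · refine (pi_norm_le_iff_of_nonneg h0).2 fun i => ((γ.EM).le_of_opNorm_le (h.norm_EM ho) _).trans ?_
    rw [one_mul]
    exact (norm_le_pi_norm v.1 i).trans (norm_fst_le v)

theorem norm_L1 (h : γ.Ok C o) (ho : 0 < o) (f : ι → CL) : ‖γ.L1 f‖ ≤ (8 * C + 1) * ‖f‖ := by
  have h0 := norm_nonneg f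
  have hC := h.C0
  rw [L1_apply]
  refine norm_prod_le_iff.2 ⟨?_, norm_prod_le_iff.2 ⟨?_, by nlinarith⟩⟩
  · refine (pi_norm_le_iff_of_nonneg (by positivity)).2 fun i => ?_
    rw [norm_neg]
    refine ((γ.GP).le_of_opNorm_le (h.norm_GP ho) _).trans ?_
    have := norm_le_pi_norm f i
    gcongr; linarith
  · refine (pi_norm_le_iff_of_nonneg (by positivity)).2 fun i => ?_
    rw [norm_neg]
    refine ((γ.GM).le_of_opNorm_le (h.norm_GM ho) _).trans ?_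
    have := norm_le_pi_norm f i
    gcongr; linarith

theorem ode_sq (h : γ.Ok C o) (ho : 0 < o) (A : D) (f : CL) (k : ℕ) :
    Ode γ.τ (-(k + 2))
      (fun x => -((2 * (k : ℂ) + 2)⁻¹ • tru 4 (fun x => γ.w x ^ 2) γ.om f k x))
      (tru 6 γ.w γ.om (γ.EM A - γ.GM f) k) := by
  refine (((h.ode_q ho k (((k : ℂ) + 1) / 2) (A k) (f k)).clm (P k)).smul (wn 6 k)⁻¹).congr
    (fun x => ?_) fun x => ?_
  · rw [tw_two_eq, map_neg, map_smul (P k) (((k : ℂ) + 1) / 2), smul_neg, smul_smul, smul_smul,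
      Grn.half_wn]
  · rw [tw_one_eq, lp.coeFn_sub, Pi.sub_apply, h.EM_apply ho, h.GM_apply ho]
    rfl

theorem ode_sp (h : γ.Ok C o) (ho : 0 < o) (B : D) (f : CL) (k : ℕ) :
    Ode γ.τ k (fun x => (2 * (k : ℂ) + 2)⁻¹ • tru 4 (fun x => γ.w x ^ 2) γ.om f k x)
      (tru 6 γ.w γ.om (γ.EP B - γ.GP f) k) := by
  refine (((h.ode_p ho k (((k : ℂ) + 1) / 2) (B k) (f k)).clm (P k)).smul (wn 6 k)⁻¹).congr
    (fun x => ?_) fun x => ?_
  · rw [tw_two_eq, map_smul (P k) (((k : ℂ) + 1) / 2), smul_smul, smul_smul, Grn.half_wn]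
  · rw [tw_one_eq, lp.coeFn_sub, Pi.sub_apply, h.EP_apply ho, h.GP_apply ho]
    rfl

theorem tr_sq (h : γ.Ok C o) (ho : 0 < o) (A : D) (f : CL) :
    tr γ.a (γ.EM A - γ.GM f) = A := CL.ext fun k => by
  rw [tr_apply, lp.coeFn_sub, Pi.sub_apply, h.EM_apply ho, h.GM_apply ho, coe_sub, Pi.sub_apply,
    coe_smul, h.em_a ho]
  simp only [h.gm_a ho, smul_zero, sub_zero]

theorem trs_sp (h : γ.Ok C o) (ho : 0 < o) (hf : γ.fin = true) (B : D) (f : CL) :
    trs γ.pt (γ.EP B - γ.GP f) = B := CL.ext fun k => by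
  rw [trs_apply, lp.coeFn_sub, Pi.sub_apply, h.EP_apply ho, h.GP_apply ho, coe_sub, Pi.sub_apply,
    coe_smul, h.ep_pt ho hf]
  simp only [h.gp_pt ho hf, smul_zero, sub_zero]

theorem dat_tri (h : γ.Ok C o) (ho : 0 < o) (v : (ι → D) × (ι → D)) (f : ι → CL) :
    Dat γ ((γ.tri v f).p γ) ((γ.tri v f).q γ) v.1 v.2 where
  hq i k := by rw [Tr.q, tri_q, tru_eq_tr, h.tr_sq ho]
  hp hf i k := by rw [Tr.p, tri_p, tru_eq_pt, h.trs_sp ho hf]

theorem om0 (h : γ.Ok C o) (ho : 0 < o) (x : ℝ) : 0 < γ.om x := ho.trans_le (h.o0 x)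

theorem tendsto_bd (h : γ.Ok C o) (ho : 0 < o) (hf : γ.fin = false) {p : Md} {η : ℝ}
    (hp : Bd 6 γ.w γ.om p η) (k : ℕ) : Tendsto (p k) atTop (𝓝 0) := by
  refine squeeze_zero_norm (a := fun x => η * γ.w x) (fun x => ?_)
    (by simpa using (h.dec hf).const_mul η)
  refine (hp.mode_le (fun x => (h.w0 x).le) (fun x => (h.om0 ho x).le) k x).trans ?_
  refine mul_le_mul_of_nonneg_left ?_ hp.nn
  exact mul_le_of_le_one_right (h.w0 x).le (pow_le_one₀ (h.om0 ho x).le (h.o1 x))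

/-- uniqueness for the growing amplitudes -/
theorem uniq_p (h : γ.Ok C o) (ho : 0 < o) {p p' : Md} {η η' : ℝ} (hp : Bd 6 γ.w γ.om p η)
    (hp' : Bd 6 γ.w γ.om p' η') {k : ℕ} {G : ℝ → H} (h1 : Ode γ.τ k G (p k))
    (h2 : Ode γ.τ k G (p' k)) (hd : γ.fin = true → p k (γ.pt k) = p' k (γ.pt k)) :
    p k = p' k := by
  funext x
  cases hf : γ.fin
  · refine h.uniq_half k h1 h2 ?_ x
    simpa using (h.tendsto_bd ho hf hp k).sub (h.tendsto_bd ho hf hp' k)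
  · exact h.uniq_pt h1 h2 (hd hf) x

theorem bd6 (h : γ.Ok C o) (ho : 0 < o) (X : CL) : Bd 6 γ.w γ.om (tru 6 γ.w γ.om X) ‖X‖ :=
  bd_tru h.wc (fun x => (h.w0 x).le) h.oc (fun x => (h.om0 ho x).le) X

theorem bd4 (h : γ.Ok C o) (ho : 0 < o) (X : CL) :
    Bd 4 (fun x => γ.w x ^ 2) γ.om (tru 4 (fun x => γ.w x ^ 2) γ.om X) ‖X‖ :=
  bd_tru (h.wc.pow 2) (fun _ => sq_nonneg _) h.oc (fun x => (h.om0 ho x).le) X

end Ok

namespace Fam

variable {Z : Type} [NormedAddCommGroup Z] [NormedSpace ℂ Z] {t τ : Z → ℝ → ℂ} {U : Set Z}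

theorem diff_EM (h : γ.Fam t τ U C o) (ho : 0 < o) :
    DifferentiableOn ℂ (fun z => (γ.re (t z) (τ z)).EM) U :=
  diffOn_dg h.op (fun z hz => (h.ok z hz).norm_em ho) fun k v =>
    (h.diff_em ho k).clm_apply (differentiableOn_const v)

theorem diff_EP (h : γ.Fam t τ U C o) (ho : 0 < o) :
    DifferentiableOn ℂ (fun z => (γ.re (t z) (τ z)).EP) U :=
  diffOn_dg h.op (fun z hz => (h.ok z hz).norm_ep ho) fun k v =>
    (h.diff_ep ho k).clm_apply (differentiableOn_const v)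

theorem diff_GM (h : γ.Fam t τ U C o) (ho : 0 < o) :
    DifferentiableOn ℂ (fun z => (γ.re (t z) (τ z)).GM) U :=
  diffOn_dg h.op (fun z hz => (h.ok z hz).hm_bd ho) fun k v =>
    ((h.diff_gm ho k).clm_apply (differentiableOn_const v)).const_smul (((k : ℂ) + 1) / 2)

theorem diff_GP (h : γ.Fam t τ U C o) (ho : 0 < o) :
    DifferentiableOn ℂ (fun z => (γ.re (t z) (τ z)).GP) U :=
  diffOn_dg h.op (fun z hz => (h.ok z hz).hp_bd ho) fun k v =>
    ((h.diff_gp ho k).clm_apply (differentiableOn_const v)).const_smul (((k : ℂ) + 1) / 2)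

theorem diff_L0 (h : γ.Fam t τ U C o) (ho : 0 < o) :
    DifferentiableOn ℂ (fun z => (γ.re (t z) (τ z)).L0 (ι := ι)) U := by
  refine diffOn_clm h.op (M := 1) (fun z hz => ContinuousLinearMap.opNorm_le_bound _ zero_le_one
    fun v => by simpa using (h.ok z hz).norm_L0 ho v) fun v => ?_
  simp only [L0_apply]
  exact (differentiableOn_pi.2 fun i => (h.diff_EP ho).clm_apply (differentiableOn_const _)).prodMk
    ((differentiableOn_pi.2 fun i => (h.diff_EM ho).clm_apply (differentiableOn_const _)).prodMk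
      (differentiableOn_const _))

theorem diff_L1 (h : γ.Fam t τ U C o) (ho : 0 < o) :
    DifferentiableOn ℂ (fun z => (γ.re (t z) (τ z)).L1 (ι := ι)) U := by
  have := h.base.C0
  refine diffOn_clm h.op (M := 8 * C + 1) (fun z hz => ContinuousLinearMap.opNorm_le_bound _
    (by positivity) ((h.ok z hz).norm_L1 ho)) fun v => ?_
  simp only [L1_apply]
  exact (differentiableOn_pi.2 fun i =>
    ((h.diff_GP ho).clm_apply (differentiableOn_const _)).neg).prodMk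
    ((differentiableOn_pi.2 fun i =>
      ((h.diff_GM ho).clm_apply (differentiableOn_const _)).neg).prodMk (differentiableOn_const _))

end Fam

end Pth

end Crest.Agent.N207.L
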