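import Crest.Agent.N207.L.Pc1
import Crest.Agent.N207.L.Sup
import Crest.Agent.N207.L.Fix

/-! # N207/L/Pc2 (helper59): the solution map of a piece -/

set_option autoImplicit false
set_option linter.unusedSectionVars false
set_option maxHeartbeats 400000
open Set Filter Topology MeasureTheory BoundedContinuousFunction Metric

noncomputable section

namespace Crest.Agent.N207.L
open J Crest.Agent.N250.H

variable {ι : Type} [Fintype ι] {w om : ℝ → ℝ} {o C : ℝ}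

/-- the product and the inclusion of a pair of weights -/
def alg (hw : Wts w om o) : Alg CL CL := ⟨hw.bcf.mul, hw.bcf.incl⟩

theorem alg_bnd (hw : Wts w om o) : (alg hw).Bnd (96 * o⁻¹) where
  one_le := by linarith [hw.one_le]
  mul_le := hw.bcf.norm_mul_apply
  inc_le c := (hw.bcf.incl.le_of_opNorm_le hw.bcf.norm_incl c).trans (by
    have := hw.one_le
    gcongr; linarith)

/-- the stored jets of a triple -/
def JT (hw : Wts w om o) : Tr ι →L[ℂ] (ι × Jx → CL) :=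
  ContinuousLinearMap.pi fun j => hw.bcf.jetc j.2 ∘L
    ((ContinuousLinearMap.proj j.1 ∘L ContinuousLinearMap.fst ℂ _ _).prod
      ((ContinuousLinearMap.proj j.1 ∘L ContinuousLinearMap.fst ℂ _ _ ∘L
        ContinuousLinearMap.snd ℂ _ _).prod (ContinuousLinearMap.proj j.1 ∘L
          ContinuousLinearMap.snd ℂ _ _ ∘L ContinuousLinearMap.snd ℂ _ _)))

theorem JT_apply (hw : Wts w om o) (S : Tr ι) (j : ι × Jx) :
    JT hw S j = hw.bcf.jetc j.2 (S.1 j.1, S.2.1 j.1, S.2.2 j.1) := rfl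

theorem Tr.norm_p (S : Tr ι) (i : ι) : ‖S.1 i‖ ≤ ‖S‖ := (norm_le_pi_norm _ i).trans (norm_fst_le S)
theorem Tr.norm_q (S : Tr ι) (i : ι) : ‖S.2.1 i‖ ≤ ‖S‖ :=
  (norm_le_pi_norm _ i).trans ((norm_fst_le S.2).trans (norm_snd_le S))
theorem Tr.norm_F (S : Tr ι) (i : ι) : ‖S.2.2 i‖ ≤ ‖S‖ :=
  (norm_le_pi_norm _ i).trans ((norm_snd_le S.2).trans (norm_snd_le S))

theorem norm_JT (hw : Wts w om o) (S : Tr ι) : ‖JT hw S‖ ≤ KJ o⁻¹ * ‖S‖ := by
  have := hw.bcf.KJ_pos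
  refine (pi_norm_le_iff_of_nonneg (by positivity)).2 fun j => ?_
  rw [JT_apply]
  refine (hw.bcf.norm_jetc_apply _ _).trans (mul_le_mul_of_nonneg_left ?_ this.le)
  exact norm_prod_le_iff.2 ⟨S.norm_p _, norm_prod_le_iff.2 ⟨S.norm_q _, S.norm_F _⟩⟩

instance (priority := low) decJ : DecidableEq (ι × Jx) := Classical.decEq _

/-- the constant of the linear part -/
def cc (C o : ℝ) : ℝ := KJ o⁻¹ * (8 * C + 1)

namespace NL

def ser (N : NL ι) : Ser N.Q := Classical.choice (exists_ser N.an N.q0 N.q1)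

/-- the nonlinearity on stored jets -/
def Qh (N : NL ι) (hw : Wts w om o) : (ι × Jx → CL) → ι → CL := (alg hw).Qh N.ser

def r (N : NL ι) (o : ℝ) : ℝ := Alg.rad N.ser (96 * o⁻¹) / 2
def K0 (N : NL ι) (o : ℝ) : ℝ := 2 * N.ser.K / Alg.rad N.ser (96 * o⁻¹) ^ 2
/-- radius of existence and uniqueness -/
def eta (N : NL ι) (C o : ℝ) : ℝ := L.eta (N.r o) (N.K0 o) (cc C o)
/-- `‖F‖ ≤ K2 ‖v‖²` -/
def K2 (N : NL ι) (o : ℝ) : ℝ := 2 * N.K0 o * KJ o⁻¹ ^ 2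

variable (N : NL ι)

theorem qd (hw : Wts w om o) : Qd (N.Qh hw) (N.r o) (N.K0 o) := by
  have h1 := Alg.rad_pos N.ser (alg_bnd hw).one_le
  have h2 := N.ser.K0
  refine ⟨by unfold r; positivity, by unfold K0; positivity, ?_, fun J hJ => ?_⟩
  · unfold Qh
    exact Alg.diff_Qh (alg_bnd hw) N.ser
  · unfold Qh
    exact Alg.norm_Qh (alg_bnd hw) N.ser hJ

theorem Qh_prp (hw : Wts w om o) {J : ι × Jx → CL} (hJ : ‖J‖ ≤ N.r o) (i : ι) :
    Prp (N.Qh hw J i) := by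
  refine hw.mem_prop2.1 ?_
  unfold Qh
  exact Alg.Qh_mem (alg_bnd hw) N.ser hw.bcf.isClosed_prop2 hw.bcf.mul_mem_prop2 hJ i

theorem syn_Qh (hw : Wts w om o) {J : ι × Jx → CL} (hJ : ‖J‖ ≤ N.r o) (i : ι) (x : ℝ) (y : S3) :
    hw.bcf.syn2 4 x (N.Qh hw J i) y = N.Q (fun j => hw.bcf.syn1 4 x (J j) y) i := by
  have hom : (alg hw).Hom Alg.sc (ContinuousMap.evalCLM ℂ y ∘L hw.bcf.syn1 4 x)
      (ContinuousMap.evalCLM ℂ y ∘L hw.bcf.syn2 4 x) :=
    ⟨fun a b => congrArg (fun u : CS => u y) (hw.bcf.syn_mul x a b),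
      fun c => congrArg (fun u : CS => u y) (hw.bcf.syn_incl (by norm_num) x c)⟩
  unfold Qh
  refine hom.chr (alg_bnd hw) (fun a => ?_) N.ser hJ i
  refine ((hw.bcf.syn1 4 x a).norm_coe_le_norm y).trans
    ((hw.bcf.norm_syn1_le (by norm_num) x a).trans ?_)
  have := hw.one_le
  gcongr
  norm_num

variable {γ : Pth}

theorem fix_iff (hw : Wts γ.w γ.om o) {S : Tr ι} (hS : ‖JT hw S‖ ≤ N.r o) :
    N.Qh hw (JT hw S) = S.2.2 ↔ (∀ i, Prp (S.2.2 i)) ∧ ∀ x y,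
      (fun i => val (S.F γ i) x y) = N.Q (jets (S.p γ) (S.q γ) (S.F γ) x y) := by
  have key : ∀ i x y, hw.bcf.syn2 4 x (N.Qh hw (JT hw S) i) y =
      N.Q (jets (S.p γ) (S.q γ) (S.F γ) x y) i := fun i x y => by
    rw [N.syn_Qh hw hS]
    congr 1
    funext j
    exact (hw.jets_tru S.1 S.2.1 S.2.2 x y j).symm
  constructor
  · intro h
    refine ⟨fun i => h ▸ N.Qh_prp hw hS i, fun x y => funext fun i => ?_⟩
    rw [← key, h, Tr.F, hw.val_tru2 (by norm_num)]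
  · rintro ⟨h1, h2⟩
    funext i
    refine hw.bcf.ext_syn2 (m := 4) (by norm_num) (hw.mem_prop2.2 (N.Qh_prp hw hS i))
      (hw.mem_prop2.2 (h1 i)) fun x => ContinuousMap.ext fun y => ?_
    rw [key, ← h2]
    exact congrArg (fun u : CS => u y) (hw.val_tru2 (by norm_num) _ x)

/-- fixed points -/
def Fx (C o : ℝ) (γ : Pth) (v : (ι → D) × (ι → D)) (f : ι → CL) : Prop :=
  ‖f‖ ≤ N.eta C o ∧ ∀ hw : Wts γ.w γ.om o, N.Qh hw (JT hw (γ.tri v f)) = f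

/-- the source of the solution -/
def src (C o : ℝ) (γ : Pth) (v : (ι → D) × (ι → D)) : ι → CL :=
  Classical.epsilon (N.Fx C o γ v)

/-- **the solution with data `v`** -/
def sol (C o : ℝ) (γ : Pth) (v : (ι → D) × (ι → D)) : Tr ι := γ.tri v (N.src C o γ v)

variable {N} {v : (ι → D) × (ι → D)} {f g : ι → CL}

theorem cc_pos (h : γ.Ok C o) (ho : 0 < o) : 0 < cc C o := by
  have := (h.wts ho).bcf.KJ_pos
  have := h.C0
  unfold cc; positivity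

theorem eta_pos (N : NL ι) (h : γ.Ok C o) (ho : 0 < o) : 0 < N.eta C o :=
  (N.qd (h.wts ho)).eta_pos (cc_pos h ho)

theorem u_le (h : γ.Ok C o) (ho : 0 < o) (v : (ι → D) × (ι → D)) :
    ‖JT (h.wts ho) (γ.L0 v)‖ ≤ KJ o⁻¹ * ‖v‖ :=
  (norm_JT _ _).trans (mul_le_mul_of_nonneg_left (h.norm_L0 ho v) (h.wts ho).bcf.KJ_pos.le)

theorem u_le' (h : γ.Ok C o) (ho : 0 < o) (hv : ‖v‖ ≤ N.eta C o) :
    ‖JT (h.wts ho) (γ.L0 v)‖ ≤ cc C o * N.eta C o := by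
  have := (h.wts ho).bcf.KJ_pos
  have := h.C0
  refine (u_le h ho v).trans ?_
  unfold cc
  gcongr
  nlinarith

theorem M_le (h : γ.Ok C o) (ho : 0 < o) : ‖JT (ι := ι) (h.wts ho) ∘L γ.L1‖ ≤ cc C o := by
  refine ContinuousLinearMap.opNorm_le_bound _ (cc_pos h ho).le fun f => (norm_JT _ _).trans ?_
  rw [cc, mul_assoc]
  exact mul_le_mul_of_nonneg_left (h.norm_L1 ho f) (h.wts ho).bcf.KJ_pos.le

theorem JT_tri (hw : Wts γ.w γ.om o) (v : (ι → D) × (ι → D)) (f : ι → CL) :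
    JT hw (γ.tri v f) = JT hw (γ.L0 v) + (JT hw ∘L γ.L1) f := map_add _ _ _

theorem JT_lt (h : γ.Ok C o) (ho : 0 < o) (hv : ‖v‖ ≤ N.eta C o) (hf : ‖f‖ ≤ N.eta C o) :
    ‖JT (h.wts ho) (γ.tri v f)‖ < N.r o := by
  rw [JT_tri]
  refine (N.qd (h.wts ho)).arg_lt (cc_pos h ho) (u_le' h ho hv) (M_le h ho) ?_
  have := N.eta_pos h ho
  change _ ≤ 2 * N.eta C o
  linarith

theorem Fx.uniq (h : γ.Ok C o) (ho : 0 < o) (hv : ‖v‖ ≤ N.eta C o) (hf : N.Fx C o γ v f)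
    (hg : N.Fx C o γ v g) : f = g :=
  (N.qd (h.wts ho)).uniq (cc_pos h ho) (u_le' h ho hv) (M_le h ho) hf.1 hg.1
    (by rw [← JT_tri]; exact hf.2 _) (by rw [← JT_tri]; exact hg.2 _)

theorem src_fx (h : γ.Ok C o) (ho : 0 < o) (hv : ‖v‖ ≤ N.eta C o) :
    N.Fx C o γ v (N.src C o γ v) := by
  refine Classical.epsilon_spec ?_
  obtain ⟨f, h1, h2⟩ := ((N.qd (h.wts ho)).ctr (cc_pos h ho) (u_le' h ho hv) (M_le h ho)).exists_fix
    isClosed_closedBall (by norm_num) (by norm_num) ⟨0, mem_closedBall_self (N.eta_pos h ho).le⟩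
  exact ⟨f, mem_closedBall_zero_iff.1 h1, fun _ => by rw [JT_tri]; exact h2⟩

theorem Fx.eq_src (h : γ.Ok C o) (ho : 0 < o) (hv : ‖v‖ ≤ N.eta C o) (hf : N.Fx C o γ v f) :
    f = N.src C o γ v := hf.uniq h ho hv (src_fx h ho hv)

theorem sol_F (N : NL ι) (C o : ℝ) (γ : Pth) (v : (ι → D) × (ι → D)) :
    (N.sol C o γ v).2.2 = N.src C o γ v := γ.tri_F _ _

theorem K2_pos (N : NL ι) (hw : Wts w om o) : 0 < N.K2 o := by
  have := (N.qd hw).K0
  have := hw.bcf.KJ_pos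
  unfold K2; positivity

theorem norm_src (h : γ.Ok C o) (ho : 0 < o) (hv : ‖v‖ ≤ N.eta C o) :
    ‖N.src C o γ v‖ ≤ N.K2 o * ‖v‖ ^ 2 := by
  have h1 := (N.qd (h.wts ho)).fix_le (cc_pos h ho) (u_le' h ho hv) (M_le h ho) (src_fx h ho hv).1
    (by rw [← JT_tri]; exact (src_fx h ho hv).2 _)
  have := (N.qd (h.wts ho)).K0
  have h2 := u_le h ho v
  refine h1.trans ?_
  rw [K2, mul_assoc (2 * N.K0 o), ← mul_pow]
  gcongr

theorem K2_eta (N : NL ι) (h : γ.Ok C o) (ho : 0 < o) :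
    (8 * C + 1) * (N.K2 o * N.eta C o) ≤ 1 / 18 := by
  have h1 : 36 * N.K0 o * cc C o ^ 2 * N.eta C o ≤ 1 := (N.qd (h.wts ho)).eta_le2 (cc_pos h ho)
  have h2 := (N.K2_pos (h.wts ho)).le
  have h3 := (N.eta_pos h ho).le
  have := h.C0
  have h4 : 36 * N.K0 o * cc C o ^ 2 * N.eta C o =
      18 * ((8 * C + 1) * ((8 * C + 1) * (N.K2 o * N.eta C o))) := by unfold K2 cc; ring
  have h5 : (8 * C + 1) * (N.K2 o * N.eta C o) ≤
      (8 * C + 1) * ((8 * C + 1) * (N.K2 o * N.eta C o)) :=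
    le_mul_of_one_le_left (by positivity) (by linarith)
  linarith

/-- the nonlinear part of the solution is quadratically small -/
theorem norm_sol_sub (h : γ.Ok C o) (ho : 0 < o) (hv : ‖v‖ ≤ N.eta C o) :
    ‖N.sol C o γ v - γ.L0 v‖ ≤ (8 * C + 1) * (N.K2 o * ‖v‖ ^ 2) := by
  have := h.C0
  rw [sol, Pth.tri, add_sub_cancel_left]
  exact (h.norm_L1 ho _).trans (mul_le_mul_of_nonneg_left (norm_src h ho hv) (by positivity))

theorem norm_sol (h : γ.Ok C o) (ho : 0 < o) (hv : ‖v‖ ≤ N.eta C o) :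
    ‖N.sol C o γ v‖ ≤ 2 * ‖v‖ := by
  have h1 := norm_sol_sub h ho hv
  have h2 := h.norm_L0 ho v
  have h3 := N.K2_eta h ho
  have h4 := norm_le_norm_add_norm_sub' (N.sol C o γ v) (γ.L0 v)
  have := h.C0
  have h5 := (N.K2_pos (h.wts ho)).le
  have h6 : (8 * C + 1) * (N.K2 o * ‖v‖ ^ 2) ≤ (8 * C + 1) * (N.K2 o * N.eta C o) * ‖v‖ := by
    rw [sq, ← mul_assoc (N.K2 o), ← mul_assoc]
    gcongr
  have h7 := mul_le_mul_of_nonneg_right h3 (norm_nonneg v)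
  linarith [norm_nonneg v]

theorem sol_dat (N : NL ι) (h : γ.Ok C o) (ho : 0 < o) (v : (ι → D) × (ι → D)) :
    Dat γ ((N.sol C o γ v).p γ) ((N.sol C o γ v).q γ) v.1 v.2 := h.dat_tri ho v _

theorem sol_fix (h : γ.Ok C o) (ho : 0 < o) (hv : ‖v‖ ≤ N.eta C o) :
    N.Qh (h.wts ho) (JT (h.wts ho) (N.sol C o γ v)) = (N.sol C o γ v).2.2 := by
  rw [sol_F]; exact (src_fx h ho hv).2 _

theorem src_prp (h : γ.Ok C o) (ho : 0 < o) (hv : ‖v‖ ≤ N.eta C o) (i : ι) :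
    Prp (N.src C o γ v i) := by
  rw [← sol_F]
  exact ((N.fix_iff (S := N.sol C o γ v) (h.wts ho) (JT_lt h ho hv (src_fx h ho hv).1).le).1
    (sol_fix h ho hv)).1 i

theorem sol_sol (h : γ.Ok C o) (ho : 0 < o) (hv : ‖v‖ ≤ N.eta C o) :
    Sol N γ.τ γ.w γ.om (2 * ‖v‖) ((N.sol C o γ v).p γ) ((N.sol C o γ v).q γ)
      ((N.sol C o γ v).F γ) where
  bp i := (h.bd6 ho _).mono ((Tr.norm_p _ i).trans (norm_sol h ho hv))
  bq i := (h.bd6 ho _).mono ((Tr.norm_q _ i).trans (norm_sol h ho hv))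
  bF i := (h.bd4 ho _).mono ((Tr.norm_F _ i).trans (norm_sol h ho hv))
  dp i k x := by
    rw [Tr.p, Tr.F, sol, Pth.tri_p, Pth.tri_F]
    exact (h.ode_sp ho _ _ k).der x
  dq i k x := by
    rw [Tr.q, Tr.F, sol, Pth.tri_q, Pth.tri_F]
    have := (h.ode_sq ho (v.1 i) (N.src C o γ v i) k).der x
    rwa [← sub_eq_add_neg] at this
  eq := ((N.fix_iff (S := N.sol C o γ v) (h.wts ho) (JT_lt h ho hv (src_fx h ho hv).1).le).1
    (sol_fix h ho hv)).2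

end NL

end Crest.Agent.N207.L
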