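import Crest.Agent.N207.J.Glue1
import Mathlib.Analysis.Analytic.Basic

/-!
# Row 207, block L (helper77): POLY, abstract part

`Good E a N g`: `g s = ∑ s^m c + O(s^N)` with `a ≤ m` and `c ∈ E (m - a)`.
-/

set_option autoImplicit false

open Set Filter Asymptotics
open scoped Topology

noncomputable section

namespace Crest.Agent.N207.L

variable {X X' : Type*} [NormedAddCommGroup X] [NormedSpace ℂ X] [NormedAddCommGroup X']
  [NormedSpace ℂ X']

/-- finite expansions with coefficients in a filtration -/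
def Good (E : ℕ → Submodule ℂ X) (a N : ℕ) (g : ℂ → X) : Prop :=
  ∃ (κ : Type) (_ : Fintype κ) (d : κ → ℕ) (c : κ → X), (∀ i, c i ∈ E (d i)) ∧
    (fun s : ℂ => g s - ∑ i, s ^ (d i + a) • c i) =O[𝓝 0] fun s : ℂ => s ^ N

theorem pow_isBigO {m n : ℕ} (h : m ≤ n) : (fun s : ℂ => s ^ n) =O[𝓝 0] fun s : ℂ => s ^ m := by
  rcases h.eq_or_lt with rfl | h
  · exact isBigO_refl _ _
  · exact (isLittleO_pow_pow h).isBigO

theorem sum_isBigO {κ : Type} [Fintype κ] (d : κ → ℕ) (c : κ → X) (a : ℕ) :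
    (fun s : ℂ => ∑ i, s ^ (d i + a) • c i) =O[𝓝 0] fun s : ℂ => s ^ a := by
  refine IsBigO.fun_sum (A := fun i (s : ℂ) => s ^ (d i + a) • c i) fun i _ => ?_
  simpa using (pow_isBigO (Nat.le_add_left a (d i))).smul (isBigO_const_one ℂ (c i) (𝓝 0))

namespace Good

variable {E : ℕ → Submodule ℂ X} {E' : ℕ → Submodule ℂ X'} {a N : ℕ} {g g' : ℂ → X}

theorem of_isBigO (h : Good E a N g) (h' : (fun s => g' s - g s) =O[𝓝 0] fun s : ℂ => s ^ N) :
    Good E a N g' := by
  obtain ⟨κ, _, d, c, h1, h2⟩ := h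
  exact ⟨κ, inferInstance, d, c, h1, (h'.add h2).congr_left fun s => by abel⟩

theorem congr (h : Good E a N g) (h' : g =ᶠ[𝓝 0] g') : Good E a N g' :=
  h.of_isBigO ((isBigO_zero _ _).congr' (h'.mono fun s hs => by simp [hs]) EventuallyEq.rfl)

theorem small (h : g =O[𝓝 0] fun s : ℂ => s ^ N) : Good E a N g :=
  ⟨Empty, inferInstance, fun _ => 0, fun _ => 0, fun _ => zero_mem _, by simpa using h⟩

theorem single {d : ℕ} {c : X} (h : c ∈ E d) : Good E a N fun s => s ^ (d + a) • c :=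
  ⟨Unit, inferInstance, fun _ => d, fun _ => c, fun _ => h, by simpa using isBigO_zero _ _⟩

theorem add (h : Good E a N g) (h' : Good E a N g') : Good E a N fun s => g s + g' s := by
  obtain ⟨κ, _, d, c, h1, h2⟩ := h
  obtain ⟨κ', _, d', c', h1', h2'⟩ := h'
  refine ⟨κ ⊕ κ', inferInstance, Sum.elim d d', Sum.elim c c', ?_,
    (h2.add h2').congr_left fun s => ?_⟩
  · rintro (i | i)
    · exact h1 i
    · exact h1' i
  · simp only [Fintype.sum_sum_type, Sum.elim_inl, Sum.elim_inr]; abel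

theorem sum {ι : Type*} (t : Finset ι) {f : ι → ℂ → X} (hf : ∀ i ∈ t, Good E a N (f i)) :
    Good E a N fun s => ∑ i ∈ t, f i s := by
  classical
  induction t using Finset.induction_on with
  | empty => exact small (by simpa using isBigO_zero _ _)
  | insert i t hi ih =>
    simp only [Finset.sum_insert hi]
    exact (hf i (Finset.mem_insert_self _ _)).add
      (ih fun j hj => hf j (Finset.mem_insert_of_mem hj))

theorem isBigO (h : Good E a N g) (haN : a ≤ N) : g =O[𝓝 0] fun s : ℂ => s ^ a := by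
  obtain ⟨κ, _, d, c, -, h2⟩ := h
  exact ((h2.trans (pow_isBigO haN)).add (sum_isBigO d c a)).congr_left fun s => by abel

/-- a linear map that raises the degree by one -/
theorem clm (h : Good E (a + 1) N g) (A : X →L[ℂ] X') (hA : ∀ d, ∀ x ∈ E d, A x ∈ E' (d + 1)) :
    Good E' a N fun s => A (g s) := by
  obtain ⟨κ, _, d, c, h1, h2⟩ := h
  refine ⟨κ, inferInstance, fun i => d i + 1, fun i => A (c i), fun i => hA _ _ (h1 i),
    ((A.isBigO_comp _ _).trans h2).congr_left fun s => ?_⟩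
  simp [add_assoc, add_comm 1 a]

theorem multi (hE' : Monotone E') (h : Good E 1 (N + 1) g) {n : ℕ}
    (p : ContinuousMultilinearMap ℂ (fun _ : Fin (n + 2) => X) X')
    (hp : ∀ (u : Fin (n + 2) → X) (d : Fin (n + 2) → ℕ), (∀ s, u s ∈ E (d s)) →
      p u ∈ E' (∑ s, d s)) : Good E' 2 (N + 2) fun s => p fun _ => g s := by
  have h0 := h.isBigO (by omega)
  obtain ⟨κ, _, d, c, h1, h2⟩ := h
  refine ⟨Fin (n + 2) → κ, inferInstance, fun I => ∑ s, d (I s) + n, fun I => p fun s => c (I s),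
    fun I => hE' (Nat.le_add_right _ _) (hp _ _ fun s => h1 _), ?_⟩
  set f : ℂ → X := fun s => ∑ i, s ^ (d i + 1) • c i with hf
  have e1 : ∀ s : ℂ, ∑ I : Fin (n + 2) → κ, s ^ (∑ t, d (I t) + n + 2) • p (fun t => c (I t)) =
      p fun _ => f s := fun s => by
    simp only [hf]
    rw [p.map_sum (fun _ i => s ^ (d i + 1) • c i)]
    refine Finset.sum_congr rfl fun I _ => ?_
    rw [p.map_smul_univ, Finset.prod_pow_eq_pow_sum, Finset.sum_add_distrib]
    simp [add_assoc]
  simp only [e1]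
  have h3 : (fun s => max ‖fun _ : Fin (n + 2) => g s‖ ‖fun _ : Fin (n + 2) => f s‖) =O[𝓝 0]
      fun s : ℂ => s ^ 1 := by
    refine IsBigO.trans (IsBigO.of_bound 1 (Eventually.of_forall fun s => ?_))
      (h0.norm_left.add (sum_isBigO d c 1).norm_left)
    rw [pi_norm_const, pi_norm_const, one_mul, Real.norm_of_nonneg (by positivity),
      Real.norm_of_nonneg (by positivity)]
    exact max_le (le_add_of_nonneg_right (norm_nonneg _)) (le_add_of_nonneg_left (norm_nonneg _))
  have h4 := ((h3.pow (n + 1)).norm_right.mul h2.norm_norm).const_mul_left (‖p‖ * (n + 2))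
  refine IsBigO.trans (IsBigO.of_bound 1 (Eventually.of_forall fun s => ?_)) (h4.trans ?_)
  · refine (p.norm_image_sub_le _ _).trans ?_
    have e2 : ‖(fun _ : Fin (n + 2) => g s) - fun _ => f s‖ = ‖g s - f s‖ := pi_norm_const _
    rw [one_mul, Real.norm_of_nonneg (by positivity), e2, Fintype.card_fin]
    push_cast
    exact le_of_eq (mul_assoc _ _ _)
  · refine IsBigO.trans ?_ (pow_isBigO (m := N + 2) (n := n + 1 + (N + 1)) (by omega))
    exact IsBigO.of_bound 1 (Eventually.of_forall fun s => by simp [pow_add])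

/-- analytic maps of order two -/
theorem analytic (hE' : Monotone E') (h : Good E 1 (N + 1) g) {Q : X → X'}
    {p : FormalMultilinearSeries ℂ X X'} (hQ : HasFPowerSeriesAt Q p 0) (h0 : p 0 = 0)
    (h1 : p 1 = 0) (hp : ∀ n (u : Fin n → X) (d : Fin n → ℕ), (∀ s, u s ∈ E (d s)) →
      p n u ∈ E' (∑ s, d s)) : Good E' 2 (N + 2) fun s => Q (g s) := by
  have hg := h.isBigO (by omega)
  have h2 : Good E' 2 (N + 2) fun s => p.partialSum (N + 2) (g s) := by
    refine sum _ fun n _ => ?_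
    match n with
    | 0 => exact small (by simpa [h0] using isBigO_zero _ _)
    | 1 => exact small (by simpa [h1] using isBigO_zero _ _)
    | n + 2 => exact h.multi hE' _ (hp _)
  refine h2.of_isBigO ?_
  have h3 : Tendsto g (𝓝 0) (𝓝 0) := hg.trans_tendsto (by simp only [pow_one]; exact tendsto_id)
  have h4 := (hQ.isBigO_sub_partialSum_pow (N + 2)).comp_tendsto h3
  refine (h4.congr_left fun s => by simp).trans ?_
  exact ((hg.norm_norm.pow (N + 2)).congr_right (fun s => by simp)).of_norm_right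

/-- killing the low degrees -/
theorem kill (h : Good E a N g) (A : X →L[ℂ] X') (hA : ∀ d, d + a < N → ∀ x ∈ E d, A x = 0) :
    (fun s => A (g s)) =O[𝓝 0] fun s : ℂ => s ^ N := by
  obtain ⟨κ, _, d, c, h1, h2⟩ := h
  have h3 : (fun s : ℂ => A (∑ i, s ^ (d i + a) • c i)) =O[𝓝 0] fun s : ℂ => s ^ N := by
    simp only [map_sum, map_smul]
    refine IsBigO.fun_sum (A := fun i (s : ℂ) => s ^ (d i + a) • A (c i)) fun i _ => ?_
    rcases lt_or_ge (d i + a) N with h4 | h4
    · simpa [hA _ h4 _ (h1 i)] using isBigO_zero _ _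
    · simpa using (pow_isBigO h4).smul (isBigO_const_one ℂ (A (c i)) (𝓝 0))
  exact (((A.isBigO_comp _ _).trans h2).add h3).congr_left fun s => by simp

end Good

/-- **the fixed point is good to every order** -/
theorem good_fix {E : ℕ → Submodule ℂ X} {E' : ℕ → Submodule ℂ X'} (hE' : Monotone E')
    {Q : X → X'} {p : FormalMultilinearSeries ℂ X X'} (hQ : HasFPowerSeriesAt Q p 0) (h0 : p 0 = 0)
    (h1 : p 1 = 0) (hp : ∀ n (u : Fin n → X) (d : Fin n → ℕ), (∀ s, u s ∈ E (d s)) →
      p n u ∈ E' (∑ s, d s)) {u0 : X} (hu0 : u0 ∈ E 0) (J : X' →L[ℂ] X)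
    (hJ : ∀ d, ∀ x ∈ E' d, J x ∈ E (d + 1)) {f : ℂ → X'} (hf : f =O[𝓝 0] fun s : ℂ => s)
    (hfix : ∀ᶠ s in 𝓝 (0 : ℂ), Q (s • u0 + J (f s)) = f s) (N : ℕ) : Good E' 2 (N + 1) f := by
  induction N with
  | zero => exact Good.small (by simpa using hf)
  | succ N ih =>
    have h2 : Good E 1 (N + 1) fun s => s • u0 + J (f s) :=
      Good.add (by simpa using Good.single (a := 1) (N := N + 1) hu0) (ih.clm J hJ)
    exact (h2.analytic hE' hQ h0 h1 hp).congr hfix

end Crest.Agent.N207.L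

end
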