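import Crest.Agent.N207.L.Pol1
import Crest.Agent.N207.J.As1

/-!
# Row 207, block L (helper77): POLY, exponential polynomials and the time layer
-/

set_option autoImplicit false
set_option linter.unusedSectionVars false

open Set Filter Complex
open scoped Topology

noncomputable section

namespace Crest.Agent.N207.L

open Crest.Agent.N207.J

variable {ι : Type} (ν : ι → ℂ)

/-- `e^{mt} t^i ν^j`, `i + j ≤ d` -/
def EP (d : ℕ) : Submodule ℂ (ι → ℂ → ℂ) :=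
  Submodule.span ℂ {F | ∃ (m : ℤ) (i j : ℕ), i + j ≤ d ∧ F = fun n t => exp (m * t) * t ^ i * ν n ^ j}

/-- polynomials in `ν` -/
def PN (d : ℕ) : Submodule ℂ (ι → ℂ) := Submodule.span ℂ {F | ∃ j ≤ d, F = fun n => ν n ^ j}

variable {ν}

theorem EP_gen (m : ℤ) {i j d : ℕ} (h : i + j ≤ d) :
    (fun n t => exp (m * t) * t ^ i * ν n ^ j) ∈ EP ν d := Submodule.subset_span ⟨m, i, j, h, rfl⟩

theorem EP_mono : Monotone (EP ν) := fun _ _ h =>
  Submodule.span_mono fun _ ⟨m, i, j, h1, h2⟩ => ⟨m, i, j, h1.trans h, h2⟩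

theorem EP_mul {d e : ℕ} {F G : ι → ℂ → ℂ} (hF : F ∈ EP ν d) (hG : G ∈ EP ν e) :
    F * G ∈ EP ν (d + e) := by
  induction hF using Submodule.span_induction with
  | zero => simp
  | add _ _ _ _ h1 h2 => rw [add_mul]; exact add_mem h1 h2
  | smul c _ _ h1 => rw [smul_mul_assoc]; exact Submodule.smul_mem _ c h1
  | mem F hF =>
    induction hG using Submodule.span_induction with
    | zero => simp
    | add _ _ _ _ h1 h2 => rw [mul_add]; exact add_mem h1 h2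
    | smul c _ _ h1 => rw [mul_smul_comm]; exact Submodule.smul_mem _ c h1
    | mem G hG =>
      obtain ⟨m, i, j, h1, rfl⟩ := hF
      obtain ⟨m', i', j', h1', rfl⟩ := hG
      convert EP_gen (ν := ν) (m + m') (i := i + i') (j := j + j') (d := d + e) (by omega) using 1
      funext n t
      simp only [Pi.mul_apply, Int.cast_add, add_mul, exp_add]; ring

theorem EP_exp (m : ℤ) : (fun _ t => exp (m * t)) ∈ EP ν 0 := by
  simpa using EP_gen (ν := ν) m (i := 0) (j := 0) (d := 0) le_rfl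

theorem EP_exp_mul (m : ℤ) {d : ℕ} {F : ι → ℂ → ℂ} (hF : F ∈ EP ν d) :
    (fun n t => exp (m * t) * F n t) ∈ EP ν d := by
  have := EP_mul (EP_exp m) hF
  rw [zero_add] at this
  exact this

theorem EP_cont {d : ℕ} {F : ι → ℂ → ℂ} (hF : F ∈ EP ν d) (n : ι) : Continuous (F n) := by
  induction hF using Submodule.span_induction with
  | zero => exact continuous_const
  | add _ _ _ _ h1 h2 => exact h1.add h2
  | smul c _ _ h1 => exact h1.const_smul c
  | mem F hF => obtain ⟨m, i, j, -, rfl⟩ := hF; fun_prop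

theorem anti_gen (m : ℤ) (i j : ℕ) : ∃ Φ : ℂ → ℂ, (fun n t => Φ t * ν n ^ j) ∈ EP ν (i + j + 1) ∧
    ∀ t, HasDerivAt Φ (exp (m * t) * t ^ i) t := by
  by_cases hm : m = 0
  · subst hm
    refine ⟨fun t => t ^ (i + 1) / (i + 1), ?_, fun t => ?_⟩
    · convert Submodule.smul_mem _ ((i + 1 : ℂ)⁻¹)
        (EP_gen (ν := ν) 0 (i := i + 1) (j := j) (d := i + j + 1) (by omega)) using 1
      funext n t; simp; ring
    · have h0 : (i + 1 : ℂ) ≠ 0 := by exact_mod_cast Nat.succ_ne_zero i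
      refine ((hasDerivAt_pow (i + 1) t).div_const (i + 1 : ℂ)).congr_deriv ?_
      simp; field_simp
  have h0 : (m : ℂ) ≠ 0 := by exact_mod_cast hm
  have hE : ∀ t, HasDerivAt (fun t => exp (m * t)) (exp (m * t) * m) t := fun t => by
    simpa using ((hasDerivAt_id t).const_mul (m : ℂ)).cexp
  induction i with
  | zero =>
    refine ⟨fun t => exp (m * t) / m, ?_, fun t => ?_⟩
    · convert Submodule.smul_mem _ ((m : ℂ)⁻¹)
        (EP_gen (ν := ν) m (i := 0) (j := j) (d := 0 + j + 1) (by omega)) using 1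
      funext n t; simp; ring
    · refine ((hE t).div_const (m : ℂ)).congr_deriv ?_
      field_simp
  | succ i ih =>
    obtain ⟨Φ, h1, h2⟩ := ih
    refine ⟨fun t => (exp (m * t) * t ^ (i + 1) - (i + 1) * Φ t) / m, ?_, fun t => ?_⟩
    · convert Submodule.smul_mem _ ((m : ℂ)⁻¹) (sub_mem
        (EP_gen (ν := ν) m (i := i + 1) (j := j) (d := i + 1 + j + 1) (by omega))
        (Submodule.smul_mem _ (i + 1 : ℂ) (EP_mono (by omega) h1))) using 1
      funext n t; simp; ring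
    · refine ((((hE t).mul (hasDerivAt_pow (i + 1) t)).sub
        ((h2 t).const_mul (i + 1 : ℂ))).div_const (m : ℂ)).congr_deriv ?_
      simp; field_simp; ring

theorem EP_anti {d : ℕ} {F : ι → ℂ → ℂ} (hF : F ∈ EP ν d) :
    ∃ Φ ∈ EP ν (d + 1), ∀ n t, HasDerivAt (Φ n) (F n t) t := by
  induction hF using Submodule.span_induction with
  | zero => exact ⟨0, zero_mem _, fun n t => hasDerivAt_const _ _⟩
  | add _ _ _ _ h1 h2 =>
    obtain ⟨Φ, h1, h3⟩ := h1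
    obtain ⟨Ψ, h2, h4⟩ := h2
    exact ⟨Φ + Ψ, add_mem h1 h2, fun n t => (h3 n t).add (h4 n t)⟩
  | smul c _ _ h1 =>
    obtain ⟨Φ, h1, h3⟩ := h1
    exact ⟨c • Φ, Submodule.smul_mem _ c h1, fun n t => (h3 n t).const_mul c⟩
  | mem F hF =>
    obtain ⟨m, i, j, h1, rfl⟩ := hF
    obtain ⟨Φ, h2, h3⟩ := anti_gen (ν := ν) m i j
    exact ⟨_, EP_mono (by omega) h2, fun n t => (h3 t).mul_const _⟩

/-- end values `α + β ν` with `e^{m β ν} = 1` -/
def Per (ν : ι → ℂ) (a : ι → ℂ) : Prop :=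
  ∃ α β : ℂ, (∀ n, a n = α + β * ν n) ∧ ∀ n, exp (β * ν n) = 1

theorem EP_eval {a : ι → ℂ} (ha : Per ν a) {d : ℕ} {F : ι → ℂ → ℂ} (hF : F ∈ EP ν d) :
    (fun n => F n (a n)) ∈ PN ν d := by
  obtain ⟨α, β, h1, h2⟩ := ha
  induction hF using Submodule.span_induction with
  | zero => exact zero_mem _
  | add _ _ _ _ h3 h4 => exact add_mem h3 h4
  | smul c _ _ h3 => exact Submodule.smul_mem _ c h3
  | mem F hF =>
    obtain ⟨m, i, j, h3, rfl⟩ := hF
    have e : (fun n => exp (m * a n) * a n ^ i * ν n ^ j) = ∑ l ∈ Finset.range (i + 1),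
        (exp (m * α) * β ^ l * α ^ (i - l) * (i.choose l : ℂ)) • fun n => ν n ^ (l + j) := by
      funext n
      have : exp (m * a n) = exp (m * α) := by
        rw [h1, mul_add, exp_add, exp_int_mul (β * ν n), h2, one_zpow, mul_one]
      rw [this, h1, add_comm α, add_pow, Finset.mul_sum, Finset.sum_mul, Finset.sum_apply]
      refine Finset.sum_congr rfl fun l _ => ?_
      simp only [Pi.smul_apply, smul_eq_mul]; ring
    simp only [e]
    refine Submodule.sum_mem _ fun l hl => Submodule.smul_mem _ _ (Submodule.subset_span ⟨_, ?_, rfl⟩)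
    have := Finset.mem_range.1 hl
    omega

theorem PN_EP {d : ℕ} {F : ι → ℂ} (hF : F ∈ PN ν d) : (fun n _ => F n) ∈ EP ν d := by
  induction hF using Submodule.span_induction with
  | zero => exact zero_mem _
  | add _ _ _ _ h3 h4 => exact add_mem h3 h4
  | smul c _ _ h3 => exact Submodule.smul_mem _ c h3
  | mem F hF =>
    obtain ⟨j, h, rfl⟩ := hF
    simpa using EP_gen (ν := ν) 0 (i := 0) (j := j) (d := d) (by omega)

theorem PN_kill [Fintype ι] {c : ι → ℂ} {d : ℕ} (hc : ∀ j ≤ d, ∑ n, c n * ν n ^ j = 0)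
    {F : ι → ℂ} (hF : F ∈ PN ν d) : ∑ n, c n * F n = 0 := by
  induction hF using Submodule.span_induction with
  | zero => simp
  | add _ _ _ _ h3 h4 => simp [mul_add, Finset.sum_add_distrib, h3, h4]
  | smul a _ _ h3 => simp [mul_left_comm _ a, ← Finset.mul_sum, h3]
  | mem F hF => obtain ⟨j, h, rfl⟩ := hF; exact hc j h

/-! ### the time layer -/

variable {Pt F F' F'' : Type} [NormedAddCommGroup F] [NormedSpace ℂ F] [NormedAddCommGroup F']
  [NormedSpace ℂ F'] [NormedAddCommGroup F''] [NormedSpace ℂ F''] [Fintype ι]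

/-- closed span of the families with values `Φ n (γ n p) • v` -/
def TS (ν : ι → ℂ) (γ : ι → Pt → ℂ) (ev : Pt → F →L[ℂ] H) (d : ℕ) : Submodule ℂ (ι → F) :=
  (Submodule.span ℂ {g | ∃ Φ ∈ EP ν d, ∃ v : H, ∀ n p, ev p (g n) = Φ n (γ n p) • v}).topologicalClosure

variable {γ : ι → Pt → ℂ} {ev : Pt → F →L[ℂ] H} {ev' : Pt → F' →L[ℂ] H} {ev'' : Pt → F'' →L[ℂ] H}

theorem TS_gen {d : ℕ} {g : ι → F} {Φ : ι → ℂ → ℂ} (h : Φ ∈ EP ν d) {v : H}
    (hg : ∀ n p, ev p (g n) = Φ n (γ n p) • v) : g ∈ TS ν γ ev d :=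
  Submodule.le_topologicalClosure _ (Submodule.subset_span ⟨Φ, h, v, hg⟩)

theorem TS_closed (d : ℕ) : IsClosed (TS ν γ ev d : Set (ι → F)) :=
  Submodule.isClosed_topologicalClosure _

theorem TS_mono : Monotone (TS ν γ ev) := fun _ _ h => Submodule.topologicalClosure_mono
  (Submodule.span_mono fun _ ⟨Φ, h1, h2⟩ => ⟨Φ, EP_mono h h1, h2⟩)

theorem TS_ind {d : ℕ} {W : Type*} [NormedAddCommGroup W] [NormedSpace ℂ W]
    (A : (ι → F) →L[ℂ] W) {S : Submodule ℂ W} (hS : IsClosed (S : Set W))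
    (h : ∀ g, ∀ Φ ∈ EP ν d, ∀ v : H, (∀ n p, ev p (g n) = Φ n (γ n p) • v) → A g ∈ S)
    {g : ι → F} (hg : g ∈ TS ν γ ev d) : A g ∈ S :=
  Submodule.topologicalClosure_minimal (t := S.comap A.toLinearMap) _
    (Submodule.span_le.2 fun g hg => by
      obtain ⟨Φ, h1, v, h2⟩ := hg
      exact h g Φ h1 v h2) (hS.preimage A.continuous) hg

/-- `n`-dependent linear maps -/
theorem TS_lin {d e : ℕ} (A : ι → F →L[ℂ] F')
    (h : ∀ (g : ι → F), ∀ Φ ∈ EP ν d, ∀ v : H, (∀ n p, ev p (g n) = Φ n (γ n p) • v) →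
      ∃ Ψ ∈ EP ν e, ∃ w : H, ∀ n p, ev' p (A n (g n)) = Ψ n (γ n p) • w)
    {g : ι → F} (hg : g ∈ TS ν γ ev d) : (fun n => A n (g n)) ∈ TS ν γ ev' e :=
  TS_ind (ContinuousLinearMap.pi fun n => A n ∘L ContinuousLinearMap.proj n) (TS_closed e)
    (fun g Φ h1 v h2 => by
      obtain ⟨Ψ, h3, w, h4⟩ := h g Φ h1 v h2
      exact TS_gen h3 h4) hg

theorem TS_map {d : ℕ} (A : F →L[ℂ] F') (B : H →L[ℂ] H) (h : ∀ f p, ev' p (A f) = B (ev p f))
    {g : ι → F} (hg : g ∈ TS ν γ ev d) : (fun n => A (g n)) ∈ TS ν γ ev' d :=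
  TS_lin (fun _ => A) (fun g Φ h1 v h2 => ⟨Φ, h1, B v, fun n p => by rw [h, h2, map_smul]⟩) hg

theorem TS_bil {d e : ℕ} (A : F →L[ℂ] F' →L[ℂ] F'') (B : H →L[ℂ] H →L[ℂ] H)
    (h : ∀ f g p, ev'' p (A f g) = B (ev p f) (ev' p g)) {f : ι → F} {g : ι → F'}
    (hf : f ∈ TS ν γ ev d) (hg : g ∈ TS ν γ ev' e) :
    (fun n => A (f n) (g n)) ∈ TS ν γ ev'' (d + e) := by
  refine TS_ind (ContinuousLinearMap.pi fun n => A.flip (g n) ∘L ContinuousLinearMap.proj n)
    (TS_closed _) (fun f Φ h1 v h2 => ?_) hf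
  refine TS_lin (fun n => A (f n)) (fun g Ψ h3 w h4 => ⟨Φ * Ψ, EP_mul h1 h3, B v w, fun n p => ?_⟩) hg
  rw [h, h2, h4]
  simp [smul_smul, mul_comm]

theorem TS_kill {c : ι → ℂ} {d : ℕ} (hc : ∀ j ≤ d, ∑ n, c n * ν n ^ j = 0) {p : Pt}
    (hp : Per ν fun n => γ n p) {g : ι → F} (hg : g ∈ TS ν γ ev d) :
    ∑ n, c n • ev p (g n) = 0 := by
  have := TS_ind (∑ n, c n • (ev p ∘L ContinuousLinearMap.proj n)) (S := ⊥) isClosed_singleton
    (fun g Φ h1 v h2 => ?_) hg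
  · simpa using this
  · simp [h2, smul_smul, ← Finset.sum_smul, PN_kill hc (EP_eval hp h1)]

/-- the meaning of a Green operator `∫_a^t e^{m (t - u)} · du` along a path -/
def IsG (γ : Pt → ℂ) (ev : Pt → F →L[ℂ] H) (ev' : Pt → F' →L[ℂ] H) (m : ℤ) (a σ : ℂ)
    (A : F →L[ℂ] F') : Prop :=
  ∀ φ Φ : ℂ → ℂ, Continuous φ → (∀ t, HasDerivAt Φ (φ t) t) → ∀ (f : F) (v : H),
    (∀ p, ev p f = (exp (m * γ p) * φ (γ p)) • v) →
      ∀ p, ev' p (A f) = (σ * (exp (m * γ p) * (Φ (γ p) - Φ a))) • v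

theorem TS_G {d : ℕ} {m : ℤ} {a : ι → ℂ} {σ : ℂ} (ha : Per ν a) (A : ι → F →L[ℂ] F')
    (hA : ∀ n, IsG (γ n) ev ev' m (a n) σ (A n)) {g : ι → F} (hg : g ∈ TS ν γ ev d) :
    (fun n => A n (g n)) ∈ TS ν γ ev' (d + 1) := by
  refine TS_lin A (fun g φ h1 v h2 => ?_) hg
  have h3 := EP_exp_mul (-m) h1
  obtain ⟨Φ, h4, h5⟩ := EP_anti h3
  refine ⟨_, Submodule.smul_mem _ σ (EP_exp_mul m (sub_mem h4 (PN_EP (EP_eval ha h4)))), v,
    fun n p => hA n _ _ (EP_cont h3 n) (h5 n) _ v (fun p => ?_) p⟩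
  rw [h2, ← mul_assoc, ← exp_add]; simp

theorem TS_free {m : ℤ} {σ : ℂ} {g : ι → F} {v : H}
    (h : ∀ n p, ev p (g n) = (σ * exp (m * γ n p)) • v) : g ∈ TS ν γ ev 0 :=
  TS_gen (Submodule.smul_mem _ σ (EP_exp m)) h

end Crest.Agent.N207.L

end
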