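import Crest.Agent.N207.L.Pol1
import Crest.Agent.N207.L.Sup

/-!
# Row 207, block L (helper77): POLY, the superposition operator
-/

set_option autoImplicit false
set_option linter.unusedSectionVars false

open Set Filter Asymptotics
open scoped Topology

noncomputable section

namespace Crest.Agent.N207.L

section
variable {X X' X'' : Type*} [NormedAddCommGroup X] [NormedSpace ℂ X] [NormedAddCommGroup X']
  [NormedSpace ℂ X'] [NormedAddCommGroup X''] [NormedSpace ℂ X'']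
  {E : ℕ → Submodule ℂ X} {E' : ℕ → Submodule ℂ X'} {E'' : ℕ → Submodule ℂ X''} {a b N : ℕ}
  {g : ℂ → X} {g' : ℂ → X'}

theorem Good.clm0 (h : Good E a N g) (A : X →L[ℂ] X') (hA : ∀ d, ∀ x ∈ E d, A x ∈ E' d) :
    Good E' a N fun s => A (g s) := by
  obtain ⟨κ, _, d, c, h1, h2⟩ := h
  exact ⟨κ, inferInstance, d, fun i => A (c i), fun i => hA _ _ (h1 i),
    ((A.isBigO_comp _ _).trans h2).congr_left fun s => by simp⟩

theorem Good.smul (h : Good E a N g) (c : ℂ) : Good E a N fun s => c • g s :=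
  h.clm0 (c • ContinuousLinearMap.id ℂ X) fun _ _ hx => Submodule.smul_mem _ c hx

theorem Good.lower (hE : Monotone E) {r : ℕ} (h : Good E (r + a) (N + r) g) : Good E a N g := by
  obtain ⟨κ, _, d, c, h1, h2⟩ := h
  exact ⟨κ, inferInstance, fun i => d i + r, c, fun i => hE (Nat.le_add_right _ _) (h1 i),
    (h2.trans (pow_isBigO (Nat.le_add_right _ _))).congr_left fun s => by simp [add_assoc]⟩

theorem Good.bil (h : Good E a (N + a) g) (h' : Good E' b (N + b) g') (B : X →L[ℂ] X' →L[ℂ] X'')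
    (hB : ∀ d e, ∀ x ∈ E d, ∀ y ∈ E' e, B x y ∈ E'' (d + e)) :
    Good E'' (a + b) (N + (a + b)) fun s => B (g s) (g' s) := by
  have h0 := h'.isBigO (Nat.le_add_left _ _)
  obtain ⟨κ, _, d, c, h1, h2⟩ := h
  obtain ⟨κ', _, d', c', h1', h2'⟩ := h'
  refine ⟨κ × κ', inferInstance, fun i => d i.1 + d' i.2, fun i => B (c i.1) (c' i.2),
    fun i => hB _ _ _ (h1 _) _ (h1' _), ?_⟩
  have h3 := (B.isBigO_comp _ _ |>.trans h2).norm_norm.mul h0.norm_norm
  have h4 := (B.isBigO_comp _ _ |>.trans (sum_isBigO d c a)).norm_norm.mul h2'.norm_norm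
  have h5 := (h3.congr_right (g₂ := fun s : ℂ => ‖s ^ (N + (a + b))‖) fun s => by
    rw [← norm_mul, ← pow_add, add_assoc]).add
      (h4.congr_right fun s => by rw [← norm_mul, ← pow_add]; congr 2; ring)
  refine IsBigO.trans (IsBigO.of_bound 1 (Eventually.of_forall fun s => ?_)) h5.of_norm_right
  have e : B (g s) (g' s) - ∑ i : κ × κ', s ^ (d i.1 + d' i.2 + (a + b)) • B (c i.1) (c' i.2) =
      B (g s - ∑ i, s ^ (d i + a) • c i) (g' s) +
        B (∑ i, s ^ (d i + a) • c i) (g' s - ∑ i, s ^ (d' i + b) • c' i) := by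
    have : ∑ i : κ × κ', s ^ (d i.1 + d' i.2 + (a + b)) • B (c i.1) (c' i.2) =
        B (∑ i, s ^ (d i + a) • c i) (∑ i, s ^ (d' i + b) • c' i) := by
      rw [Fintype.sum_prod_type, map_sum B, sum_apply]
      refine Finset.sum_congr rfl fun i _ => ?_
      rw [map_sum]
      refine Finset.sum_congr rfl fun j _ => ?_
      simp only [map_smul, smul_apply, smul_smul, ← pow_add]
      congr 2; ring
    rw [this]
    simp only [map_sub, sub_apply]; abel
  rw [e, one_mul, Real.norm_of_nonneg (by positivity)]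
  exact (norm_add_le _ _).trans (add_le_add ((B _).le_opNorm _) ((B _).le_opNorm _))

end

variable {A1 A2 : Type} [NormedAddCommGroup A1] [NormedSpace ℂ A1] [NormedAddCommGroup A2]
  [NormedSpace ℂ A2]

namespace Alg

/-- filtrations compatible with the product and the inclusion -/
structure Filt (𝒜 : Alg A1 A2) (E : ℕ → Submodule ℂ A1) (E' : ℕ → Submodule ℂ A2) : Prop where
  mono : Monotone E'
  mul : ∀ d e, ∀ x ∈ E d, ∀ y ∈ E e, 𝒜.mul x y ∈ E' (d + e)
  inc : ∀ d, ∀ x ∈ E' d, 𝒜.inc x ∈ E d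

variable {𝒜 : Alg A1 A2} {E : ℕ → Submodule ℂ A1} {E' : ℕ → Submodule ℂ A2} {β : ℝ} {N : ℕ}

theorem Filt.prd (h : 𝒜.Filt E E') : ∀ (r : ℕ) (a : ℂ → Fin (r + 2) → A1),
    (∀ j, Good E 1 (N + 1) fun s => a s j) → Good E' (r + 2) (N + (r + 2)) fun s => 𝒜.prd r (a s)
  | 0, _, ha => (ha 0).bil (ha 1) 𝒜.mul h.mul
  | r + 1, a, ha => by
    have := (ha 0).bil ((Filt.prd h r (fun s j => a s j.succ) fun _ => ha _).clm0 𝒜.inc h.inc)
      𝒜.mul h.mul
    rw [show 1 + (r + 2) = r + 1 + 2 by ring] at this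
    exact this

variable {κ ι : Type} [Fintype κ] [Fintype ι] [DecidableEq κ] {Q : (κ → ℂ) → ι → ℂ}
  [CompleteSpace A2]

theorem norm_Qh_sub (h : 𝒜.Bnd β) (S : Ser Q) {J : κ → A1} (hJ : ‖J‖ ≤ rad S β / 2) (N : ℕ) :
    ‖𝒜.Qh S J - ∑ r ∈ Finset.range N, 𝒜.term S r J‖ ≤
      2 * S.K / rad S β ^ (N + 2) * ‖J‖ ^ (N + 2) := by
  have hr := rad_pos S h.one_le
  have hK := S.K0
  have h1 := (hasSum_nat_add_iff' N).2 (hasSum_Qh h S hJ)
  rw [← h1.tsum_eq]
  refine (tsum_of_norm_bounded (hasSum_geometric_two.mul_left (S.K * (‖J‖ / rad S β) ^ (N + 2)))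
    fun r => (norm_term h S _ J).trans ?_).trans (le_of_eq (by rw [div_pow]; ring))
  have h2 : ‖J‖ / rad S β ≤ 1 / 2 := by rw [div_le_iff₀ hr]; linarith
  rw [show r + N + 2 = N + 2 + r by ring, pow_add, ← mul_assoc]
  gcongr

theorem Filt.Qh (h : 𝒜.Filt E E') (hβ : 𝒜.Bnd β) (S : Ser Q) {J : ℂ → κ → A1}
    (hJ : ∀ m, Good E 1 (N + 1) fun s => J s m) (i : ι) :
    Good E' 2 (N + 2) fun s => 𝒜.Qh S (J s) i := by
  have h1 : J =O[𝓝 0] fun s : ℂ => s ^ 1 := isBigO_pi.2 fun m => (hJ m).isBigO (by omega)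
  have h2 : Good E' 2 (N + 2) fun s => (∑ r ∈ Finset.range N, 𝒜.term S r (J s)) i := by
    simp only [Finset.sum_apply, term]
    refine Good.sum _ fun r _ => Good.sum _ fun α _ => Good.smul ?_ _
    refine Good.lower (r := r) h.mono ?_
    rw [show N + 2 + r = N + (r + 2) by ring]
    exact h.prd r (fun s j => J s (α j)) fun _ => hJ _
  refine h2.of_isBigO (IsBigO.trans (IsBigO.of_bound (2 * S.K / rad S β ^ (N + 2)) ?_)
    ((h1.norm_norm.pow (N + 2)).congr_right (fun s => by simp)).of_norm_right)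
  have h3 : Tendsto J (𝓝 0) (𝓝 0) := h1.trans_tendsto (by simp only [pow_one]; exact tendsto_id)
  filter_upwards [h3.eventually (Metric.closedBall_mem_nhds 0 (half_pos (rad_pos S hβ.one_le)))]
    with s hs
  rw [Real.norm_of_nonneg (by positivity)]
  exact (norm_le_pi_norm (_ - _ : ι → A2) i).trans
    (norm_Qh_sub hβ S (mem_closedBall_zero_iff.1 hs) N)

/-- **the fixed point is good to every order** -/
theorem Filt.fix (h : 𝒜.Filt E E') (hβ : 𝒜.Bnd β) (S : Ser Q) {u0 : κ → A1}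
    (hu0 : ∀ m, u0 m ∈ E 0) (cp : κ → ι) (J : κ → A2 →L[ℂ] A1)
    (hJ : ∀ m d, ∀ x ∈ E' d, J m x ∈ E (d + 1)) {f : ℂ → ι → A2} (hf : f =O[𝓝 0] fun s : ℂ => s)
    (hfix : ∀ᶠ s in 𝓝 (0 : ℂ), 𝒜.Qh S (fun m => s • u0 m + J m (f s (cp m))) = f s) (N : ℕ) (i : ι) :
    Good E' 2 (N + 1) fun s => f s i := by
  induction N generalizing i with
  | zero => exact Good.small (by simpa using isBigO_pi.1 hf i)
  | succ N ih =>
    refine (h.Qh hβ S (J := fun s m => s • u0 m + J m (f s (cp m))) (fun m => ?_) i).congr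
      (hfix.mono fun s hs => congrFun hs i)
    exact Good.add (by simpa using Good.single (a := 1) (N := N + 1) (hu0 m))
      ((ih _).clm (J m) (hJ m))

/-- finite powers -/
def pi (𝒜 : Alg A1 A2) (ν : Type) [Fintype ν] : Alg (ν → A1) (ν → A2) where
  mul := (ContinuousLinearMap.piEquivL ℂ (ν → A1) fun _ : ν => A2).toContinuousLinearMap ∘L
    ContinuousLinearMap.pi fun n =>
      𝒜.mul.bilinearComp (ContinuousLinearMap.proj n) (ContinuousLinearMap.proj n)
  inc := ContinuousLinearMap.pi fun n => 𝒜.inc ∘L ContinuousLinearMap.proj n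

variable {ν : Type} [Fintype ν]

theorem pi_mul (x y : ν → A1) (n : ν) : (𝒜.pi ν).mul x y n = 𝒜.mul (x n) (y n) := rfl

theorem pi_inc (x : ν → A2) (n : ν) : (𝒜.pi ν).inc x n = 𝒜.inc (x n) := rfl

theorem Bnd.pi (h : 𝒜.Bnd β) : (𝒜.pi ν).Bnd β := by
  have h1 := h.one_le
  refine ⟨h1, fun x y => (pi_norm_le_iff_of_nonneg (by positivity)).2 fun n => ?_,
    fun x => (pi_norm_le_iff_of_nonneg (by positivity)).2 fun n => ?_⟩
  · refine (h.mul_le _ _).trans ?_
    gcongr <;> exact norm_le_pi_norm _ n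
  · refine (h.inc_le _).trans ?_
    gcongr; exact norm_le_pi_norm _ n

theorem pi_Qh (h : 𝒜.Bnd β) (S : Ser Q) {J : κ → ν → A1} (hJ : ‖J‖ ≤ rad S β / 2) (i : ι) (n : ν) :
    (𝒜.pi ν).Qh S J i n = 𝒜.Qh S (fun m => J m n) i :=
  Hom.Qh (φ1 := ContinuousLinearMap.proj n) (φ2 := ContinuousLinearMap.proj n)
    ⟨fun _ _ => rfl, fun _ => rfl⟩ h.pi S hJ i

end Alg

end Crest.Agent.N207.L

end
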