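import Crest.Agent.N207.L.Pol2
import Crest.Agent.N207.L.Gr2
import Crest.Agent.N207.J.As2

/-!
# Row 207, block L (helper77): POLY, the Green operators of a path, and the
filtrations of the sequence spaces
-/

set_option autoImplicit false
set_option linter.unusedSectionVars false

open Set Filter Complex MeasureTheory BoundedContinuousFunction
open scoped Topology

noncomputable section

namespace Crest.Agent.N207.L

open Crest.Agent.N207.J

namespace Pth.Ok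

variable {γ : Pth} {C o : ℝ} {ev ev' : ℝ → BH →L[ℂ] H}

theorem ode_anti (h : γ.Ok C o) (m σ c : ℂ) {φ Φ : ℂ → ℂ} (hΦ : ∀ t, HasDerivAt Φ (φ t) t) (v : H) :
    Ode γ.τ m (fun x => σ • (exp (m * γ.t x) * φ (γ.t x)) • v)
      fun x => (σ * (exp (m * γ.t x) * (Φ (γ.t x) - c))) • v := by
  have hc : Continuous Φ := continuous_iff_continuousAt.2 fun t => (hΦ t).continuousAt
  have := h.cont
  refine ⟨by fun_prop, fun x => ?_⟩
  refine ((((h.der_exp m x).mul (((hΦ _).comp_hasDerivWithinAt x (h.der x)).sub_const c)).const_mul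
    σ).smul_const v).congr_deriv ?_
  simp only [smul_smul, ← add_smul, Function.comp_apply]
  congr 1; ring

theorem isG_gm (h : γ.Ok C o) (h0 : 0 < o) {k : ℕ} {c : ℂ} (hc : c ≠ 0)
    (hev : ∀ x f, c • ev x f = γ.tw 2 k x • f x) (hev' : ∀ x f, c • ev' x f = γ.tw 1 k x • f x) :
    IsG γ.t ev ev' (-(k + 2 : ℕ)) (γ.t γ.a) 1 (γ.gm H k) := by
  intro φ Φ _ hΦ f v hf x
  refine smul_right_injective H hc ?_
  push_cast at hf ⊢
  simp only [hev', smul_comm c]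
  exact h.uniq_pt (h.ode_gm h0 k f) ((h.ode_anti _ 1 (Φ (γ.t γ.a)) hΦ (c • v)).congr
    (fun x => by rw [← hev, hf, one_smul, smul_comm]) fun _ => rfl) (y := γ.a)
    (by simp [h.gm_a h0]) x

theorem isG_gp (h : γ.Ok C o) (h0 : 0 < o) (hfin : γ.fin = true) {k : ℕ} {c : ℂ} (hc : c ≠ 0)
    (hev : ∀ x f, c • ev x f = γ.tw 2 k x • f x) (hev' : ∀ x f, c • ev' x f = γ.tw 1 k x • f x) :
    IsG γ.t ev ev' k (γ.t (γ.pt k)) (-1) (γ.gp H k) := by
  intro φ Φ _ hΦ f v hf x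
  refine smul_right_injective H hc ?_
  push_cast at hf ⊢
  simp only [hev', smul_comm c]
  exact h.uniq_pt (h.ode_gp h0 k f) ((h.ode_anti _ (-1) (Φ (γ.t (γ.pt k))) hΦ (c • v)).congr
    (fun x => by rw [← hev, hf, neg_one_smul, smul_comm]) fun _ => rfl) (y := γ.pt k)
    (by simp [h.gp_pt h0 hfin]) x

theorem em_eq (h : γ.Ok C o) (h0 : 0 < o) (k : ℕ) (A : H) (x : ℝ) : γ.tw 1 k x • γ.em H k A x =
    (γ.tw 1 k γ.a * exp ((k + 2 : ℕ) * γ.t γ.a) * exp ((-(k + 2 : ℕ) : ℤ) * γ.t x)) • A := by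
  rw [h.hom (h.ode_em h0 k A) x γ.a, h.em_a h0, smul_smul, mul_assoc, ← exp_add, mul_comm]
  congr 3; push_cast; ring

theorem ep_eq (h : γ.Ok C o) (h0 : 0 < o) (hfin : γ.fin = true) (k : ℕ) (A : H) (x : ℝ) :
    γ.tw 1 k x • γ.ep H k A x =
      (γ.tw 1 k (γ.pt k) * exp (-(k * γ.t (γ.pt k))) * exp ((k : ℤ) * γ.t x)) • A := by
  rw [h.hom (h.ode_ep h0 k A) x (γ.pt k), h.ep_pt h0 hfin, smul_smul, mul_assoc, ← exp_add, mul_comm]
  congr 3; push_cast; ring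

end Pth.Ok

/-! ### sequence spaces -/

variable {ι F F' F'' : Type} [Fintype ι] [NormedAddCommGroup F] [NormedSpace ℂ F]
  [NormedAddCommGroup F'] [NormedSpace ℂ F'] [NormedAddCommGroup F''] [NormedSpace ℂ F'']

/-- families of sequences whose modes lie in `T` -/
def CE (T : Submodule ℂ (ι → F)) : Submodule ℂ (ι → J.CL F) where
  carrier := {x | ∀ k, (fun n => x n k) ∈ T}
  add_mem' := fun hx hy k => T.add_mem (hx k) (hy k)
  zero_mem' := fun _ => T.zero_mem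
  smul_mem' := fun c _ hx k => T.smul_mem c (hx k)

theorem CE_mono {T T' : Submodule ℂ (ι → F)} (h : T ≤ T') : CE T ≤ CE T' := fun _ hx k => h (hx k)

theorem CE_dg {T : Submodule ℂ (ι → F)} {T' : Submodule ℂ (ι → F')} {A : ι → ℕ → F →L[ℂ] F'}
    {c : ℝ} (hA : ∀ n k, ‖A n k‖ ≤ c) (h : ∀ k, ∀ g ∈ T, (fun n => A n k (g n)) ∈ T')
    {x : ι → J.CL F} (hx : x ∈ CE T) : (fun n => dg (A n) (x n)) ∈ CE T' := fun k => by
  simp only [dg_apply (hA _)]
  exact h k _ (hx k)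

theorem CE_sc {T : Submodule ℂ (ι → F)} {s : ℕ → ℂ} {c : ℝ} (hs : ∀ k, ‖s k‖ ≤ c)
    {x : ι → J.CL F} (hx : x ∈ CE T) : (fun n => J.sc F s (x n)) ∈ CE T := fun k => by
  simp only [sc_apply hs]
  exact T.smul_mem _ (hx k)

theorem mem_of_hasSum {α : Type*} {T : Submodule ℂ (ι → F)} (hT : IsClosed (T : Set (ι → F)))
    {a : α → ι → F} {b : ι → F} (h : ∀ n, HasSum (fun i => a i n) (b n)) (ha : ∀ i, a i ∈ T) :
    b ∈ T :=
  hT.mem_of_tendsto (Pi.hasSum.2 h) (Eventually.of_forall fun _ => T.sum_mem fun i _ => ha i)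

theorem CE_tri {G : Type} [NormedAddCommGroup G] [NormedSpace ℂ G] [CompleteSpace F'']
    {M : ℕ → ℕ → ℕ → G →L[ℂ] F' →L[ℂ] F''} {α : ℕ → ℝ} {A : ℝ}
    (hM : Tri (X := fun _ => G) (Y := fun _ => F') (Z := fun _ => F'') M α A)
    {T'' : Submodule ℂ (ι → F'')} (hT : IsClosed (T'' : Set (ι → F''))) {x : ι → J.CL G}
    {y : ι → J.CL F'} (h : ∀ j k l, (fun n => M j k l (x n k) (y n l)) ∈ T'') :
    (fun n => hM.bil (x n) (y n)) ∈ CE T'' := fun j =>
  mem_of_hasSum hT (fun n => hM.hasSum (x n) (y n) j) fun p => h j p.1 p.2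

end Crest.Agent.N207.L

end
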