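import Crest.Agent.N207.L.Pol3
import Crest.Agent.N207.L.Pol4
import Crest.Agent.N207.J.As3

/-!
# Row 207, block L (helper77): POLY, the operations of a layer respect the filtrations
-/

set_option autoImplicit false
set_option linter.unusedSectionVars false

open Set Filter Complex
open scoped Topology
open Crest.Agent.R246.Zon797 (Pr)

noncomputable section

namespace Crest.Agent.N207.L

open Crest.Agent.N207.J

variable {ι Pt F1 F2 : Type} [Fintype ι] [NormedAddCommGroup F1] [NormedSpace ℂ F1]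
  [CompleteSpace F1] [NormedAddCommGroup F2] [NormedSpace ℂ F2] [CompleteSpace F2] {C : ℝ}
  {Y : Layer Pt F1 F2 C} {ν : ι → ℂ} {γ : ι → Pt → ℂ} {d e : ℕ} {c : ℂ}

theorem TS_ylin (ho : ∀ p, Y.om p = c) (A : H →L[ℂ] H) {j : ℤ} (hj : -1 ≤ j) {g : ι → F1}
    (hg : g ∈ TS ν γ Y.ev1 d) : (fun n => Y.lin A j (g n)) ∈ TS ν γ Y.ev1 d :=
  TS_map _ (c ^ j • A) (fun f p => by rw [Y.ev_lin A hj, ho]; rfl) hg

theorem CE_mul (ho : ∀ p, Y.om p = c) {x y : ι → J.CL F1} (hx : x ∈ CE (TS ν γ Y.ev1 d))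
    (hy : y ∈ CE (TS ν γ Y.ev1 e)) : (fun n => Y.mul (x n) (y n)) ∈ CE (TS ν γ Y.ev2 (d + e)) := by
  intro j
  refine mem_of_hasSum (TS_closed _) (fun n => Y.hasSum_mul (x n) (y n) j) fun q =>
    Submodule.smul_mem _ _ ?_
  refine TS_bil (Y.mulE j q.1 q.2) ((c ^ j)⁻¹ • c ^ (q.1 + q.2) • mulH j q.1 q.2)
    (fun f g p => ?_) (hx q.1) (hy q.2)
  have := (eq_inv_smul_iff₀ (pow_ne_zero j (Y.om_ne p))).2 (Y.ev_mulE j q.1 q.2 f g p)
  rw [ho] at this
  exact this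

theorem CE_incl {x : ι → J.CL F2} (hx : x ∈ CE (TS ν γ Y.ev2 d)) :
    (fun n => Y.incl (x n)) ∈ CE (TS ν γ Y.ev1 d) := fun k => by
  simp only [Layer.incl, cm_apply]
  exact TS_map _ (ContinuousLinearMap.id ℂ H) (fun f p => Y.ev_inc f p) (hx k)

theorem CE_ml (ho : ∀ p, Y.om p = c) (m : ℕ) (φ : CS) {x : ι → J.CL F1}
    (hx : x ∈ CE (TS ν γ Y.ev1 d)) : (fun n => Y.ml m φ (x n)) ∈ CE (TS ν γ Y.ev1 d) := by
  by_cases hm : 4 ≤ m
  · intro j
    refine mem_of_hasSum (TS_closed _) (fun n => Y.hasSum_ml hm φ (x n) j) fun q =>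
      Submodule.smul_mem _ _ ?_
    by_cases hk : q.1 = 1
    · rw [hk]
      refine TS_map (Y.mlE φ j 1 q.2 (wn m 1))
        ((c ^ j)⁻¹ • (wn m 1 * c ^ q.2) • mulH j 1 q.2 (toH φ)) (fun f p => ?_) (hx q.2)
      have := (eq_inv_smul_iff₀ (pow_ne_zero j (Y.om_ne p))).2 (Y.ev_mlE φ j q.2 (wn m 1) f p)
      rw [ho] at this
      exact this
    · simp only [Layer.mlE, hk, false_and, if_false, zero_apply]
      exact zero_mem _
  · simp only [Layer.ml, dif_neg hm, zero_apply]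
    exact zero_mem _

theorem CE_rot (ho : ∀ p, Y.om p = c) (a : Pr 4) {x : ι → J.CL F1}
    (hx : x ∈ CE (TS ν γ Y.ev1 d)) : (fun n => Y.rot a (x n)) ∈ CE (TS ν γ Y.ev1 d) :=
  CE_dg (A := fun _ k => ((k : ℂ) + 1)⁻¹ • Y.lin (Rk a k) 0) (fun _ => Y.rot_bd a)
    (fun k _ hg => Submodule.smul_mem _ _ (TS_ylin ho (Rk a k) (by norm_num) hg)) hx

theorem CE_lw {F : Type} [NormedAddCommGroup F] [NormedSpace ℂ F] {T : Submodule ℂ (ι → F)} (m : ℕ)
    {x : ι → J.CL F} (hx : x ∈ CE T) : (fun n => lw F m (x n)) ∈ CE T := CE_sc (lw_bd m) hx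

theorem filt_layer (ho : ∀ p, Y.om p = c) {𝒜 : Alg (J.CL F1) (J.CL F2)} (hm : 𝒜.mul = Y.mul)
    (hi : 𝒜.inc = Y.incl) :
    (𝒜.pi ι).Filt (fun d => CE (TS ν γ Y.ev1 d)) fun d => CE (TS ν γ Y.ev2 d) := by
  refine ⟨fun _ _ h => CE_mono (TS_mono h), fun d e x hx y hy => ?_, fun d x hx => ?_⟩
  · have := CE_mul ho hx hy
    rw [← hm] at this
    exact this
  · have := CE_incl hx
    rw [← hi] at this
    exact this

/-- the coefficients of `dif r` on `Fin (M + 1)` -/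
def dc (M r : ℕ) (n : Fin (M + 1)) : ℂ := if (n : ℕ) ≤ r then (-1) ^ (r - n) * r.choose n else 0

theorem sum_dc {W : Type*} [NormedAddCommGroup W] [NormedSpace ℂ W] {M r : ℕ} (hr : r ≤ M)
    (a : ℕ → W) : ∑ n : Fin (M + 1), dc M r n • a n = dif r a := by
  rw [dif_eq']
  refine (Finset.sum_range (n := M + 1) fun n => (if n ≤ r then (-1 : ℂ) ^ (r - n) * r.choose n
    else 0) • a n).symm.trans ?_
  symm
  refine Finset.sum_subset_zero_on_sdiff (Finset.range_subset_range.2 (by omega))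
    (fun n hn => ?_) fun n hn => ?_
  · simp only [Finset.mem_sdiff, Finset.mem_range] at hn
    rw [if_neg (by omega), zero_smul]
  · rw [if_pos (Nat.lt_succ_iff.1 (Finset.mem_range.1 hn))]

theorem sum_dc_pow {M r j : ℕ} (hr : r ≤ M) (hj : j < r) :
    ∑ n : Fin (M + 1), dc M r n * ((n : ℕ) : ℂ) ^ j = 0 := by
  have h1 := sum_dc hr fun n : ℕ => (n : ℂ) ^ j
  have h2 := dif_fun r (fun z : ℂ => z ^ j) 1 0
  rw [fwdDiff_iter_pow_eq_zero_of_lt hj] at h2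
  simp only [zero_add, mul_one, Pi.zero_apply] at h2
  exact h1.trans h2

end Crest.Agent.N207.L

end
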