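import Crest.Agent.N207.L.Pol5
import Crest.Agent.N207.L.Cmp
import Crest.Agent.N207.J.As5

/-!
# Row 207, block L (helper77): POLY for the stored fixed point equation
-/

set_option autoImplicit false
set_option linter.unusedSectionVars false

open Set Filter Complex Asymptotics
open scoped Topology

noncomputable section

namespace Crest.Agent.N207.L

open Crest.Agent.N207.J

section
variable {ι Pt F1 F2 : Type} [Fintype ι] [NormedAddCommGroup F1] [NormedSpace ℂ F1]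
  [CompleteSpace F1] [NormedAddCommGroup F2] [NormedSpace ℂ F2] [CompleteSpace F2] {C : ℝ}
  {Y : Layer Pt F1 F2 C} {ν : ι → ℂ} {γ : ι → Pt → ℂ} {d : ℕ} {c : ℂ}

theorem CE_dd (ho : ∀ p, Y.om p = c) (m : ℕ) (a : Fin 4) {x y : ι → J.CL F1}
    (hx : x ∈ CE (TS ν γ Y.ev1 d)) (hy : y ∈ CE (TS ν γ Y.ev1 d)) :
    (fun n => Y.dd m a (x n, y n)) ∈ CE (TS ν γ Y.ev1 d) := by
  have := add_mem (CE_ml ho m (xc a) hy)
    (Submodule.sum_mem _ fun b (_ : b ∈ Finset.univ) => CE_ml ho m (rx b a) (CE_rot ho b hx))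
  convert this using 1
  funext n
  simp only [Layer.dd_apply, Pi.add_apply, Finset.sum_apply]

theorem CE_jetc (ho : ∀ p, Y.om p = c) (j : Jx) {p q : ι → J.CL F1} {f : ι → J.CL F2}
    (hp : p ∈ CE (TS ν γ Y.ev1 d)) (hq : q ∈ CE (TS ν γ Y.ev1 d)) (hf : f ∈ CE (TS ν γ Y.ev2 d)) :
    (fun n => Y.jetc j (p n, q n, f n)) ∈ CE (TS ν γ Y.ev1 d) := by
  have h0 : (fun n => Layer.u0 (p n, q n, f n)) ∈ CE (TS ν γ Y.ev1 d) := add_mem hp hq
  have h1 : (fun n => Layer.u1 (p n, q n, f n)) ∈ CE (TS ν γ Y.ev1 d) :=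
    sub_mem (CE_sc bd_s1 hp) (CE_sc bd_s2 hq)
  have h2 : (fun n => Y.u2 (p n, q n, f n)) ∈ CE (TS ν γ Y.ev1 d) :=
    add_mem (add_mem (CE_sc bd_s1sq hp) (CE_sc bd_s2sq hq)) (CE_incl hf)
  rcases j with _ | a | e
  · exact CE_lw 2 h0
  · exact CE_lw 1 (CE_dd ho 5 a h0 h1)
  · exact sub_mem (CE_dd ho 4 e.1 (CE_dd ho 5 e.2 h0 h1) (CE_dd ho 4 e.2 h1 h2))
      (CE_ml ho 4 (xc e.1) (CE_lw 1 (CE_dd ho 5 e.2 h0 h1)))

theorem Per.exp_eq {a : ι → ℂ} (h : Per ν a) : ∃ α, ∀ (m : ℤ) n, exp (m * a n) = exp (m * α) := by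
  obtain ⟨α, β, h1, h2⟩ := h
  exact ⟨α, fun m n => by
    rw [h1, mul_add, exp_add, exp_int_mul (β * ν n), h2, one_zpow, mul_one]⟩

end

/-- a finite family of curves with common weights and periodic ends -/
structure PFam {I : Type} (ν : I → ℂ) (γ : Pth) (t τ : I → ℝ → ℂ) (C o : ℝ) : Prop where
  op : 0 < o
  ok : ∀ n, (γ.re (t n) (τ n)).Ok C o
  om : ∀ x, γ.om x = o
  fin : γ.fin = true
  pa : Per ν fun n => t n γ.a
  pp : ∀ k, Per ν fun n => t n (γ.pt k)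

namespace PFam

variable {I : Type} [Fintype I] {ν : I → ℂ} {γ : Pth} {t τ : I → ℝ → ℂ} {C o C' : ℝ}
  (h : PFam ν γ t τ C o) (h1 : 1 ≤ C') (h2 : 16 * C ≤ C') {d : ℕ}
include h

theorem ev1 (n : I) (k : ℕ) (x : ℝ) (f : BH) :
    (o : ℂ) ^ k • evW γ.w x f = (γ.re (t n) (τ n)).tw 1 k x • f x := by
  rw [evW_apply, smul_smul]
  simp [Pth.tw, Pth.re, h.om, mul_comm]

theorem ev2 (n : I) (k : ℕ) (x : ℝ) (f : BH) :
    (o : ℂ) ^ k • evW (fun x => γ.w x ^ 2) x f = (γ.re (t n) (τ n)).tw 2 k x • f x := by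
  rw [evW_apply, smul_smul]
  simp [Pth.tw, Pth.re, h.om, mul_comm]

theorem one (k : ℕ) : (o : ℂ) ^ k ≠ 0 := pow_ne_zero k (ofReal_ne_zero.2 h.op.ne')

/-- the Green parts -/
def G (n : I) : Grn BH BH C' := (h.ok n).grn h.op h1 h2

theorem EM (A : D) : (fun n => (h.G h1 h2 n).EM A) ∈ CE (TS ν t (evW γ.w) 0) := fun k => by
  obtain ⟨α, hα⟩ := h.pa.exp_eq
  refine TS_free (m := -(k + 2 : ℕ)) (σ := γ.tw 1 k γ.a * exp ((k + 2 : ℕ) * α))
    (v := ((o : ℂ) ^ k)⁻¹ • A k) fun n x => ?_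
  have := hα (k + 2 : ℕ) n
  rw [Int.cast_natCast] at this
  rw [smul_comm, eq_inv_smul_iff₀ (h.one k), h.ev1 n k, Grn.EM_apply, ← this]
  exact (h.ok n).em_eq h.op k (A k) x

theorem EP (A : D) : (fun n => (h.G h1 h2 n).EP A) ∈ CE (TS ν t (evW γ.w) 0) := fun k => by
  obtain ⟨α, hα⟩ := (h.pp k).exp_eq
  refine TS_free (m := k) (σ := γ.tw 1 k (γ.pt k) * exp (-(k * α)))
    (v := ((o : ℂ) ^ k)⁻¹ • A k) fun n x => ?_
  have := hα (-k) n
  rw [Int.cast_neg, Int.cast_natCast, neg_mul, neg_mul] at this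
  rw [smul_comm, eq_inv_smul_iff₀ (h.one k), h.ev1 n k, Grn.EP_apply, ← this]
  exact (h.ok n).ep_eq h.op h.fin k (A k) x

theorem GM {f : I → CL} (hf : f ∈ CE (TS ν t (evW fun x => γ.w x ^ 2) d)) :
    (fun n => (h.G h1 h2 n).GM (f n)) ∈ CE (TS ν t (evW γ.w) (d + 1)) := fun k => by
  simp only [Grn.GM_apply]
  exact Submodule.smul_mem _ (((k : ℂ) + 1) / 2) (TS_G h.pa _
    (fun n => (h.ok n).isG_gm h.op (h.one k) (h.ev2 n k) (h.ev1 n k)) (hf k))

theorem GP {f : I → CL} (hf : f ∈ CE (TS ν t (evW fun x => γ.w x ^ 2) d)) :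
    (fun n => (h.G h1 h2 n).GP (f n)) ∈ CE (TS ν t (evW γ.w) (d + 1)) := fun k => by
  simp only [Grn.GP_apply]
  exact Submodule.smul_mem _ (((k : ℂ) + 1) / 2) (TS_G (h.pp k) _
    (fun n => (h.ok n).isG_gp h.op h.fin (h.one k) (h.ev2 n k) (h.ev1 n k)) (hf k))

omit h in
/-- diagonal operators -/
def diag {X X' : Type} [NormedAddCommGroup X] [NormedSpace ℂ X] [NormedAddCommGroup X']
    [NormedSpace ℂ X'] (A : I → X →L[ℂ] X') : (I → X) →L[ℂ] (I → X') :=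
  ContinuousLinearMap.pi fun n => A n ∘L ContinuousLinearMap.proj n

variable {ι : Type} [Fintype ι] [DecidableEq ι] {Q : (ι × Jx → ℂ) → ι → ℂ} {β : ℝ}

/-- the expansions of the stored solutions -/
theorem good (W : Wts γ.w γ.om o) {𝒜 : Alg CL CL} (hm : 𝒜.mul = W.bcf.mul)
    (hi : 𝒜.inc = W.bcf.incl) (hβ : 𝒜.Bnd β) (S : Ser Q) (A B : ι → D) {f : ℂ → I → ι → CL}
    (hf : f =O[𝓝 0] fun s : ℂ => s)
    (hfix : ∀ᶠ s in 𝓝 (0 : ℂ), ∀ n, 𝒜.Qh S (fun m => W.bcf.jetc m.2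
      ((h.G h1 h2 n).EP (s • B m.1) - (h.G h1 h2 n).GP (f s n m.1),
        (h.G h1 h2 n).EM (s • A m.1) - (h.G h1 h2 n).GM (f s n m.1), f s n m.1)) = f s n)
    (N : ℕ) (i : ι) :
    Good (fun d => CE (TS ν t (evW γ.w) d)) 1 (N + 1)
      (fun s n => (h.G h1 h2 n).EP (s • B i) - (h.G h1 h2 n).GP (f s n i)) ∧
    Good (fun d => CE (TS ν t (evW γ.w) d)) 1 (N + 1)
      (fun s n => (h.G h1 h2 n).EM (s • A i) - (h.G h1 h2 n).GM (f s n i)) := by
  have ho : ∀ p, W.bcf.om p = o := fun p => by simp [h.om]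
  have hF := filt_layer (ν := ν) (γ := t) ho hm hi
  let u0 : ι × Jx → I → CL := fun m n =>
    W.bcf.jetc m.2 ((h.G h1 h2 n).EP (B m.1), (h.G h1 h2 n).EM (A m.1), 0)
  let J : ι × Jx → (I → CL) →L[ℂ] (I → CL) := fun m => diag fun n => W.bcf.jetc m.2 ∘L
    (-(h.G h1 h2 n).GP).prod ((-(h.G h1 h2 n).GM).prod (ContinuousLinearMap.id ℂ CL))
  have hf' : ∀ i, (fun s n => f s n i) =O[𝓝 0] fun s : ℂ => s := fun i =>
    isBigO_pi.2 fun n => isBigO_pi.1 (isBigO_pi.1 hf n) i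
  have e : ∀ s m n, (s • u0 m + J m (fun n => f s n m.1)) n = W.bcf.jetc m.2
      ((h.G h1 h2 n).EP (s • B m.1) - (h.G h1 h2 n).GP (f s n m.1),
        (h.G h1 h2 n).EM (s • A m.1) - (h.G h1 h2 n).GM (f s n m.1), f s n m.1) := fun s m n => by
    change s • W.bcf.jetc m.2 _ + W.bcf.jetc m.2 (-(h.G h1 h2 n).GP (f s n m.1),
      -(h.G h1 h2 n).GM (f s n m.1), f s n m.1) = _
    rw [← map_smul, ← map_add]
    simp [sub_eq_add_neg]
  have hs : ∀ᶠ s in 𝓝 (0 : ℂ), ‖fun m => s • u0 m + J m fun n => f s n m.1‖ ≤ Alg.rad S β / 2 := by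
    have : (fun s m => s • u0 m + J m fun n => f s n m.1) =O[𝓝 0] fun s : ℂ => s :=
      isBigO_pi.2 fun m => IsBigO.add
        (by simpa using (isBigO_refl (fun s : ℂ => s) (𝓝 0)).smul (isBigO_const_one ℂ (u0 m) (𝓝 0)))
        (((J m).isBigO_comp _ _).trans (hf' m.1))
    filter_upwards [(this.trans_tendsto tendsto_id).eventually
      (Metric.closedBall_mem_nhds 0 (half_pos (Alg.rad_pos S hβ.one_le)))] with s hs
    exact mem_closedBall_zero_iff.1 hs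
  have key := hF.fix hβ.pi S (u0 := u0)
    (fun m => CE_jetc ho m.2 (h.EP h1 h2 _) (h.EM h1 h2 _) (zero_mem _)) Prod.fst J
    (fun m d x hx => CE_jetc ho m.2 (neg_mem (h.GP h1 h2 hx)) (neg_mem (h.GM h1 h2 hx))
      (CE_mono (TS_mono (Nat.le_succ d)) hx)) (f := fun s i n => f s n i) (isBigO_pi.2 hf')
    (by
      filter_upwards [hfix, hs] with s h3 h4
      funext i n
      rw [Alg.pi_Qh hβ S h4]
      simp only [e]
      exact congrFun (h3 n) i) N i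
  constructor
  · refine (Good.add (Good.single (a := 1) (h.EP h1 h2 (B i))) (key.clm (diag fun n =>
      -(h.G h1 h2 n).GP) fun d x hx => neg_mem (h.GP h1 h2 hx))).congr
      (Eventually.of_forall fun s => funext fun n => ?_)
    simp [diag, sub_eq_add_neg]
  · refine (Good.add (Good.single (a := 1) (h.EM h1 h2 (A i))) (key.clm (diag fun n =>
      -(h.G h1 h2 n).GM) fun d x hx => neg_mem (h.GM h1 h2 hx))).congr
      (Eventually.of_forall fun s => funext fun n => ?_)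
    simp [diag, sub_eq_add_neg]

end PFam

/-- finite differences of the traces of good families -/
theorem Good.dif_trc {M r : ℕ} (hr : r ≤ M) {t : Fin (M + 1) → ℝ → ℂ} {w : ℝ → ℝ} {x : ℝ}
    (hw : w x ≠ 0) (hx : Per (fun n : Fin (M + 1) => ((n : ℕ) : ℂ)) fun n => t n x)
    {g : ℂ → Fin (M + 1) → CL} {g' : ℂ → ℕ → CL}
    (hg : Good (fun d => CE (TS (fun n : Fin (M + 1) => ((n : ℕ) : ℂ)) t (evW w) d)) 1 (r + 1) g)
    (hg' : ∀ᶠ s in 𝓝 (0 : ℂ), ∀ n, trc x (g s n) = trc x (g' s n)) :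
    (fun s => dif r fun n => trc x (g' s n)) =O[𝓝 0] fun s : ℂ => s ^ (r + 1) := by
  have := hg.kill (∑ n, dc M r n • (trc x ∘L ContinuousLinearMap.proj n)) fun d hd y hy => by
    refine CL.ext fun k => ?_
    have h1 := TS_kill (c := dc M r) (fun j hj => sum_dc_pow hr (by omega)) hx (hy k)
    simp only [evW_apply, smul_comm _ (w x : ℂ), ← Finset.smul_sum] at h1
    have h2 := congrArg (P k) ((smul_eq_zero.1 h1).resolve_left (ofReal_ne_zero.2 hw))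
    rw [_root_.sum_apply, lp.coeFn_sum, Finset.sum_apply]
    simpa [trc_apply] using h2
  refine this.congr' (hg'.mono fun s hs => ?_) EventuallyEq.rfl
  simp only [← sum_dc hr, ← hs]
  simp

end Crest.Agent.N207.L

end
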