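import Crest.Agent.N207.L.Pol6
import Crest.Agent.N207.L.Nk0

/-!
# Row 207, block L (helper77): the stored fixed point equation of a solution; `PolyStmt`
-/

set_option autoImplicit false
set_option linter.unusedSectionVars false

open Set Filter Complex Asymptotics Metric
open scoped Topology Real

noncomputable section

namespace Crest.Agent.N207.L

open Crest.Agent.N207.J

variable {ι : Type} [Fintype ι] {N : NL ι} {γ : Pth} {C o C' η : ℝ} {p q F : ι → Md}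
  {A B : ι → D}

theorem tru_duh (γ : Pth) {e : H →L[ℂ] BH} {G : BH →L[ℂ] BH} {X f : CL} {a : H} {k : ℕ} {x : ℝ}
    {u : H} (hf : Prp f) (hu : P k u = u) (he : ∃ c : ℂ, ∀ a, e a x = c • a)
    (hX : X k = e a - (((k : ℂ) + 1) / 2) • G (f k))
    (h : u = γ.tw 1 k x • (e ((((wt (6 : ℕ) k)⁻¹ : ℝ) : ℂ) • P k a) x -
      (2 * (k : ℂ) + 2)⁻¹ • G (srcM f k) x)) : tru 6 γ.w γ.om X k x = u := by
  obtain ⟨c, hc⟩ := he
  have e1 : srcM f k = (wn 4 k)⁻¹ • f k := BoundedContinuousFunction.ext fun y => by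
    change (((wt (4 : ℕ) k)⁻¹ : ℝ) : ℂ) • P k (f k y) = _
    rw [hf, ofReal_inv, wt_eq_wn]; rfl
  rw [← hu, h, tru_sol, hX, e1]
  simp only [BoundedContinuousFunction.coe_sub, BoundedContinuousFunction.coe_smul, Pi.sub_apply,
    hc, map_smul, map_sub, P_P, smul_sub, smul_smul, ofReal_inv, wt_eq_wn, Grn.half_wn]

theorem Sol.tru_q (h : γ.Ok C o) (ho : 0 < o) (h1 : 1 ≤ C') (h2 : 16 * C ≤ C')
    (hs : Sol N γ.τ γ.w γ.om η p q F) (hd : Dat γ p q A B) {i : ι} {f : CL} (hf : Prp f)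
    (ef : tru 4 (fun x => γ.w x ^ 2) γ.om f = F i) :
    tru 6 γ.w γ.om ((h.grn ho h1 h2).EM (A i) - (h.grn ho h1 h2).GM f) = q i := by
  funext k x
  refine tru_duh γ (e := γ.em H k) (G := γ.gm H k) (a := A i k) hf ((hs.bq i).mode k x)
    ⟨_, fun a => h.em_apply ho k a x⟩ (by
      rw [lp.coeFn_sub, Pi.sub_apply, Grn.EM_apply, Grn.GM_apply]; rfl) ?_
  refine h.duh_q ho k _ ((hs.ode_q i k).congr (fun x => ?_) fun _ => rfl) ?_ x
  · rw [← tru_src, ef]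
  · rw [← smul_trD]; exact hd.hq i k

theorem Sol.tru_p (h : γ.Ok C o) (ho : 0 < o) (hfin : γ.fin = true) (h1 : 1 ≤ C')
    (h2 : 16 * C ≤ C') (hs : Sol N γ.τ γ.w γ.om η p q F) (hd : Dat γ p q A B) {i : ι} {f : CL}
    (hf : Prp f) (ef : tru 4 (fun x => γ.w x ^ 2) γ.om f = F i) :
    tru 6 γ.w γ.om ((h.grn ho h1 h2).EP (B i) - (h.grn ho h1 h2).GP f) = p i := by
  funext k x
  refine tru_duh γ (e := γ.ep H k) (G := γ.gp H k) (a := B i k) hf ((hs.bp i).mode k x)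
    ⟨_, fun a => h.ep_apply ho hfin k a x⟩ (by
      rw [lp.coeFn_sub, Pi.sub_apply, Grn.EP_apply, Grn.GP_apply]; rfl) ?_
  refine h.duh_p ho k _ ((hs.ode_p i k).congr (fun x => ?_) fun _ => rfl) (fun _ => ?_)
    (M := 0) (fun h' => by simp [hfin] at h') x
  · rw [← tru_src, ef]
  · rw [← smul_trD]
    have := hd.hp hfin i k
    by_cases h0 : k = 0
    · subst h0
      simpa [trD] using this
    · simpa [Pth.pt, h0] using this

/-- the algebra of a layer -/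
def lalg {w om : ℝ → ℝ} (W : Wts w om o) : Alg CL CL := ⟨W.bcf.mul, W.bcf.incl⟩

theorem lalg_bnd {w om : ℝ → ℝ} (W : Wts w om o) : (lalg W).Bnd (96 * o⁻¹) := by
  have := W.one_le
  exact ⟨by linarith, W.bcf.norm_mul_apply, fun c => (W.bcf.incl.le_of_opNorm_le
    W.bcf.norm_incl c).trans (mul_le_mul_of_nonneg_right (by linarith) (norm_nonneg _))⟩

/-- the pointwise equation gives the stored one -/
theorem Qh_eq [DecidableEq ι] {w om : ℝ → ℝ} (W : Wts w om o) (S : Ser N.Q) {P' Q' f : ι → CL}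
    (hf : ∀ i, Prp (f i))
    (hJ : ‖fun m : ι × Jx => W.bcf.jetc m.2 (P' m.1, Q' m.1, f m.1)‖ ≤ Alg.rad S (96 * o⁻¹) / 2)
    (he : ∀ x y, (fun i => val (tru 4 (fun x => w x ^ 2) om (f i)) x y) = N.Q (jets
      (fun i => tru 6 w om (P' i)) (fun i => tru 6 w om (Q' i))
      (fun i => tru 4 (fun x => w x ^ 2) om (f i)) x y)) :
    (lalg W).Qh S (fun m => W.bcf.jetc m.2 (P' m.1, Q' m.1, f m.1)) = f := by
  funext i
  refine W.bcf.ext_syn2 (m := 4) (by norm_num) (Alg.Qh_mem (lalg_bnd W) S W.bcf.isClosed_prop2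
    W.bcf.mul_mem_prop2 hJ i) (W.mem_prop2.2 (hf i)) fun x => ContinuousMap.ext fun y => ?_
  have := Alg.Hom.chr (𝒜 := lalg W) (e1 := ContinuousMap.evalCLM ℂ y ∘L W.bcf.syn1 4 x)
    (e2 := ContinuousMap.evalCLM ℂ y ∘L W.bcf.syn2 4 x)
    ⟨fun a b => congrArg (fun u : CS => u y) (W.bcf.syn_mul x a b),
      fun c => congrArg (fun u : CS => u y) (W.bcf.syn_incl (by norm_num) x c)⟩ (lalg_bnd W)
    (fun a => ((W.bcf.syn1 4 x a).norm_coe_le_norm y).trans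
      ((W.bcf.norm_syn1_le (by norm_num) x a).trans (by
        have := W.one_le
        gcongr; norm_num))) S hJ i
  refine this.trans ?_
  rw [← W.val_tru2 (by norm_num), congrFun (he x y) i]
  congr 1
  funext m
  exact (W.jets_tru P' Q' f x y m).symm

theorem PFam.poly {r : ℕ} {t τ : Fin (r + 1) → ℝ → ℂ}
    (h : PFam (fun n : Fin (r + 1) => ((n : ℕ) : ℂ)) γ t τ C o) {S : ℂ → ℕ → Tr ι} {K : ℝ}
    (hS : ∀ᶠ s in 𝓝 (0 : ℂ), ∀ n : Fin (r + 1),
      Sol N (τ n) γ.w γ.om (K * ‖s‖) ((S s n).p γ) ((S s n).q γ) ((S s n).F γ) ∧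
        Dat γ ((S s n).p γ) ((S s n).q γ) (s • A) (s • B)) {x : ℝ}
    (hx : Per (fun n : Fin (r + 1) => ((n : ℕ) : ℂ)) fun n => t n x) (i : ι) :
    ((fun s => dif r fun n => trc x ((S s n).1 i)) =O[𝓝 0] fun s : ℂ => s ^ (r + 1)) ∧
      (fun s => dif r fun n => trc x ((S s n).2.1 i)) =O[𝓝 0] fun s : ℂ => s ^ (r + 1) := by
  classical
  obtain ⟨S0⟩ := exists_ser N.an N.q0 N.q1
  have W : Wts γ.w γ.om o := (h.ok 0).wts h.op
  have h1 := le_max_left 1 (16 * C)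
  have h2 := le_max_right 1 (16 * C)
  have ex : ∀ (s : ℂ) (n : Fin (r + 1)) (i : ι), ∃ f : CL,
      Bd 4 (fun x => γ.w x ^ 2) γ.om ((S s n).F γ i) (K * ‖s‖) → ‖f‖ ≤ K * ‖s‖ ∧ Prp f ∧
        tru 4 (fun x => γ.w x ^ 2) γ.om f = (S s n).F γ i := fun s n i => by
    by_cases hs : Bd 4 (fun x => γ.w x ^ 2) γ.om ((S s n).F γ i) (K * ‖s‖)
    · obtain ⟨f, hf⟩ := hs.exists (W.wc.pow 2) (fun x => pow_pos (W.w0 x) 2) W.oc W.om_pos
      exact ⟨f, fun _ => hf⟩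
    · exact ⟨0, fun a => absurd a hs⟩
  choose f hf using ex
  have hO : f =O[𝓝 0] fun s : ℂ => s :=
    isBigO_pi.2 fun n => isBigO_pi.2 fun i => IsBigO.of_bound K (hS.mono fun s hs =>
      (hf s n i ((hs n).1.bF i)).1)
  have tp : ∀ᶠ s in 𝓝 (0 : ℂ), ∀ n i, tru 6 γ.w γ.om ((h.G h1 h2 n).EP (s • B i) -
      (h.G h1 h2 n).GP (f s n i)) = (S s n).p γ i := hS.mono fun s hs n i =>
    Sol.tru_p (h.ok n) h.op h.fin h1 h2 (hs n).1 ⟨(hs n).2.hq, (hs n).2.hp⟩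
      (hf s n i ((hs n).1.bF i)).2.1 (hf s n i ((hs n).1.bF i)).2.2
  have tq : ∀ᶠ s in 𝓝 (0 : ℂ), ∀ n i, tru 6 γ.w γ.om ((h.G h1 h2 n).EM (s • A i) -
      (h.G h1 h2 n).GM (f s n i)) = (S s n).q γ i := hS.mono fun s hs n i =>
    Sol.tru_q (h.ok n) h.op h1 h2 (hs n).1 ⟨(hs n).2.hq, (hs n).2.hp⟩
      (hf s n i ((hs n).1.bF i)).2.1 (hf s n i ((hs n).1.bF i)).2.2
  have hL : ∀ (T : D →L[ℂ] CL) (G : CL →L[ℂ] CL) (a : D) n i,
      (fun s : ℂ => T (s • a) - G (f s n i)) =O[𝓝 0] fun s : ℂ => s := fun T G a n i =>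
    ((T.isBigO_comp _ _).trans (by
      simpa using (isBigO_refl (fun s : ℂ => s) (𝓝 0)).smul (isBigO_const_one ℂ a (𝓝 0)))).sub
      ((G.isBigO_comp _ _).trans (isBigO_pi.1 (isBigO_pi.1 hO n) i))
  have key := h.good h1 h2 W (𝒜 := lalg W) rfl rfl (lalg_bnd W) S0 A B hO (by
    rw [eventually_all]
    intro n
    have : (fun (s : ℂ) (m : ι × Jx) => W.bcf.jetc m.2 ((h.G h1 h2 n).EP (s • B m.1) -
        (h.G h1 h2 n).GP (f s n m.1), (h.G h1 h2 n).EM (s • A m.1) -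
        (h.G h1 h2 n).GM (f s n m.1), f s n m.1)) =O[𝓝 0] fun s : ℂ => s :=
      isBigO_pi.2 fun m => ((W.bcf.jetc m.2).isBigO_comp _ _).trans ((hL _ _ _ n _).prod_left
        ((hL _ _ _ n _).prod_left (isBigO_pi.1 (isBigO_pi.1 hO n) m.1)))
    filter_upwards [hS, tp, tq, (this.trans_tendsto tendsto_id).eventually (closedBall_mem_nhds 0
      (half_pos (Alg.rad_pos S0 (lalg_bnd W).one_le)))] with s hs e1 e2 h3
    refine Qh_eq W S0 (P' := fun i => (h.G h1 h2 n).EP (s • B i) - (h.G h1 h2 n).GP (f s n i))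
      (Q' := fun i => (h.G h1 h2 n).EM (s • A i) - (h.G h1 h2 n).GM (f s n i))
      (fun i => (hf s n i ((hs n).1.bF i)).2.1) (mem_closedBall_zero_iff.1 h3) fun x y => ?_
    simp only [e1, e2, (hf s n _ ((hs n).1.bF _)).2.2]
    exact (hs n).1.eq x y) r i
  have et : ∀ {X Y : CL}, tru 6 γ.w γ.om X = tru 6 γ.w γ.om Y → trc x X = trc x Y := fun e =>
    CL.ext fun k => by
      rw [trc_apply, trc_apply]
      exact (tru_eq_iff W.w0 W.om_pos).1 (congrFun (congrFun e k) x)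
  exact ⟨key.1.dif_trc le_rfl (W.w0 _).ne' hx (tp.mono fun s hs n => et (hs n i)),
    key.2.dif_trc le_rfl (W.w0 _).ne' hx (tq.mono fun s hs n => et (hs n i))⟩

theorem per_mid (ζ : ℂ) (w0 : ℝ) (r : ℕ) {x : ℝ} {e : ℤ} (hx : cl (-1) 1 x = e) :
    Per (fun n : Fin (r + 1) => ((n : ℕ) : ℂ))
      fun n => (mid (ζ + (n : ℕ) * (2 * π * I)) w0).t x :=
  ⟨(1 + ζ) * e, e * (2 * π * I), fun n => by simp only [mid, hx]; push_cast; ring, fun n => by
    have := exp_int_mul_two_pi_mul_I (e * (n : ℕ))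
    push_cast at this
    rw [← this]; congr 1; ring⟩

/-- **POLY** -/
theorem polyStmt (N : NL ι) : PolyStmt N := by
  intro C o ε K w0 ζ r S ho _ hS v hv
  have c1 := per_mid ζ w0 r (x := -1) (e := -1) (by simp [cl])
  have c2 := per_mid ζ w0 r (x := 1) (e := 1) (by simp [cl])
  have c0 := per_mid ζ w0 r (x := 0) (e := 0) (by simp [cl])
  have hle : ∀ n : Fin (r + 1), (n : ℕ) ≤ r := fun n => Nat.lt_succ_iff.1 n.2
  have h : PFam (fun n : Fin (r + 1) => ((n : ℕ) : ℂ)) ((mid 0 w0).omc o)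
      (fun n => (mid (ζ + (n : ℕ) * (2 * π * I)) w0).t)
      (fun n => (mid (ζ + (n : ℕ) * (2 * π * I)) w0).τ) C o :=
    ⟨ho, fun n => (hS n (hle n)).1, fun _ => rfl, rfl, c1, fun k => by
      unfold Pth.pt
      split_ifs
      exacts [c0, c2]⟩
  have hb : ∀ᶠ s in 𝓝 (0 : ℂ), s • v ∈ ball (0 : DD ι) ε :=
    (by fun_prop : Continuous fun s : ℂ => s • v).continuousAt.eventually_mem
      (by rw [zero_smul]; exact ball_mem_nhds _ ((norm_nonneg v).trans_lt (mem_ball_zero_iff.1 hv)))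
  have key := fun {x : ℝ} hx i => h.poly (N := N) (S := fun s n => S n (s • v)) (K := K * ‖v‖)
    (A := v.1) (B := v.2) (hb.mono fun s hs n => by
      have := (hS n (hle n)).2.sol _ hs
      rw [show K * ‖v‖ * ‖s‖ = K * ‖s • v‖ by rw [norm_smul]; ring]
      exact ⟨this.sol, this.dat.hq, this.dat.hp⟩) (x := x) hx i
  refine ((((isBigO_pi.2 fun i => (key c1 i).1).prod_left ((isBigO_pi.2 fun i =>
    (key c2 i).2).prod_left (isBigO_pi.2 fun i => (key c2 i).1))).trans_isLittleO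
    (isLittleO_pow_pow (Nat.lt_succ_self r))).norm_right).congr (fun s => ?_) fun s => norm_pow _ _
  simp only [dif_eq']
  refine Prod.ext (funext fun i => ?_) (Prod.ext (funext fun i => ?_) (funext fun i => ?_)) <;>
    simp [Prod.fst_sum, Prod.snd_sum, Finset.sum_apply, outL_apply, trP_apply, trQ_apply]

end Crest.Agent.N207.L

end
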