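import Crest.Agent.N207.L.Sup

/-! # N207/L/Sup2 (helper59): the power series of the superposition operator -/

set_option autoImplicit false
set_option linter.unusedSectionVars false
open Set Filter Topology Metric
open scoped NNReal ENNReal

noncomputable section

namespace Crest.Agent.N207.L

variable {A1 A2 : Type} [NormedAddCommGroup A1] [NormedSpace ℂ A1] [NormedAddCommGroup A2]
  [NormedSpace ℂ A2]

namespace Alg

/-- one more factor -/
def stepM (𝒜 : Alg A1 A2) {n : ℕ} (f : A1 [×n]→L[ℂ] A1) : A1 [×(n + 1)]→L[ℂ] A2 :=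
  ContinuousLinearMap.uncurryLeft (𝕜 := ℂ) (Ei := fun _ : Fin (n + 1) => A1)
    (((ContinuousLinearMap.compContinuousMultilinearMapL ℂ (fun _ : Fin n => A1) A1 A2).flip f).comp
      𝒜.mul)

theorem stepM_apply (𝒜 : Alg A1 A2) {n : ℕ} (f : A1 [×n]→L[ℂ] A1) (a : Fin (n + 1) → A1) :
    𝒜.stepM f a = 𝒜.mul (a 0) (f fun j => a j.succ) := rfl

/-- `prd` as a multilinear map -/
def prdM (𝒜 : Alg A1 A2) : (r : ℕ) → A1 [×(r + 2)]→L[ℂ] A2
  | 0 => 𝒜.stepM ((continuousMultilinearCurryFin1 ℂ A1 A1).symm (ContinuousLinearMap.id ℂ A1))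
  | r + 1 => 𝒜.stepM (𝒜.inc.compContinuousMultilinearMap (prdM 𝒜 r))

theorem prdM_apply (𝒜 : Alg A1 A2) : ∀ (r : ℕ) (a : Fin (r + 2) → A1), 𝒜.prdM r a = 𝒜.prd r a
  | 0, a => by simp [prdM, stepM_apply, prd]
  | r + 1, a => by
    simp only [prdM, stepM_apply, prd, ContinuousLinearMap.compContinuousMultilinearMap_coe,
      Function.comp_apply, prdM_apply 𝒜 r]

variable {κ ι : Type} [Fintype κ] [Fintype ι] [DecidableEq κ] {Q : (κ → ℂ) → ι → ℂ}

/-- the multilinear form of `term` -/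
def termM (𝒜 : Alg A1 A2) (S : Ser Q) (r : ℕ) : (κ → A1) [×(r + 2)]→L[ℂ] (ι → A2) :=
  ContinuousMultilinearMap.pi fun i => ∑ α : Fin (r + 2) → κ,
    S.p (r + 2) (fun j => Pi.single (α j) 1) i •
      (𝒜.prdM r).compContinuousLinearMap fun j => ContinuousLinearMap.proj (α j)

theorem termM_apply (𝒜 : Alg A1 A2) (S : Ser Q) (r : ℕ) (u : Fin (r + 2) → κ → A1) (i : ι) :
    𝒜.termM S r u i = ∑ α : Fin (r + 2) → κ,
      S.p (r + 2) (fun j => Pi.single (α j) 1) i • 𝒜.prd r fun j => u j (α j) := by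
  simp [termM, prdM_apply]

theorem termM_diag (𝒜 : Alg A1 A2) (S : Ser Q) (r : ℕ) (J : κ → A1) :
    (𝒜.termM S r fun _ => J) = 𝒜.term S r J := funext fun i => by rw [termM_apply]; rfl

/-- the power series of `Qh` -/
def ser (𝒜 : Alg A1 A2) (S : Ser Q) : FormalMultilinearSeries ℂ (κ → A1) (ι → A2)
  | 0 => 0
  | 1 => 0
  | r + 2 => 𝒜.termM S r

theorem ser_zero (𝒜 : Alg A1 A2) (S : Ser Q) : 𝒜.ser S 0 = 0 := rfl
theorem ser_one (𝒜 : Alg A1 A2) (S : Ser Q) : 𝒜.ser S 1 = 0 := rfl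
theorem ser_two (𝒜 : Alg A1 A2) (S : Ser Q) (r : ℕ) : 𝒜.ser S (r + 2) = 𝒜.termM S r := rfl

variable {𝒜 : Alg A1 A2} {β : ℝ}

theorem norm_prd' (h : 𝒜.Bnd β) : ∀ (r : ℕ) (a : Fin (r + 2) → A1),
    ‖𝒜.prd r a‖ ≤ (β ^ 2) ^ (r + 2) * ∏ j, ‖a j‖
  | 0, a => by
    have h1 := h.one_le
    refine (h.mul_le _ _).trans ?_
    rw [Fin.prod_univ_two, ← mul_assoc, ← pow_mul]
    gcongr; exact le_self_pow₀ h1 (by norm_num)
  | r + 1, a => by
    have h1 := h.one_le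
    have h2 := norm_prd' h r fun j => a j.succ
    have h3 := (h.inc_le _).trans (mul_le_mul_of_nonneg_left h2 (by linarith))
    refine (h.mul_le _ _).trans ?_
    rw [Fin.prod_univ_succ]
    calc β * ‖a 0‖ * ‖𝒜.inc (𝒜.prd r fun j => a j.succ)‖
        ≤ β * ‖a 0‖ * (β * ((β ^ 2) ^ (r + 2) * ∏ j : Fin (r + 2), ‖a j.succ‖)) := by gcongr
      _ = _ := by ring

theorem norm_termM (h : 𝒜.Bnd β) (S : Ser Q) (r : ℕ) :
    ‖𝒜.termM S r‖ ≤ S.K / rad S β ^ (r + 2) := by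
  have h1 := h.one_le
  have hρ := S.pos
  have hK := S.K0
  have hr := rad_pos S h1
  refine ContinuousMultilinearMap.opNorm_le_bound (by positivity) fun u => ?_
  refine (pi_norm_le_iff_of_nonneg (by positivity)).2 fun i => ?_
  have hp : ‖S.p (r + 2)‖ ≤ S.K / S.ρ ^ (r + 2) := by
    rw [le_div_iff₀ (by positivity)]; exact S.bd _
  have hc : ∀ α : Fin (r + 2) → κ,
      ‖S.p (r + 2) (fun j => Pi.single (α j) 1) i • 𝒜.prd r fun j => u j (α j)‖
        ≤ S.K / S.ρ ^ (r + 2) * ((β ^ 2) ^ (r + 2) * ∏ j, ‖u j‖) := by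
    intro α
    rw [norm_smul]
    refine mul_le_mul ?_ ((norm_prd' h r _).trans ?_) (norm_nonneg _) (by positivity)
    · refine (norm_le_pi_norm _ i).trans (((S.p (r + 2)).le_opNorm _).trans ?_)
      simpa [Pi.norm_single] using hp
    · gcongr with j
      exact norm_le_pi_norm _ _
  rw [termM_apply]
  refine (norm_sum_le _ _).trans ((Finset.sum_le_sum fun α _ => hc α).trans ?_)
  rw [Finset.sum_const, Finset.card_univ, Fintype.card_fun, Fintype.card_fin, nsmul_eq_mul]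
  push_cast
  calc (Fintype.card κ : ℝ) ^ (r + 2) * (S.K / S.ρ ^ (r + 2) * ((β ^ 2) ^ (r + 2) * ∏ j, ‖u j‖))
      ≤ (Fintype.card κ + 1 : ℝ) ^ (r + 2) *
        (S.K / S.ρ ^ (r + 2) * ((β ^ 2) ^ (r + 2) * ∏ j, ‖u j‖)) := by gcongr; linarith
    _ = _ := by
      unfold rad
      rw [div_pow]
      simp only [mul_pow]
      field_simp

theorem hasFPowerSeriesAt_Qh [CompleteSpace A2] (h : 𝒜.Bnd β) (S : Ser Q) :
    HasFPowerSeriesAt (𝒜.Qh S) (𝒜.ser S) 0 := by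
  have hr := rad_pos S h.one_le
  have hK := S.K0
  let ρ : ℝ≥0 := ⟨rad S β / 2, by positivity⟩
  let ρ' : ℝ≥0 := ⟨rad S β, hr.le⟩
  refine ⟨ρ, ⟨le_trans ?_ ((𝒜.ser S).le_radius_of_bound S.K (r := ρ') fun n => ?_), ?_,
    fun {J} hJ => ?_⟩⟩
  · exact ENNReal.coe_le_coe.2 (show rad S β / 2 ≤ rad S β by linarith)
  · match n with
    | 0 => simp [ser_zero, hK.le]
    | 1 => simp [ser_one, hK.le]
    | r + 2 => exact (le_div_iff₀ (pow_pos hr _)).1 (norm_termM h S r)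
  · exact ENNReal.coe_pos.2 (show (0 : ℝ) < rad S β / 2 by positivity)
  · have hJ' : ‖J‖ ≤ rad S β / 2 := by
      rw [mem_eball_zero_iff, ← ofReal_norm, ← ENNReal.ofReal_coe_nnreal] at hJ
      exact ((ENNReal.ofReal_lt_ofReal_iff_of_nonneg (norm_nonneg _)).1 hJ).le
    rw [zero_add, ← hasSum_nat_add_iff' 2]
    simpa [Finset.sum_range_succ, ser_zero, ser_one, ser_two, termM_diag]
      using hasSum_Qh h S hJ'

end Alg

end Crest.Agent.N207.L
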