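import Mathlib

/-!
Row 207, block L (helper82), lemma X, part a: a holomorphic function on half strips which is
almost `2πi` periodic has a limit, with a rate.
-/

set_option autoImplicit false

open Complex Set Filter Topology MeasureTheory intervalIntegral
open scoped Real

noncomputable section

namespace Crest.Agent.N207.L.X

variable {E : Type*} [NormedAddCommGroup E] [NormedSpace ℂ E]

/-- the period -/
def pr : ℂ := 2 * π * I

/-- half strips -/
def Strip (R Y : ℝ) : Set ℂ := {l | R < l.re ∧ |l.im| < Y}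

lemma isOpen_Strip (R Y : ℝ) : IsOpen (Strip R Y) :=
  (isOpen_lt continuous_const continuous_re).inter
    (isOpen_lt (continuous_im.abs) continuous_const)

/-- holomorphic far out on every half strip -/
def Hol (g : ℂ → E) : Prop := ∀ Y : ℝ, ∃ R, DifferentiableOn ℂ g (Strip R Y)

/-- `O(e^{-b Re l})` on every half strip -/
def Bd (b : ℝ) (g : ℂ → E) : Prop :=
  ∀ Y : ℝ, ∃ R C, ∀ l ∈ Strip R Y, ‖g l‖ ≤ C * Real.exp (-b * l.re)

/-- the mean over a vertical period -/
def mean (g : ℂ → E) (u y : ℝ) : E := ∫ v in (y - π)..(y + π), g (u + v * I)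

lemma pr_shift (s y : ℝ) : (s : ℂ) + ((y - π : ℝ) : ℂ) * I + pr = s + ((y + π : ℝ) : ℂ) * I := by
  unfold pr; push_cast; ring

lemma int_exp_le {a u u' : ℝ} (ha : 0 < a) :
    ∫ s in u..u', Real.exp (-a * s) ≤ Real.exp (-a * u) / a := by
  have h : ∀ s : ℝ, HasDerivAt (fun s => -Real.exp (-a * s) / a) (Real.exp (-a * s)) s := by
    intro s
    have := (((hasDerivAt_id s).const_mul (-a)).exp.neg).div_const a
    refine this.congr_deriv ?_
    simp only [id]; field_simp
  rw [integral_eq_sub_of_hasDerivAt (fun s _ => h s)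
    (Continuous.intervalIntegrable (by fun_prop) _ _)]
  have := Real.exp_pos (-a * u')
  have : 0 < Real.exp (-a * u') / a := by positivity
  rw [neg_div, neg_div]; linarith

lemma mem_of {R Y u v y : ℝ} (hu : R < u) (hy : |y| < Y) (hv : v ∈ uIcc (y - π) (y + π)) :
    (u : ℂ) + v * I ∈ Strip R (Y + 4) := by
  rw [uIcc_of_le (by linarith [Real.pi_pos])] at hv
  refine ⟨by simpa using hu, ?_⟩
  have := Real.pi_le_four
  have := abs_lt.1 hy
  simp only [add_im, ofReal_im, mul_im, ofReal_re, I_im, mul_one, I_re, mul_zero, add_zero,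
    zero_add]
  rw [abs_lt]; constructor <;> linarith [hv.1, hv.2]

section core
variable {g : ℂ → E} {R Y : ℝ} (hg : DifferentiableOn ℂ g (Strip R (Y + 4)))
include hg

lemma cont_hor {u u' v y : ℝ} (hu : R < u) (huu : u ≤ u') (hy : |y| < Y)
    (hv : v ∈ uIcc (y - π) (y + π)) : ContinuousOn (fun s : ℝ => g (s + v * I)) (uIcc u u') := by
  refine hg.continuousOn.comp (by fun_prop) fun s hs => mem_of ?_ hy hv
  rw [uIcc_of_le huu] at hs; linarith [hs.1]

omit hg in
lemma rect_sub {u u' y : ℝ} (hu : R < u) (huu : u ≤ u') (hy : |y| < Y) :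
    (uIcc u u' ×ℂ uIcc (y - π) (y + π)) ⊆ Strip R (Y + 4) := by
  intro z hz
  rw [mem_reProdIm] at hz
  rw [← re_add_im z]
  refine mem_of ?_ hy hz.2
  have := hz.1; rw [uIcc_of_le huu] at this; linarith [this.1]

lemma mean_sub [CompleteSpace E] {u u' y : ℝ} (hu : R < u) (huu : u ≤ u') (hy : |y| < Y) :
    I • (mean g u' y - mean g u y) =
      ∫ s in u..u', fwdDiff pr g (s + ((y - π : ℝ) : ℂ) * I) := by
  have h := integral_boundary_rect_eq_zero_of_differentiableOn g (u + ((y - π : ℝ) : ℂ) * I)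
    (u' + ((y + π : ℝ) : ℂ) * I) (hg.mono (by simpa using rect_sub hu huu hy))
  simp only [add_re, ofReal_re, mul_re, I_re, mul_zero, ofReal_im, I_im, mul_one, sub_self,
    add_zero, add_im, mul_im, zero_add] at h
  simp only [fwdDiff, pr_shift]
  rw [integral_sub ((cont_hor hg hu huu hy right_mem_uIcc).intervalIntegrable)
    ((cont_hor hg hu huu hy left_mem_uIcc).intervalIntegrable), smul_sub]
  unfold mean
  rw [← sub_eq_zero, ← h]; abel

end core

lemma kb_le {b x s : ℝ} (hb0 : 0 ≤ b) (hb1 : b ≤ 1) :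
    (1 + Real.exp (x - s))⁻¹ ≤ Real.exp (b * (s - x)) := by
  have h0 := Real.exp_pos (x - s)
  rw [inv_le_iff_one_le_mul₀ (by positivity)]
  rcases le_total x s with h | h
  · have : 1 ≤ Real.exp (b * (s - x)) := Real.one_le_exp (mul_nonneg hb0 (by linarith))
    nlinarith
  · have h1 : 1 ≤ Real.exp (b * (s - x)) * Real.exp (x - s) := by
      rw [← Real.exp_add]; apply Real.one_le_exp; nlinarith
    nlinarith [Real.exp_pos (b * (s - x))]

/-- the Cauchy kernel of the cylinder -/
def ker (l w : ℂ) : ℂ := (1 - exp (l - w))⁻¹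

lemma one_sub_exp_ne {l w : ℂ} (hw : w ≠ l) (h : |w.im - l.im| ≤ π) : 1 - exp (l - w) ≠ 0 := by
  intro h0
  obtain ⟨n, hn⟩ := Complex.exp_eq_one_iff.1 (sub_eq_zero.1 h0).symm
  have h1 : l.im - w.im = n * (2 * π) := by simpa using congrArg Complex.im hn
  have hn0 : n = 0 := by
    by_contra hne
    have h2 : (1 : ℝ) ≤ |(n : ℝ)| := by exact_mod_cast Int.one_le_abs hne
    rw [abs_sub_comm, h1, abs_mul, abs_of_pos (by positivity : (0 : ℝ) < 2 * π)] at h
    nlinarith [Real.pi_pos]
  rw [hn0] at hn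
  exact hw (by simpa [sub_eq_zero, eq_comm] using hn)

/-- Cauchy's formula on a rectangle of height `2π` centred at `l`. -/
lemma cauchy [CompleteSpace E] {g : ℂ → E} {R Y : ℝ} (hg : DifferentiableOn ℂ g (Strip R (Y + 4)))
    {u u' : ℝ} {l : ℂ} (hu : R < u) (hul : u < l.re) (hlu : l.re < u') (hy : |l.im| < Y) :
    I • (∫ v in (l.im - π)..(l.im + π), ker l (u' + v * I) • (g (u' + v * I) - g l)) -
      I • (∫ v in (l.im - π)..(l.im + π), ker l (u + v * I) • (g (u + v * I) - g l)) =
      ∫ s in u..u', (((1 + Real.exp (l.re - s))⁻¹ : ℝ) : ℂ) •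
        fwdDiff pr g (s + ((l.im - π : ℝ) : ℂ) * I) := by
  have huu : u ≤ u' := by linarith
  set e : ℂ → ℂ := fun w => 1 - exp (l - w) with he
  have hde : ∀ w, HasDerivAt e (exp (l - w)) w := fun w => by
    simpa using (((hasDerivAt_id w).const_sub l).cexp).const_sub 1
  set ψ : ℂ → E := fun w => (dslope e l w)⁻¹ • dslope g l w with hψ
  have hψe : ∀ w, w ≠ l → ψ w = ker l w • (g w - g l) := fun w hw => by
    simp only [hψ, dslope_of_ne _ hw, slope_def_module, smul_smul, he, ker, sub_self, exp_zero,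
      sub_zero, smul_eq_mul]
    congr 1
    have := sub_ne_zero.2 hw
    field_simp
  have hsub := rect_sub hu huu hy
  have hlm : l ∈ Strip R (Y + 4) := ⟨by linarith, by linarith⟩
  have hne : ∀ w ∈ uIcc u u' ×ℂ uIcc (l.im - π) (l.im + π), dslope e l w ≠ 0 := fun w hw => by
    by_cases hwl : w = l
    · rw [hwl, dslope_same, (hde l).deriv]; simp
    · rw [dslope_of_ne _ hwl, slope_def_module]
      have h2 := (mem_reProdIm.1 hw).2
      rw [uIcc_of_le (by linarith [Real.pi_pos])] at h2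
      refine smul_ne_zero (inv_ne_zero (sub_ne_zero.2 hwl)) ?_
      simpa [he] using one_sub_exp_ne hwl (abs_le.2 ⟨by linarith [h2.1], by linarith [h2.2]⟩)
  have hdg : DifferentiableOn ℂ (dslope g l) (Strip R (Y + 4)) :=
    (differentiableOn_dslope ((isOpen_Strip _ _).mem_nhds hlm)).2 hg
  have hde' : Differentiable ℂ (dslope e l) := by
    rw [← differentiableOn_univ]
    exact (differentiableOn_dslope univ_mem).2 fun w _ =>
      (hde w).differentiableAt.differentiableWithinAt
  have hψd : DifferentiableOn ℂ ψ (uIcc u u' ×ℂ uIcc (l.im - π) (l.im + π)) :=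
    (hde'.differentiableOn.inv hne).smul (hdg.mono hsub)
  have h := integral_boundary_rect_eq_zero_of_differentiableOn ψ (u + ((l.im - π : ℝ) : ℂ) * I)
    (u' + ((l.im + π : ℝ) : ℂ) * I) (by simpa using hψd)
  simp only [add_re, ofReal_re, mul_re, I_re, mul_zero, ofReal_im, I_im, mul_one, sub_self,
    add_zero, add_im, mul_im, zero_add] at h
  have n1 : ∀ (s v : ℝ), s ≠ l.re → (s : ℂ) + v * I ≠ l := fun s v hs h0 =>
    hs (by simpa using congrArg Complex.re h0)
  have n2 : ∀ (s v : ℝ), v ≠ l.im → (s : ℂ) + v * I ≠ l := fun s v hs h0 =>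
    hs (by simpa using congrArg Complex.im h0)
  have k1 : ∀ (s v : ℝ), (v = l.im - π ∨ v = l.im + π) →
      ker l (s + v * I) = (((1 + Real.exp (l.re - s))⁻¹ : ℝ) : ℂ) := fun s v hv => by
    have : exp (l - (s + v * I)) = -((Real.exp (l.re - s) : ℝ) : ℂ) := by
      rcases hv with rfl | rfl
      · rw [show l - (s + ((l.im - π : ℝ) : ℂ) * I) = ((l.re - s : ℝ) : ℂ) + π * I by
          apply Complex.ext <;> simp, exp_add_pi_mul_I, ofReal_exp]
      · rw [show l - (s + ((l.im + π : ℝ) : ℂ) * I) = ((l.re - s : ℝ) : ℂ) - π * I by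
          apply Complex.ext <;> simp, exp_sub_pi_mul_I, ofReal_exp]
    rw [ker, this]; push_cast; ring_nf
  have hp := Real.pi_pos
  simp only [fun v : ℝ => hψe _ (n1 u v hul.ne), fun v : ℝ => hψe _ (n1 u' v hlu.ne'),
    fun s : ℝ => hψe _ (n2 s (l.im - π) (by linarith)),
    fun s : ℝ => hψe _ (n2 s (l.im + π) (by linarith)),
    fun s : ℝ => k1 s _ (Or.inl rfl), fun s : ℝ => k1 s _ (Or.inr rfl)] at h
  have hk : Continuous fun s : ℝ => (((1 + Real.exp (l.re - s))⁻¹ : ℝ) : ℂ) :=
    continuous_ofReal.comp (Continuous.inv₀ (by fun_prop) fun s => by positivity)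
  have i1 : ∀ v ∈ uIcc (l.im - π) (l.im + π), IntervalIntegrable
      (fun s : ℝ => (((1 + Real.exp (l.re - s))⁻¹ : ℝ) : ℂ) • (g (s + v * I) - g l)) volume u u' :=
    fun v hv => (hk.continuousOn.smul ((cont_hor hg hu huu hy hv).sub
      continuousOn_const)).intervalIntegrable
  rw [← integral_sub (i1 _ left_mem_uIcc) (i1 _ right_mem_uIcc)] at h
  have h3 : (∫ s in u..u', (((1 + Real.exp (l.re - s))⁻¹ : ℝ) : ℂ) •
        fwdDiff pr g (s + ((l.im - π : ℝ) : ℂ) * I)) = -∫ s in u..u',
        ((((1 + Real.exp (l.re - s))⁻¹ : ℝ) : ℂ) • (g (s + ((l.im - π : ℝ) : ℂ) * I) - g l) -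
        (((1 + Real.exp (l.re - s))⁻¹ : ℝ) : ℂ) • (g (s + ((l.im + π : ℝ) : ℂ) * I) - g l)) := by
    rw [← intervalIntegral.integral_neg]
    congr 1; funext s
    simp only [fwdDiff, pr_shift, smul_sub]; abel
  rw [h3, ← sub_eq_zero, ← h]; abel

lemma cont_ver {g : ℂ → E} {R Y : ℝ} (hg : DifferentiableOn ℂ g (Strip R Y)) {u a b : ℝ}
    (hu : R < u) (ha : |a| < Y) (hb : |b| < Y) :
    ContinuousOn (fun v : ℝ => g (u + v * I)) (uIcc a b) := by
  refine hg.continuousOn.comp (by fun_prop) fun v hv => ⟨by simpa using hu, ?_⟩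
  have h1 := abs_lt.1 ha
  have h2 := abs_lt.1 hb
  have : |v| < Y := by
    rcases mem_uIcc.1 hv with h | h <;> rw [abs_lt] <;> constructor <;> linarith [h.1, h.2]
  simpa using this

lemma mean_sub_y {g : ℂ → E} {R Y C a : ℝ} (hg : DifferentiableOn ℂ g (Strip R (Y + 4)))
    (hr : ∀ l ∈ Strip R (Y + 4), ‖fwdDiff pr g l‖ ≤ C * Real.exp (-a * l.re))
    {u y : ℝ} (hu : R < u) (hy : |y| < Y) :
    ‖mean g u y - mean g u 0‖ ≤ C * Real.exp (-a * u) * Y := by
  have hp := Real.pi_pos
  have hp4 := Real.pi_lt_four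
  have hy' := abs_lt.1 hy
  have q : ∀ {t : ℝ}, -(Y + 4) < t → t < Y + 4 → |t| < Y + 4 := fun h1 h2 => abs_lt.2 ⟨h1, h2⟩
  have I1 : ∀ {s t : ℝ}, |s| < Y + 4 → |t| < Y + 4 →
      IntervalIntegrable (fun v : ℝ => g (u + v * I)) volume s t :=
    fun hs ht => (cont_ver hg hu hs ht).intervalIntegrable
  have a1 : |y - π| < Y + 4 := q (by linarith) (by linarith)
  have a2 : |y + π| < Y + 4 := q (by linarith) (by linarith)
  have a3 : |0 - π| < Y + 4 := q (by linarith) (by linarith)
  have a4 : |0 + π| < Y + 4 := q (by linarith) (by linarith)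
  have e1 : mean g u y - mean g u 0 =
      ∫ v in (0 - π)..(y - π), fwdDiff pr g (u + v * I) := by
    unfold mean
    rw [integral_interval_sub_interval_comm (I1 a1 a2) (I1 a3 a4) (I1 a1 a3)]
    have e2 : ∫ v in (0 - π)..(y - π), g (u + v * I + pr) =
        ∫ v in (0 + π)..(y + π), g (u + v * I) := by
      have := intervalIntegral.integral_comp_add_right (a := 0 - π) (b := y - π)
        (fun v : ℝ => g (u + v * I)) (2 * π)
      rw [show 0 - π + 2 * π = 0 + π by ring, show y - π + 2 * π = y + π by ring] at this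
      rw [← this]
      congr 1; funext v; congr 1; unfold pr; push_cast; ring
    have I2 : IntervalIntegrable (fun v : ℝ => g (u + v * I + pr)) volume (0 - π) (y - π) := by
      have := (I1 a4 a2).comp_add_right (2 * π)
      rw [show 0 + π - 2 * π = 0 - π by ring, show y + π - 2 * π = y - π by ring] at this
      refine this.congr fun v _ => ?_
      congr 1; unfold pr; push_cast; ring
    simp only [fwdDiff]
    rw [integral_sub I2 (I1 a3 a1), e2, integral_symm (0 - π) (y - π),
      integral_symm (0 + π) (y + π)]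
    abel
  rw [e1]
  refine (intervalIntegral.norm_integral_le_of_norm_le_const (C := C * Real.exp (-a * u))
    fun v hv => ?_).trans ?_
  · have hm : (u : ℂ) + v * I ∈ Strip R (Y + 4) := by
      refine ⟨by simpa using hu, ?_⟩
      have : |v| < Y + 4 := by
        rcases mem_uIoc.1 hv with h | h <;> apply q <;> linarith [h.1, h.2]
      simpa using this
    simpa using hr _ hm
  · have h0 : 0 ≤ C * Real.exp (-a * u) := by
      have hm : (u : ℂ) ∈ Strip R (Y + 4) := ⟨by simpa using hu, by simp; linarith⟩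
      simpa using (norm_nonneg _).trans (hr _ hm)
    rw [show y - π - (0 - π) = y by ring]
    exact mul_le_mul_of_nonneg_left hy.le h0

lemma mean_sub_le [CompleteSpace E] {g : ℂ → E} {R Y C a : ℝ} (ha : 0 < a)
    (hg : DifferentiableOn ℂ g (Strip R (Y + 4)))
    (hr : ∀ l ∈ Strip R (Y + 4), ‖fwdDiff pr g l‖ ≤ C * Real.exp (-a * l.re)) (hC : 0 ≤ C)
    {u u' y : ℝ} (hu : R < u) (huu : u ≤ u') (hy : |y| < Y) :
    ‖mean g u' y - mean g u y‖ ≤ C * (Real.exp (-a * u) / a) := by
  have h := mean_sub hg hu huu hy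
  have h1 : ‖mean g u' y - mean g u y‖ = ‖I • (mean g u' y - mean g u y)‖ := by
    rw [norm_smul, norm_I, one_mul]
  rw [h1, h]
  refine (norm_integral_le_of_norm_le huu (g := fun s => C * Real.exp (-a * s))
    (Eventually.of_forall fun s hs => ?_)
    (Continuous.intervalIntegrable (by fun_prop) _ _)).trans ?_
  · simpa using hr _ (mem_of (lt_of_lt_of_le hu hs.1.le) hy left_mem_uIcc)
  · rw [intervalIntegral.integral_const_mul]
    exact mul_le_mul_of_nonneg_left (int_exp_le ha) hC

lemma norm_ker_left {l : ℂ} {u v : ℝ} (h : u + 1 ≤ l.re) :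
    ‖ker l (u + v * I)‖ ≤ 2 * Real.exp (u - l.re) := by
  have h1 : ‖exp (l - (u + v * I))‖ = Real.exp (l.re - u) := by rw [norm_exp]; simp
  have h2 : 2 ≤ Real.exp (l.re - u) := by linarith [Real.add_one_le_exp (l.re - u)]
  have h3 : Real.exp (l.re - u) / 2 ≤ ‖1 - exp (l - (u + v * I))‖ := by
    have := norm_sub_norm_le (exp (l - (u + v * I))) 1
    rw [norm_sub_rev, h1, norm_one] at this; linarith
  rw [ker, norm_inv]
  refine (inv_anti₀ (by positivity) h3).trans (le_of_eq ?_)
  rw [show u - l.re = -(l.re - u) by ring, Real.exp_neg]; field_simp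

lemma norm_ker_right {l : ℂ} {u v : ℝ} (h : l.re + 1 ≤ u) :
    ‖ker l (u + v * I) - 1‖ ≤ 2 * Real.exp (l.re - u) := by
  have h1 : ‖exp (l - (u + v * I))‖ = Real.exp (l.re - u) := by rw [norm_exp]; simp
  have h2 : Real.exp (l.re - u) ≤ 1 / 2 := by
    have : 2 ≤ Real.exp (u - l.re) := by linarith [Real.add_one_le_exp (u - l.re)]
    rw [show l.re - u = -(u - l.re) by ring, Real.exp_neg, one_div]
    exact inv_anti₀ (by norm_num) this
  have h3 : 1 / 2 ≤ ‖1 - exp (l - (u + v * I))‖ := by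
    have := norm_sub_norm_le 1 (exp (l - (u + v * I)))
    rw [h1, norm_one] at this; linarith
  have hne : 1 - exp (l - (u + v * I)) ≠ 0 := by
    intro h0; rw [h0, norm_zero] at h3; linarith
  rw [show ker l (u + v * I) - 1 = exp (l - (u + v * I)) / (1 - exp (l - (u + v * I))) by
    rw [ker]; field_simp; ring, norm_div, h1, div_le_iff₀ (by linarith)]
  nlinarith [Real.exp_pos (l.re - u)]

end Crest.Agent.N207.L.X
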