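import Crest.Agent.N207.L.Xa

/-!
Row 207, block L (helper82), lemma X, part b: limits and expansions in `e^{-l}` of almost
periodic holomorphic functions on half strips.
-/

set_option autoImplicit false

open Complex Set Filter Topology MeasureTheory intervalIntegral
open scoped Real

noncomputable section

namespace Crest.Agent.N207.L.X

variable {E : Type*} [NormedAddCommGroup E] [NormedSpace ℂ E]

lemma Strip_mono {R R' Y Y' : ℝ} (h : R ≤ R') (h' : Y' ≤ Y) : Strip R' Y' ⊆ Strip R Y :=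
  fun _ hl => ⟨lt_of_le_of_lt h hl.1, lt_of_lt_of_le hl.2 h'⟩

omit [NormedSpace ℂ E] in
lemma Bd.pos {b : ℝ} {g : ℂ → E} (h : Bd b g) (Y : ℝ) :
    ∃ R C, 0 ≤ R ∧ 0 ≤ C ∧ ∀ l ∈ Strip R Y, ‖g l‖ ≤ C * Real.exp (-b * l.re) := by
  obtain ⟨R, C, h⟩ := h Y
  refine ⟨max R 0, max C 0, le_max_right _ _, le_max_right _ _, fun l hl => ?_⟩
  exact (h l (Strip_mono (le_max_left _ _) le_rfl hl)).trans
    (mul_le_mul_of_nonneg_right (le_max_left _ _) (Real.exp_pos _).le)

lemma exists_mean_lim [CompleteSpace E] {g : ℂ → E} (hg : Hol g) {a : ℝ} (ha : 0 < a)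
    (hr : Bd a (fwdDiff pr g)) :
    ∃ (m : E) (R C : ℝ), 0 ≤ C ∧ ∀ u, R < u → ‖mean g u 0 - m‖ ≤ C * Real.exp (-a * u) := by
  obtain ⟨R1, h1⟩ := hg (1 + 4)
  obtain ⟨R2, C, -, hC, h2⟩ := hr.pos (1 + 4)
  set R := max R1 R2
  have h1' := h1.mono (Strip_mono (le_max_left R1 R2) le_rfl)
  have h2' := fun l hl => h2 l (Strip_mono (le_max_right R1 R2) le_rfl hl)
  have key : ∀ u u', R < u → u ≤ u' → ‖mean g u' 0 - mean g u 0‖ ≤ C * (Real.exp (-a * u) / a) :=
    fun u u' hu huu => mean_sub_le ha h1' h2' hC hu huu (by simp)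
  have ht : Tendsto (fun n : ℕ => R + 1 + (n : ℝ)) atTop atTop :=
    tendsto_atTop_add_const_left _ _ tendsto_natCast_atTop_atTop
  have hc : CauchySeq fun n : ℕ => mean g (R + 1 + n) 0 := by
    refine cauchySeq_of_le_tendsto_0' (fun n : ℕ => C * (Real.exp (-a * (R + 1 + n)) / a))
      (fun n m hnm => ?_) ?_
    · rw [dist_comm, dist_eq_norm]
      exact key _ _ (by linarith [Nat.cast_nonneg (α := ℝ) n])
        (by have : (n : ℝ) ≤ m := by exact_mod_cast hnm
            linarith)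
    · have := ((Real.tendsto_exp_atBot.comp (ht.const_mul_atTop_of_neg (neg_lt_zero.2 ha))).div_const
        a).const_mul C
      simpa using this
  obtain ⟨m, hm⟩ := cauchySeq_tendsto_of_complete hc
  refine ⟨m, R, C / a, by positivity, fun u hu => ?_⟩
  rw [norm_sub_rev]
  refine le_of_tendsto ((hm.sub_const (mean g u 0)).norm) ?_
  filter_upwards [ht.eventually_ge_atTop u] with n hn
  exact (key u _ hu hn).trans (le_of_eq (by ring))

theorem exists_lim [CompleteSpace E] {g : ℂ → E} (hg : Hol g) {η a : ℝ} (hη0 : 0 ≤ η)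
    (hη : η < 1) (hb : Bd (-η) g) (ha : 0 < a) (hr : Bd a (fwdDiff pr g)) :
    ∃ c : E, ∀ b, 0 ≤ b → b < a → b ≤ 1 - η → Bd b fun l => g l - c := by
  obtain ⟨m, R0, C0, hC0, hm⟩ := exists_mean_lim hg ha hr
  refine ⟨((2 * π : ℝ) : ℂ)⁻¹ • m, fun b hb0 hba hb1 Y => ?_⟩
  obtain ⟨R1, h1⟩ := hg (Y + 4)
  obtain ⟨R2, C2, hR2, hC2, h2⟩ := hb.pos (Y + 4)
  obtain ⟨R3, C3, -, hC3, h3⟩ := hr.pos (Y + 4)
  obtain ⟨R, r0, r1, r2, r3⟩ : ∃ R, R0 ≤ R ∧ R1 ≤ R ∧ R2 ≤ R ∧ R3 ≤ R :=
    ⟨max (max R0 R1) (max R2 R3), by simp, by simp, by simp, by simp⟩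
  have h1' := h1.mono (Strip_mono r1 le_rfl)
  have h2' := fun l hl => h2 l (Strip_mono r2 le_rfl hl)
  have h3' := fun l hl => h3 l (Strip_mono r3 le_rfl hl)
  have hp := Real.pi_pos
  refine ⟨R + 2, C3 * Y + C0 + 8 * π * C2 + 8 * π * C2 * Real.exp (R + 1) +
    C3 * (Real.exp (-(a - b) * (R + 1)) / (a - b)), fun l hl => ?_⟩
  obtain ⟨hx, hy⟩ := hl
  have hY : 0 < Y := lt_of_le_of_lt (abs_nonneg _) hy
  set x := l.re with hxd
  set u := R + 1 with hu
  set u' := 2 * x / (1 - η) with hu'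
  have e1 : (1 - η) * u' = 2 * x := by rw [hu']; field_simp [(sub_pos.2 hη).ne']
  have hx2 : 2 ≤ x := by linarith
  have e2 : 2 * x ≤ u' := by
    rw [hu', le_div_iff₀ (by linarith)]; nlinarith
  have hlm : l ∈ Strip R (Y + 4) := ⟨by linarith, by linarith⟩
  have hc := cauchy h1' (u := u) (u' := u') (l := l) (by linarith) (by linarith) (by linarith) hy
  set T := Real.exp (-b * x) with hT
  have hT0 : 0 < T := Real.exp_pos _
  have gl : ‖g l‖ ≤ C2 * Real.exp (η * x) := by simpa using h2' l hlm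
  have gv : ∀ s v : ℝ, R < s → v ∈ uIoc (l.im - π) (l.im + π) →
      ‖g (s + v * I)‖ ≤ C2 * Real.exp (η * s) := fun s v hs hv => by
    simpa using h2' _ (mem_of hs hy (uIoc_subset_uIcc hv))
  have len : |l.im + π - (l.im - π)| = 2 * π := by
    rw [show l.im + π - (l.im - π) = 2 * π by ring, abs_of_pos (by positivity)]
  have cv : ContinuousOn (fun v : ℝ => g (u' + v * I)) (uIcc (l.im - π) (l.im + π)) :=
    h1'.continuousOn.comp (by fun_prop) fun v hv => mem_of (by linarith) hy hv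
  have ck : Continuous fun v : ℝ => ker l (u' + v * I) := by
    refine Continuous.inv₀ (by fun_prop) fun v h0 => ?_
    have h5 : ‖exp (l - (u' + v * I))‖ = 1 := by rw [← sub_eq_zero.1 h0, norm_one]
    rw [norm_exp, Real.exp_eq_one_iff] at h5
    simp at h5; linarith
  -- the right side
  set A2 := ∫ v in (l.im - π)..(l.im + π), (ker l (u' + v * I) - 1) • (g (u' + v * I) - g l)
  have eA : (∫ v in (l.im - π)..(l.im + π), ker l (u' + v * I) • (g (u' + v * I) - g l)) =
      A2 + (mean g u' l.im - ((2 * π : ℝ) : ℂ) • g l) := by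
    have i1 : IntervalIntegrable (fun v : ℝ => (ker l (u' + v * I) - 1) • (g (u' + v * I) - g l))
        volume (l.im - π) (l.im + π) :=
      (((ck.sub continuous_const).continuousOn).smul (cv.sub continuousOn_const)).intervalIntegrable
    have i2 : IntervalIntegrable (fun v : ℝ => g (u' + v * I) - g l) volume (l.im - π) (l.im + π) :=
      (cv.sub continuousOn_const).intervalIntegrable
    have e3 : (∫ v in (l.im - π)..(l.im + π), (g (u' + v * I) - g l)) =
        mean g u' l.im - ((2 * π : ℝ) : ℂ) • g l := by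
      rw [integral_sub cv.intervalIntegrable intervalIntegrable_const, intervalIntegral.integral_const,
        show l.im + π - (l.im - π) = 2 * π by ring, ← Complex.coe_smul]; rfl
    rw [← e3, ← integral_add i1 i2]
    congr 1; funext v; rw [sub_smul, one_smul]; abel
  set A1 := ∫ v in (l.im - π)..(l.im + π), ker l (u + v * I) • (g (u + v * I) - g l)
  set B := ∫ s in u..u', (((1 + Real.exp (l.re - s))⁻¹ : ℝ) : ℂ) •
        fwdDiff pr g (s + ((l.im - π : ℝ) : ℂ) * I)
  have b1 : ‖mean g u' l.im - mean g u' 0‖ ≤ C3 * Y * T := by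
    refine (mean_sub_y h1' h3' (by linarith) hy).trans ?_
    have : Real.exp (-a * u') ≤ T := Real.exp_le_exp.2 (by nlinarith)
    calc _ = C3 * Y * Real.exp (-a * u') := by ring
      _ ≤ _ := by gcongr
  have b2 : ‖mean g u' 0 - m‖ ≤ C0 * T := by
    refine (hm u' (by linarith)).trans ?_
    have : Real.exp (-a * u') ≤ T := Real.exp_le_exp.2 (by nlinarith)
    gcongr
  have b3 : ‖A2‖ ≤ 8 * π * C2 * T := by
    refine (intervalIntegral.norm_integral_le_of_norm_le_const (C := 4 * C2 * T)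
      fun v hv => ?_).trans (le_of_eq (by rw [len]; ring))
    rw [norm_smul]
    have f1 : ‖g (u' + v * I) - g l‖ ≤ 2 * C2 * Real.exp (η * u') := by
      have : Real.exp (η * x) ≤ Real.exp (η * u') := Real.exp_le_exp.2 (by nlinarith)
      have := (norm_sub_le _ _).trans (add_le_add (gv u' v (by linarith) hv) gl)
      nlinarith
    have f2 : Real.exp (x - u') * Real.exp (η * u') ≤ T := by
      rw [← Real.exp_add]; exact Real.exp_le_exp.2 (by nlinarith)
    calc _ ≤ 2 * Real.exp (x - u') * (2 * C2 * Real.exp (η * u')) := by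
          gcongr; exact norm_ker_right (by linarith)
      _ = 4 * C2 * (Real.exp (x - u') * Real.exp (η * u')) := by ring
      _ ≤ _ := by gcongr
  have b4 : ‖A1‖ ≤ 8 * π * C2 * Real.exp u * T := by
    refine (intervalIntegral.norm_integral_le_of_norm_le_const (C := 4 * C2 * Real.exp u * T)
      fun v hv => ?_).trans (le_of_eq (by rw [len]; ring))
    rw [norm_smul]
    have f1 : ‖g (u + v * I) - g l‖ ≤ 2 * C2 * Real.exp (η * x) := by
      have : Real.exp (η * u) ≤ Real.exp (η * x) := Real.exp_le_exp.2 (by nlinarith)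
      have := (norm_sub_le _ _).trans (add_le_add (gv u v (by linarith) hv) gl)
      nlinarith
    have f2 : Real.exp (u - x) * Real.exp (η * x) ≤ Real.exp u * T := by
      rw [← Real.exp_add, ← Real.exp_add]; exact Real.exp_le_exp.2 (by nlinarith)
    calc _ ≤ 2 * Real.exp (u - x) * (2 * C2 * Real.exp (η * x)) := by
          gcongr; exact norm_ker_left (by linarith)
      _ = 4 * C2 * (Real.exp (u - x) * Real.exp (η * x)) := by ring
      _ ≤ 4 * C2 * (Real.exp u * T) := by gcongr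
      _ = _ := by ring
  have b5 : ‖B‖ ≤ C3 * (Real.exp (-(a - b) * u) / (a - b)) * T := by
    refine (intervalIntegral.norm_integral_le_of_norm_le (by linarith)
      (g := fun s => C3 * T * Real.exp (-(a - b) * s)) (Eventually.of_forall fun s hs => ?_)
      (Continuous.intervalIntegrable (by fun_prop) _ _)).trans ?_
    · rw [norm_smul, norm_real, Real.norm_of_nonneg (by positivity)]
      have f1 : ‖fwdDiff pr g (s + ((l.im - π : ℝ) : ℂ) * I)‖ ≤ C3 * Real.exp (-a * s) := by
        simpa using h3' _ (mem_of (u := s) (by linarith [hs.1]) hy left_mem_uIcc)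
      calc _ ≤ Real.exp (b * (s - x)) * (C3 * Real.exp (-a * s)) := by
            gcongr; exact kb_le hb0 (by linarith)
        _ = C3 * (Real.exp (b * (s - x)) * Real.exp (-a * s)) := by ring
        _ = _ := by rw [hT, mul_assoc, ← Real.exp_add, ← Real.exp_add]; congr 2; ring
    · rw [intervalIntegral.integral_const_mul]
      calc _ ≤ C3 * T * (Real.exp (-(a - b) * u) / (a - b)) :=
            mul_le_mul_of_nonneg_left (int_exp_le (by linarith)) (by positivity)
        _ = _ := by ring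
  have hid : ((2 * π : ℝ) : ℂ) • (g l - ((2 * π : ℝ) : ℂ)⁻¹ • m) =
      (mean g u' l.im - mean g u' 0) + (mean g u' 0 - m) + A2 - A1 + I • B := by
    have hne : ((2 * π : ℝ) : ℂ) ≠ 0 := by exact_mod_cast (by positivity : (2 * π : ℝ) ≠ 0)
    rw [← hc, eA, smul_sub, smul_inv_smul₀ hne, smul_sub, smul_smul, smul_smul, I_mul_I]
    simp only [neg_smul, one_smul]; abel
  have hn : ‖g l - ((2 * π : ℝ) : ℂ)⁻¹ • m‖ ≤ ‖((2 * π : ℝ) : ℂ) • (g l - ((2 * π : ℝ) : ℂ)⁻¹ • m)‖ := by
    rw [norm_smul, norm_real, Real.norm_of_nonneg (by positivity)]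
    nlinarith [norm_nonneg (g l - ((2 * π : ℝ) : ℂ)⁻¹ • m), Real.pi_gt_three]
  refine hn.trans ?_
  rw [hid]
  have t1 := norm_add_le ((mean g u' l.im - mean g u' 0) + (mean g u' 0 - m) + A2 - A1) (I • B)
  have t2 := norm_sub_le ((mean g u' l.im - mean g u' 0) + (mean g u' 0 - m) + A2) A1
  have t3 := norm_add_le ((mean g u' l.im - mean g u' 0) + (mean g u' 0 - m)) A2
  have t4 := norm_add_le (mean g u' l.im - mean g u' 0) (mean g u' 0 - m)
  rw [norm_smul, norm_I, one_mul] at t1
  linarith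

end Crest.Agent.N207.L.X
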