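import Crest.Agent.N207.L.Xb

/-!
Row 207, block L (helper82), lemma X, part c: expansions on half strips, uniqueness.
-/

set_option autoImplicit false

open Complex Set Filter Topology
open scoped Real

noncomputable section

namespace Crest.Agent.N207.L.X

variable {E : Type*} [NormedAddCommGroup E] [NormedSpace ℂ E]

section basic
omit [NormedSpace ℂ E]

/-- `O(e^{-b Re l})` for all `b < a` -/
def Sm (a : ℝ) (g : ℂ → E) : Prop := ∀ b, b < a → Bd b g

lemma Bd.mono {b b' : ℝ} {g : ℂ → E} (h : Bd b g) (hb : b' ≤ b) : Bd b' g := fun Y => by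
  obtain ⟨R, C, hR, hC, h⟩ := h.pos Y
  refine ⟨R, C, fun l hl => (h l hl).trans ?_⟩
  have : 0 ≤ l.re := hR.trans hl.1.le
  gcongr

lemma Bd.add {b : ℝ} {f g : ℂ → E} (hf : Bd b f) (hg : Bd b g) : Bd b fun l => f l + g l :=
  fun Y => by
  obtain ⟨R, C, h⟩ := hf Y
  obtain ⟨R', C', h'⟩ := hg Y
  refine ⟨max R R', C + C', fun l hl => (norm_add_le _ _).trans ?_⟩
  rw [add_mul]
  exact add_le_add (h l (Strip_mono (le_max_left _ _) le_rfl hl))
    (h' l (Strip_mono (le_max_right _ _) le_rfl hl))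

lemma Bd.neg {b : ℝ} {f : ℂ → E} (hf : Bd b f) : Bd b fun l => -f l := fun Y => by
  simpa only [norm_neg] using hf Y

lemma Bd.sub {b : ℝ} {f g : ℂ → E} (hf : Bd b f) (hg : Bd b g) : Bd b fun l => f l - g l := by
  simpa only [sub_eq_add_neg] using hf.add hg.neg

lemma Bd.zero (b : ℝ) : Bd b fun _ => (0 : E) := fun _ => ⟨0, 0, fun _ _ => by simp⟩

lemma Bd.sum {ι : Type*} {b : ℝ} (s : Finset ι) {f : ι → ℂ → E} (h : ∀ i ∈ s, Bd b (f i)) :
    Bd b fun l => ∑ i ∈ s, f i l := by
  classical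
  induction s using Finset.induction_on with
  | empty => simpa using Bd.zero b
  | insert a s ha ih =>
    simp only [Finset.sum_insert ha]
    exact (h a (Finset.mem_insert_self _ _)).add (ih fun i hi => h i (Finset.mem_insert_of_mem hi))

lemma Bd.const (c : E) : Bd 0 fun _ => c := fun _ => ⟨0, ‖c‖, fun _ _ => by simp⟩

lemma shift_mem {R Y : ℝ} {l : ℂ} (hl : l ∈ Strip R Y) : l + pr ∈ Strip R (Y + 7) := by
  refine ⟨by simpa [pr] using hl.1, ?_⟩
  have h1 : (l + pr).im = l.im + 2 * π := by simp [pr]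
  have := abs_lt.1 hl.2
  rw [h1, abs_lt]; constructor <;> linarith [Real.pi_pos, Real.pi_lt_d2]

lemma Bd.dif {b : ℝ} {f : ℂ → E} (hf : Bd b f) : Bd b (fwdDiff pr f) := by
  refine Bd.sub (f := fun l => f (l + pr)) (fun Y => ?_) hf
  obtain ⟨R, C, h⟩ := hf (Y + 7)
  exact ⟨R, C, fun l hl => by simpa [pr] using h _ (shift_mem hl)⟩

lemma Bd.const_eq_zero {b : ℝ} (hb : 0 < b) {c : E} (h : Bd b fun _ => c) : c = 0 := by
  obtain ⟨R, C, h⟩ := h 1
  have ht : Tendsto (fun x : ℝ => C * Real.exp (-b * x)) atTop (𝓝 0) := by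
    simpa using (Real.tendsto_exp_atBot.comp
      (tendsto_id.const_mul_atTop_of_neg (neg_lt_zero.2 hb))).const_mul C
  refine norm_le_zero_iff.1 (ge_of_tendsto ht ?_)
  filter_upwards [eventually_gt_atTop R] with x hx
  simpa using h x ⟨by simpa using hx, by simp⟩

end basic

lemma Bd.exp_smul {b : ℝ} {f : ℂ → E} (hf : Bd b f) (k : ℝ) :
    Bd (b + k) fun l => exp (-k * l) • f l := fun Y => by
  obtain ⟨R, C, h⟩ := hf Y
  refine ⟨R, C, fun l hl => ?_⟩
  rw [norm_smul, norm_exp, show -(b + k) * l.re = -b * l.re + -k * l.re by ring, Real.exp_add,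
    ← mul_assoc, mul_comm]
  have : (-(k : ℂ) * l).re = -k * l.re := by simp
  rw [this]
  exact mul_le_mul_of_nonneg_right (h l hl) (Real.exp_pos _).le

lemma Bd.pow_smul {b : ℝ} (hb : b < 0) (j : ℕ) (c : E) : Bd b fun l => l ^ j • c := fun Y => by
  refine ⟨max Y 0, 2 ^ j * (j.factorial / (-b) ^ j) * ‖c‖, fun l hl => ?_⟩
  have h1 : 0 < l.re := lt_of_le_of_lt (le_max_right _ _) hl.1
  have h2 : ‖l‖ ≤ 2 * l.re := by
    have := norm_le_abs_re_add_abs_im l
    rw [abs_of_pos h1] at this
    linarith [hl.2, lt_of_le_of_lt (le_max_left _ _) hl.1]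
  have hb' : 0 < -b := by linarith
  have h3 : l.re ^ j ≤ j.factorial / (-b) ^ j * Real.exp (-b * l.re) := by
    have := Real.pow_div_factorial_le_exp (-b * l.re) (by positivity) j
    rw [div_le_iff₀ (by positivity), mul_pow] at this
    rw [div_mul_eq_mul_div, le_div_iff₀ (by positivity)]; linarith
  rw [norm_smul, norm_pow]
  calc ‖l‖ ^ j * ‖c‖ ≤ (2 * l.re) ^ j * ‖c‖ := by gcongr
    _ = 2 ^ j * l.re ^ j * ‖c‖ := by rw [mul_pow]
    _ ≤ 2 ^ j * (j.factorial / (-b) ^ j * Real.exp (-b * l.re)) * ‖c‖ := by gcongr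
    _ = _ := by ring

lemma Hol.of_diff {f : ℂ → E} (h : Differentiable ℂ f) : Hol f := fun _ => ⟨0, h.differentiableOn⟩

lemma Hol.sub {f g : ℂ → E} (hf : Hol f) (hg : Hol g) : Hol fun l => f l - g l := fun Y => by
  obtain ⟨R, h⟩ := hf Y
  obtain ⟨R', h'⟩ := hg Y
  exact ⟨max R R', (h.mono (Strip_mono (le_max_left _ _) le_rfl)).sub
    (h'.mono (Strip_mono (le_max_right _ _) le_rfl))⟩

lemma Hol.smul {f : ℂ → E} (hf : Hol f) {φ : ℂ → ℂ} (hφ : Differentiable ℂ φ) :
    Hol fun l => φ l • f l := fun Y => by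
  obtain ⟨R, h⟩ := hf Y
  exact ⟨R, hφ.differentiableOn.smul h⟩

lemma Hol.dif {f : ℂ → E} (hf : Hol f) : Hol (fwdDiff pr f) := by
  refine Hol.sub (f := fun l => f (l + pr)) (fun Y => ?_) hf
  obtain ⟨R, h⟩ := hf (Y + 7)
  exact ⟨R, h.comp (by fun_prop) fun l hl => shift_mem hl⟩

lemma exp_pr (k : ℤ) (l : ℂ) : exp (k * (l + pr)) = exp (k * l) := by
  rw [mul_add, exp_add, pr, exp_int_mul_two_pi_mul_I, mul_one]

theorem one_step [CompleteSpace E] {g : ℂ → E} (hg : Hol g) (hb : Bd (-(1 / 2)) g) {a : ℝ}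
    (ha : 0 < a) (hr : Sm a (fwdDiff pr g)) : ∃ c : E, Sm (min a 1) fun l => g l - c := by
  obtain ⟨c, hc⟩ := exists_lim hg (η := 1 / 2) (a := a / 2) (by norm_num) (by norm_num) hb
    (by linarith) (hr _ (by linarith))
  have h0 : Bd (-0) g := by
    simpa using (hc 0 le_rfl (by linarith) (by norm_num)).add (Bd.const c)
  refine ⟨c, fun b hb1 => ?_⟩
  have hba : b < a := lt_of_lt_of_le hb1 (min_le_left _ _)
  have hb2 : b < 1 := lt_of_lt_of_le hb1 (min_le_right _ _)
  set b' := max b (min (a / 4) (1 / 2)) with hb'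
  have p0 : 0 < min (a / 4) (1 / 2) := lt_min (by linarith) (by norm_num)
  have p1 : b' < a := max_lt hba (lt_of_le_of_lt (min_le_left _ _) (by linarith))
  have p2 : b' ≤ 1 - 0 := max_le (by linarith) ((min_le_right _ _).trans (by norm_num))
  obtain ⟨c', hc'⟩ := exists_lim hg (η := 0) (a := (b' + a) / 2) le_rfl one_pos h0
    (by linarith [le_max_right b (min (a / 4) (1 / 2))]) (hr _ (by linarith))
  have h1 := hc' b' (p0.le.trans (le_max_right _ _)) (by linarith) p2
  have h2 : c - c' = 0 := by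
    refine Bd.const_eq_zero p0 ?_
    simpa using (h1.mono (le_max_right _ _)).sub (hc _ p0.le
      (lt_of_le_of_lt (min_le_left _ _) (by linarith)) ((min_le_right _ _).trans (by norm_num)))
  rw [sub_eq_zero.1 h2]
  exact h1.mono (le_max_left _ _)

theorem periodic_exp [CompleteSpace E] (K : ℕ) : ∀ (g : ℂ → E) (a : ℝ), K < a → a ≤ K + 1 →
    Hol g → Bd (-(1 / 2)) g → Sm a (fwdDiff pr g) →
    ∃ c : ℕ → E, Sm a fun l => g l - ∑ k ∈ Finset.range (K + 1), exp (-k * l) • c k := by
  induction K with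
  | zero =>
    intro g a h1 h2 hg hb hr
    obtain ⟨c, hc⟩ := one_step hg hb (by simpa using h1) hr
    rw [min_eq_left (by simpa using h2)] at hc
    exact ⟨fun _ => c, by simpa using hc⟩
  | succ K ih =>
    intro g a h1 h2 hg hb hr
    push_cast at h1 h2
    have hK : (0 : ℝ) ≤ K := Nat.cast_nonneg K
    obtain ⟨c, hc⟩ := one_step hg hb (by linarith) hr
    rw [min_eq_right (by linarith)] at hc
    obtain ⟨c', hc'⟩ := ih (fun l => exp (-((-1 : ℝ) : ℂ) * l) • (g l - c)) (a - 1) (by linarith)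
      (by linarith) ((hg.sub (Hol.of_diff (by fun_prop))).smul (by fun_prop))
      (by have := (hc (1 / 2) (by norm_num)).exp_smul (-1)
          norm_num at this ⊢; exact this)
      (fun b hb => by
        have := (hr (b + 1) (by linarith)).exp_smul (-1)
        rw [show b + 1 + -1 = b by ring] at this
        convert this using 2 with l
        have e := exp_pr 1 l
        simp only [Int.cast_one, one_mul] at e
        simp only [fwdDiff, ofReal_neg, ofReal_one, neg_neg, one_mul, e, smul_sub]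
        abel)
    refine ⟨fun k => Nat.casesOn k c c', fun b hb => ?_⟩
    have := (hc' (b - 1) (by linarith)).exp_smul 1
    rw [show b - 1 + 1 = b by ring] at this
    convert this using 2 with l
    rw [Finset.sum_range_succ', smul_sub, smul_smul, ← exp_add, Finset.smul_sum]
    simp only [smul_smul, ← exp_add]
    have e1 : ∀ k : ℕ, -((k + 1 : ℕ) : ℂ) * l = -((1 : ℝ) : ℂ) * l + -(k : ℂ) * l := fun k => by
      push_cast; ring
    simp only [e1]
    simp; abel

/-- polynomial functions of degree `< d` -/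
def pf (d : ℕ) (c : ℕ → E) (l : ℂ) : E := ∑ j ∈ Finset.range d, l ^ j • c j

lemma pf_diff (d : ℕ) (c : ℕ → E) : Differentiable ℂ (pf d c) := by unfold pf; fun_prop

lemma pf_bd {b : ℝ} (hb : b < 0) (d : ℕ) (c : ℕ → E) : Bd b (pf d c) :=
  Bd.sum _ fun j _ => Bd.pow_smul hb j (c j)

lemma pr_ne : pr ≠ 0 := by simp [pr]

lemma anti_dif (d : ℕ) : ∀ c : ℕ → E, ∃ c' : ℕ → E,
    ∀ l, pf (d + 1) c' (l + pr) - pf (d + 1) c' l = pf d c l := by
  induction d with
  | zero => exact fun c => ⟨fun _ => 0, fun l => by simp [pf]⟩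
  | succ d ih =>
    intro c
    set e : E := (((d + 1 : ℕ) : ℂ) * pr)⁻¹ • c d with he
    obtain ⟨c', hc'⟩ := ih fun j => c j - (pr ^ (d + 1 - j) * ((d + 1).choose j : ℂ)) • e
    refine ⟨fun j => if j = d + 1 then e else c' j, fun l => ?_⟩
    have e1 : ∀ z, pf (d + 1 + 1) (fun j => if j = d + 1 then e else c' j) z =
        pf (d + 1) c' z + z ^ (d + 1) • e := fun z => by
      unfold pf
      rw [Finset.sum_range_succ]
      simp only [if_true]
      congr 1
      exact Finset.sum_congr rfl fun j hj => by rw [if_neg (Finset.mem_range.1 hj).ne]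
    have e2 : (l + pr) ^ (d + 1) • e = (∑ j ∈ Finset.range d,
        l ^ j • (pr ^ (d + 1 - j) * ((d + 1).choose j : ℂ)) • e) + l ^ d • c d + l ^ (d + 1) • e := by
      rw [add_pow, Finset.sum_range_succ, Finset.sum_range_succ, add_smul, add_smul,
        Finset.sum_smul]
      congr 1
      · congr 1
        · exact Finset.sum_congr rfl fun j _ => by rw [mul_assoc, mul_smul (l ^ j)]
        · rw [he, smul_smul]
          congr 1
          have h1 : ((d + 1 : ℕ) : ℂ) ≠ 0 := Nat.cast_ne_zero.2 (Nat.succ_ne_zero d)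
          have := pr_ne
          rw [Nat.choose_succ_self_right, show d + 1 - d = 1 by omega]
          field_simp
      · simp
    have e3 := hc' l
    rw [e1, e1, e2]
    have e4 : pf (d + 1) c l = pf d c l + l ^ d • c d := by unfold pf; rw [Finset.sum_range_succ]
    have e5 : pf d (fun j => c j - (pr ^ (d + 1 - j) * ((d + 1).choose j : ℂ)) • e) l =
        pf d c l - ∑ j ∈ Finset.range d,
          l ^ j • (pr ^ (d + 1 - j) * ((d + 1).choose j : ℂ)) • e := by
      unfold pf; rw [← Finset.sum_sub_distrib]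
      exact Finset.sum_congr rfl fun j _ => smul_sub _ _ _
    rw [e5] at e3
    rw [e4, eq_sub_iff_add_eq.1 e3 |>.symm]; abel

/-- exponential polynomials -/
def ep (K : ℕ) (d : ℕ → ℕ) (c : ℕ → ℕ → E) (l : ℂ) : E :=
  ∑ k ∈ Finset.range K, exp (-k * l) • pf (d k) (c k) l

lemma ep_diff (K : ℕ) (d : ℕ → ℕ) (c : ℕ → ℕ → E) : Differentiable ℂ (ep K d c) := by
  unfold ep
  exact Differentiable.fun_sum fun k _ => Differentiable.smul (by fun_prop) (pf_diff _ _)

lemma term_bd {b : ℝ} (k d : ℕ) (c : ℕ → E) (hb : b < k) :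
    Bd b fun l => exp (-k * l) • pf d c l := by
  have := (pf_bd (b := b - k) (by linarith) d c).exp_smul k
  rw [show b - k + k = b by ring] at this
  simpa using this

lemma ep_bd (K : ℕ) (d : ℕ → ℕ) (c : ℕ → ℕ → E) : Bd (-(1 / 2)) (ep K d c) :=
  Bd.sum _ fun k _ => term_bd k _ _ (by linarith [Nat.cast_nonneg (α := ℝ) k])

theorem step_exp [CompleteSpace E] {K d : ℕ} {g : ℂ → E} {a : ℝ} (h1 : K < a) (h2 : a ≤ K + 1)
    (hg : Hol g) (hb : Bd (-(1 / 2)) g) {c : ℕ → ℕ → E}
    (hr : Sm a fun l => fwdDiff pr g l - ep (K + 1) (fun _ => d) c l) :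
    ∃ c' : ℕ → ℕ → E, Sm a fun l => g l - ep (K + 1) (fun _ => d + 1) c' l := by
  choose F hF using fun k => anti_dif d (c k)
  obtain ⟨e, he⟩ := periodic_exp K (fun l => g l - ep (K + 1) (fun _ => d + 1) F l) a h1 h2
    (hg.sub (Hol.of_diff (ep_diff _ _ _))) (hb.sub (ep_bd _ _ _)) (by
      convert hr using 2 with l
      have e1 : ep (K + 1) (fun _ => d + 1) F (l + pr) - ep (K + 1) (fun _ => d + 1) F l =
          ep (K + 1) (fun _ => d) c l := by
        unfold ep
        rw [← Finset.sum_sub_distrib]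
        refine Finset.sum_congr rfl fun k _ => ?_
        have e := exp_pr (-k) l
        push_cast at e
        rw [e, ← smul_sub, hF]
      simp only [fwdDiff]
      rw [← e1]; abel)
  refine ⟨fun k j => F k j + if j = 0 then e k else 0, ?_⟩
  convert he using 2 with l
  rw [sub_sub]
  congr 1
  unfold ep
  rw [← Finset.sum_add_distrib]
  refine Finset.sum_congr rfl fun k _ => ?_
  rw [← smul_add]
  congr 1
  unfold pf
  simp only [smul_add, Finset.sum_add_distrib]
  congr 1
  rw [Finset.sum_range_succ']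
  simp

theorem iter_exp [CompleteSpace E] {K : ℕ} {a : ℝ} (h1 : K < a) (h2 : a ≤ K + 1) (M : ℕ) :
    ∀ g : ℂ → E, Hol g → Bd (-(1 / 2)) g → Sm a ((fwdDiff pr)^[M] g) →
    ∃ c : ℕ → ℕ → E, Sm a fun l => g l - ep (K + 1) (fun _ => M) c l := by
  induction M with
  | zero => exact fun g _ _ h => ⟨fun _ _ => 0, by simpa [ep, pf] using h⟩
  | succ M ih =>
    intro g hg hb h
    obtain ⟨c, hc⟩ := ih _ hg.dif hb.dif h
    exact step_exp h1 h2 hg hb hc

lemma pf_eq_zero {b : ℝ} (hb : 0 < b) (d : ℕ) : ∀ c : ℕ → E, Bd b (pf d c) →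
    ∀ j < d, c j = 0 := by
  induction d with
  | zero => exact fun _ _ j hj => absurd hj (Nat.not_lt_zero j)
  | succ d ih =>
    intro c h
    have hd : c d = 0 := by
      obtain ⟨R, C, -, hC, h⟩ := h.pos 1
      have t1 : Tendsto (fun x : ℝ => ((x : ℂ) ^ d)⁻¹ • pf (d + 1) c x) atTop (𝓝 0) := by
        have ht : Tendsto (fun x : ℝ => C * Real.exp (-b * x)) atTop (𝓝 0) := by
          simpa using (Real.tendsto_exp_atBot.comp
            (tendsto_id.const_mul_atTop_of_neg (neg_lt_zero.2 hb))).const_mul C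
        refine squeeze_zero_norm' ?_ ht
        filter_upwards [eventually_gt_atTop R, eventually_ge_atTop 1] with x hx hx1
        rw [norm_smul, norm_inv, norm_pow, norm_real, Real.norm_of_nonneg (by linarith)]
        have h3 : ‖pf (d + 1) c x‖ ≤ C * Real.exp (-b * x) := by
          simpa using h x ⟨by simpa using hx, by simp⟩
        have h4 : (x ^ d)⁻¹ ≤ 1 := inv_le_one_of_one_le₀ (one_le_pow₀ hx1)
        calc _ ≤ 1 * (C * Real.exp (-b * x)) := by gcongr
          _ = _ := one_mul _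
      have t2 : Tendsto (fun x : ℝ => ((x : ℂ) ^ d)⁻¹ • pf (d + 1) c x) atTop
          (𝓝 ((∑ j ∈ Finset.range d, (0 : ℂ) • c j) + c d)) := by
        refine Tendsto.congr' (f₁ := fun x : ℝ => (∑ j ∈ Finset.range d,
          (((x ^ (d - j))⁻¹ : ℝ) : ℂ) • c j) + c d) ?_ ?_
        · filter_upwards [eventually_gt_atTop 0] with x hx
          have hx' : (x : ℂ) ≠ 0 := ofReal_ne_zero.2 hx.ne'
          unfold pf
          rw [Finset.sum_range_succ, smul_add, Finset.smul_sum, smul_smul, inv_mul_cancel₀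
            (pow_ne_zero _ hx'), one_smul]
          congr 1
          refine Finset.sum_congr rfl fun j hj => ?_
          rw [smul_smul]
          congr 1
          have : d = j + (d - j) := by have := Finset.mem_range.1 hj; omega
          push_cast
          conv_rhs => rw [this, pow_add]
          field_simp
        · refine Tendsto.add_const _ (tendsto_finsetSum _ fun j hj => Tendsto.smul_const ?_ _)
          rw [← ofReal_zero]
          refine (continuous_ofReal.tendsto _).comp (tendsto_inv_atTop_zero.comp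
            (tendsto_pow_atTop ?_))
          have := Finset.mem_range.1 hj; omega
      simpa using (tendsto_nhds_unique t2 t1)
    intro j hj
    rcases Nat.lt_succ_iff_lt_or_eq.1 hj with hj | rfl
    · refine ih c ?_ j hj
      convert h using 1
      funext l; unfold pf; rw [Finset.sum_range_succ, hd]; simp
    · exact hd

theorem ep_eq_zero (K : ℕ) : ∀ (a : ℝ) (d : ℕ → ℕ) (c : ℕ → ℕ → E), (K : ℝ) < a + 1 →
    Sm a (ep K d c) → ∀ k < K, ∀ j < d k, c k j = 0 := by
  intro a d c hK h k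
  induction k using Nat.strong_induction_on with
  | _ k ih =>
    intro hk
    have hka : (k : ℝ) + 1 ≤ K := by exact_mod_cast hk
    set b := min ((a - k) / 2) (1 / 2) with hb
    have hb0 : 0 < b := lt_min (by linarith) (by norm_num)
    have hb1 : b ≤ (a - k) / 2 := min_le_left _ _
    have hb2 : b ≤ 1 / 2 := min_le_right _ _
    refine pf_eq_zero hb0 _ _ ?_
    have h1 : Bd (k + b) fun l => ep K d c l - ∑ k' ∈ (Finset.range K).erase k,
        exp (-k' * l) • pf (d k') (c k') l := by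
      refine (h _ (by linarith)).sub (Bd.sum _ fun k' hk' => ?_)
      rcases lt_or_gt_of_ne (Finset.ne_of_mem_erase hk') with h2 | h2
      · convert Bd.zero (E := E) (k + b) using 2 with l
        unfold pf
        rw [Finset.sum_eq_zero, smul_zero]
        intro j hj
        rw [ih k' h2 (h2.trans hk) j (Finset.mem_range.1 hj), smul_zero]
      · have : (k : ℝ) + 1 ≤ k' := by exact_mod_cast h2
        exact term_bd _ _ _ (by linarith)
    have h2 := h1.exp_smul (-k)
    rw [show (k : ℝ) + b + -k = b by ring] at h2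
    convert h2 using 2 with l
    unfold ep
    rw [← Finset.add_sum_erase _ _ (Finset.mem_range.2 hk), add_sub_cancel_right, smul_smul,
      ← exp_add]
    simp

end Crest.Agent.N207.L.X
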