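import Crest.Agent.N207.L.Lp4
import Crest.Agent.N207.L.Inv2
import Crest.Agent.N207.CB.E2e
import Crest.Agent.N207.CB.Nl1
import Crest.Agent.N207.J.Re6

/-! # N207/L/Xh1 (helper80): real fields of invariant solutions, the free part on a collar -/

set_option autoImplicit false
set_option linter.unusedSectionVars false

open scoped ContDiff
open Metric Set Filter Topology
open Crest.GeometryTopology.CoordMetric
open Crest.Agent.N207.J Crest.Agent.N207.CB Crest.Agent.N207.I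

noncomputable section

namespace Crest.Agent.N207.L.Xh

section
variable {ι : Type} [Fintype ι]

/-- the zero nonlinearity -/
def NZ (ι : Type) [Fintype ι] : NL ι := ⟨fun _ => 0, analyticAt_const, rfl, hasFDerivAt_const _ _⟩

variable {γ : Pth} {C o : ℝ}

theorem L0_F (γ : Pth) (v : DD ι) (i : ι) : (γ.L0 v).F γ i = 0 := by
  funext k x
  simp [Tr.F, Pth.L0_apply, tru]

theorem val_zero (x : ℝ) : val 0 x = 0 := by simp [val]

theorem sol_L0 (h : γ.Ok C o) (ho : 0 < o) (v : DD ι) :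
    Sol (NZ ι) γ.τ γ.w γ.om ‖v‖ ((γ.L0 v).p γ) ((γ.L0 v).q γ) ((γ.L0 v).F γ) where
  bp i := (h.bd6 ho _).mono ((Tr.norm_p _ i).trans (h.norm_L0 ho v))
  bq i := (h.bd6 ho _).mono ((Tr.norm_q _ i).trans (h.norm_L0 ho v))
  bF i := (h.bd4 ho _).mono ((Tr.norm_F _ i).trans (h.norm_L0 ho v))
  dp i k x := by
    have := (h.ode_sp ho (v.2 i) 0 k).der x
    rwa [map_zero, sub_zero] at this
  dq i k x := by
    have := (h.ode_sq ho (v.1 i) 0 k).der x
    rwa [map_zero, sub_zero, ← sub_eq_add_neg] at this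
  eq x y := funext fun i => by rw [L0_F, val_zero]; rfl

variable {N : NL ι} {τ : ℝ → ℂ} {w om : ℝ → ℝ} {η G : ℝ} {p q F : ι → Md} {I : Set ℝ}

/-- the amplitudes of the function of a solution -/
theorem pm_fn (h : Sol N τ w om η p q F) (hI : IsOpen I) (hτ : ∀ x ∈ I, τ x = 1)
    (hw : ∀ x ∈ I, |w x| ≤ 1) (ho : ∀ x ∈ I, |om x| ≤ 1) (c : ℝ) (i : ι) (k : ℕ) {t : ℝ}
    (ht : t - c ∈ I) : pm (fn c (p i) (q i)) k t = p i k (t - c) ∧
      qm (fn c (p i) (q i)) k t = q i k (t - c) := by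
  have hI' : IsOpen ((· - c) ⁻¹' I) := hI.preimage (by fun_prop)
  obtain ⟨m1, m2, -⟩ := h.mb zero_le_one le_rfl hw ho i
  have e0 : ∀ s ∈ (· - c) ⁻¹' I, mdU (fn c (p i) (q i)) k s = dt (p i) (q i) (F i) 0 k (s - c) :=
    fun s hs => by rw [mdU, fn, rst_ann]; exact (m1.add m2).P_val (n := 3) hs k
  have e1 : mdU (Eu (fn c (p i) (q i))) k t = dt (p i) (q i) (F i) 1 k (t - c) := by
    refine (hasDerivAt_mdU hI' (n := 1) ((h.real hI hτ zero_le_one le_rfl hw ho c).2.1 i) k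
      ht).unique ((((h.str hI hτ i).d0 k ht).comp_sub_const t c).congr_of_eventuallyEq ?_)
    filter_upwards [hI'.mem_nhds ht] with s hs using e0 s hs
  have := two_k_ne k
  rw [pm, qm, e0 t ht, e1]
  simp only [dt]
  constructor <;> match_scalars <;> field_simp <;> ring

end

variable {N : NL IX} {τ : ℝ → ℂ} {w om : ℝ → ℝ} {η G : ℝ} {p q F : IX → Md} {I : Set ℝ}
  {Γ : Subgroup Iso4}

theorem cB_le {j : ℕ} (hj : j ≤ 2) : cB j 0 ≤ cB 2 0 := by
  interval_cases j <;> norm_num [cB]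

/-- the real field of an invariant solution -/
theorem fld (h : Sol N τ w om η p q F) (hI : IsOpen I) (hτ : ∀ x ∈ I, τ x = 1) (hG : 0 ≤ G)
    (hG1 : G ≤ 1) (hw : ∀ x ∈ I, |w x| ≤ G) (ho : ∀ x ∈ I, |om x| ≤ 1)
    (hi : ∀ x ∈ I, InvM Γ (fun i k => p i k x) ∧ InvM Γ fun i k => q i k x) :
    (∀ x ∈ An I, ∀ a b, fn 0 (p (.inl (a, b))) (q (.inl (a, b))) x =
      cf (reM fun i => fn 0 (p i) (q i)) a b x) ∧
    Inv Γ 2 (An I) (reM fun i => fn 0 (p i) (q i)) ∧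
    B2 (An I) (cB 2 0 * (12 * η * G)) (reM fun i => fn 0 (p i) (q i)) := by
  have e : (· - (0 : ℝ)) ⁻¹' I = I := by simp
  have hm := h.mb hG hG1 hw ho
  have h1 := fun x hx => finv (x := x) (n := 3) (f := fun i k x => p i k x + q i k x) 0
    (fun t ht => (hi t ht).1.add (hi t ht).2) (fun i => (hm i).1.add (hm i).2.1) hx
  obtain ⟨-, h2, h3⟩ := h.real hI hτ hG hG1 hw ho 0
  rw [e] at h1 h2 h3
  have h0 := (h.bp (.inr ())).nn
  refine ⟨fun x hx => (h1 x hx).1, ⟨fun a b => Complex.reCLM.contDiff.comp_contDiffOn (h2 _),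
    fun x hx => (h1 x hx).2.1, fun γ hγ x hx => (h1 x hx).2.2.1 γ hγ⟩, fun x hx j hj a b => ?_⟩
  refine le_trans (mul_le_mul_of_nonneg_left ?_ (by positivity)) (((h3 x hx).1 (.inl (a, b)) j
    hj).trans (mul_le_mul_of_nonneg_right (cB_le hj) (by positivity)))
  refine (Complex.reCLM.norm_iteratedFDeriv_comp_left
    ((h2 _).contDiffAt (An_mem_nhds hI hx)) (by exact_mod_cast hj)).trans ?_
  rw [Complex.reCLM_norm, one_mul]

/-- the cut-off difference of two invariant fields -/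
theorem cut_inv {u l : MetricField 4} {U L : IX → E4 → ℂ} {χ : ℝ → ℝ} (hχ : ∀ t, t ∉ I → χ t = 0)
    (hu : Inv Γ 2 (An I) u) (hl : Inv Γ 2 (An I) l)
    (eu : ∀ x ∈ An I, ∀ a b, U (.inl (a, b)) x = cf u a b x)
    (el : ∀ x ∈ An I, ∀ a b, L (.inl (a, b)) x = cf l a b x) {E : IX → E4 → ℂ}
    (hE : ∀ i x, E i x = χ (Real.log ‖x‖) * (U i x - L i x))
    (sm : ∀ i, ContDiffOn ℝ ∞ (E i) {x | x ≠ 0}) :
    Inv Γ ∞ {x | x ≠ 0} (reM E) ∧ (∀ x, x ≠ 0 → reM E x = χ (Real.log ‖x‖) • (u x - l x)) ∧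
      ∀ x, x ≠ 0 → ∀ a b, E (.inl (a, b)) x = cf (reM E) a b x := by
  have k0 : ∀ x, x ≠ 0 → ∀ a b, E (.inl (a, b)) x =
      (((χ (Real.log ‖x‖) • (u x - l x)) a b : ℝ) : ℂ) := fun x hx a b => by
    by_cases h : Real.log ‖x‖ ∈ I
    · rw [hE, eu x ⟨hx, h⟩, el x ⟨hx, h⟩]; simp [cf]
    · rw [hE, hχ _ h]; simp
  have k1 : ∀ x, x ≠ 0 → reM E x = χ (Real.log ‖x‖) • (u x - l x) := fun x hx => by
    ext a b
    rw [reM, Matrix.of_apply, k0 x hx, Complex.ofReal_re]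
  refine ⟨⟨fun a b => Complex.reCLM.contDiff.comp_contDiffOn (sm _), fun x hx => ?_,
    fun γ hγ x hx => ?_⟩, k1, fun x hx a b => by rw [k0 x hx, cf, k1 x hx]⟩
  · rw [k1 x hx]
    by_cases h : Real.log ‖x‖ ∈ I
    · exact ((hu.symm x ⟨hx, h⟩).sub (hl.symm x ⟨hx, h⟩)).smul _
    · rw [hχ _ h, zero_smul]; exact Matrix.isSymm_zero
  · have hx' : γ x ≠ 0 := fun e => hx (γ.injective (e.trans (map_zero γ).symm))
    ext a b
    rw [pullM_iso, k1 x hx, k1 _ hx', γ.norm_map]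
    by_cases h : Real.log ‖x‖ ∈ I
    · rw [hu.eqv γ hγ x ⟨hx, h⟩, hl.eqv γ hγ x ⟨hx, h⟩]
      simp only [Matrix.smul_apply, Matrix.sub_apply, pullM_iso, smul_eq_mul,
        ← Finset.sum_sub_distrib, Finset.mul_sum]
      exact Finset.sum_congr rfl fun c _ => Finset.sum_congr rfl fun d _ => by ring
    · simp [hχ _ h]

theorem lfJ_of {k : ℕ} {W : MJ k} {E : IX → E4 → ℂ}
    (h : ∀ x, x ≠ 0 → ∀ a b, E (.inl (a, b)) x = cf (reM E) a b x)
    (hW : ∀ (x : J0) a b, ∀ y ∈ CB.B1, (W a b).val x y = E (.inl (a, b)) (x.1 + (‖x.1‖ / 8) • y)) :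
    LfJ (reM E) W := fun x a b y hy => by
  rw [hW x a b y hy]
  refine h _ (fun e => ?_) a b
  have h1 := congrArg norm (eq_neg_of_add_eq_zero_left e)
  have h2 := norm_pos_iff.2 x.2
  have h3 := mem_ball_zero_iff.1 hy
  rw [norm_neg, norm_smul, Real.norm_of_nonneg (by positivity)] at h1
  nlinarith

end Crest.Agent.N207.L.Xh

end
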