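import Crest.Agent.N207.L.Xh1
import Crest.Agent.N207.I.Lim1
import Crest.Agent.N207.CB.Unq

/-! # N207/L/Xh2 (helper80): the collar inputs `ColO`, `ColI` from the collar solutions -/

set_option autoImplicit false

open scoped ContDiff
open Metric Set Filter Topology
open Crest.GeometryTopology.CoordMetric
open Crest.Agent.N207.J Crest.Agent.N207.CB Crest.Agent.N207.I Crest.Agent.N207.Lg

noncomputable section

namespace Crest.Agent.N207.L.Xh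

variable {τ : ℝ → ℂ} {w om : ℝ → ℝ} {η G : ℝ} {p q F : IX → Md} {I I' : Set ℝ}
  {Γ : Subgroup Iso4} {u : MetricField 4}

theorem inv_mono {m : WithTop ℕ∞} {S S' : Set E4} (h : Inv Γ m S u) (hS : S' ⊆ S) :
    Inv ⊥ m S' u :=
  ⟨fun a b => (h.sm a b).mono hS, fun x hx => h.symm x (hS hx), fun γ hγ x hx =>
    h.eqv γ (Subgroup.mem_bot.1 hγ ▸ one_mem Γ) x (hS hx)⟩

theorem b2_mono {S S' : Set E4} {a b : ℝ} (h : B2 S a u) (hS : S' ⊆ S) (hab : a ≤ b) :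
    B2 S' b u := fun x hx j hj c d => (h x (hS hx) j hj c d).trans hab

theorem An_mono (h : I ⊆ I') : An I ⊆ An I' := fun _ hx => ⟨hx.1, h hx.2⟩

theorem posDef_of {S : Set E4} {a : ℝ} (hi : Inv Γ 2 S u) (h : B2 S a u) (ha : a ≤ 1 / 100)
    {x : E4} (hx : x ∈ S) : ((fl1 + u) x).PosDef := by
  refine (pos_of_small (fun a b => ?_) fun a b => ?_).posDef (by norm_num)
  · simp only [Pi.add_apply, Matrix.add_apply, (hi.symm x hx).apply a b, Matrix.one_apply, eq_comm]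
  · simpa using (h x hx 0 (by omega) a b).trans ha

theorem c2_of (hI : IsOpen I) {a : ℝ} (hi : Inv Γ 2 (An I) u) (h : B2 (An I) a u)
    (ha : a ≤ 1 / 100) {x : E4} (hx : x ∈ An I) : C2 (fl1 + u) x :=
  ⟨fun a b => contDiffAt_const.add ((hi.sm a b).contDiffAt (An_mem_nhds hI hx)), by
    filter_upwards [An_mem_nhds hI hx] with z hz a b
    simp only [Pi.add_apply, Matrix.add_apply, (hi.symm z hz).apply a b, Matrix.one_apply, eq_comm],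
    (posDef_of hi h ha hx).det_pos⟩

theorem Lp2_congr {U U' : E4 → ℂ} {x : E4} (h : U =ᶠ[𝓝 x] U') : Lp2 U x = Lp2 U' x := by
  unfold Lp2
  congr 1
  refine Finset.sum_congr rfl fun i _ => ?_
  rw [Filter.EventuallyEq.fderiv_eq (f := fun y => fderiv ℝ U' y (ee i))]
  filter_upwards [h.fderiv (𝕜 := ℝ)] with y hy
  rw [hy]

/-- the reduced equation -/
theorem red0 (h : Sol NQ τ w om η p q F) (hI : IsOpen I) (hτ : ∀ x ∈ I, τ x = 1)
    (hw : ∀ x ∈ I, |w x| ≤ 1) (ho : ∀ x ∈ I, |om x| ≤ 1)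
    (hi : ∀ x ∈ I, InvM Γ (fun i k => p i k x) ∧ InvM Γ fun i k => q i k x)
    (hη : cB 2 0 * (12 * η * 1) ≤ 1 / 100) {x : E4} (hx : x ∈ An I) :
    redM fl1 (fl1 + reM fun i => fn 0 (p i) (q i)) x = 0 := by
  obtain ⟨h1, h2, h3⟩ := fld h hI hτ zero_le_one le_rfl hw ho hi
  have hU : ∀ a b, fn 0 (p (.inl (a, b))) (q (.inl (a, b))) =ᶠ[𝓝 x]
      cf (reM fun i => fn 0 (p i) (q i)) a b := fun a b => by
    filter_upwards [An_mem_nhds hI hx] with z hz using h1 z hz a b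
  ext a b
  have h4 := NQ_red (U := fun i => fn 0 (p i) (q i)) hU (c2_of hI h2 h3 hη hx) a b
  have h5 := ((h.real hI hτ zero_le_one le_rfl hw ho 0).2.2 x (by simpa using hx)).2.2.2
  rw [← h5, ← Lp2_congr (hU a b), sub_self, mul_zero] at h4
  have hn : ((‖x‖ : ℝ) : ℂ) ≠ 0 := by exact_mod_cast norm_ne_zero_iff.2 hx.1
  exact_mod_cast (mul_eq_zero.1 h4).resolve_left (pow_ne_zero 2 hn)

variable {N : NL IX}

/-- amplitudes of the real field -/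
theorem pm_re (h : Sol N τ w om η p q F) (hI : IsOpen I) (hτ : ∀ x ∈ I, τ x = 1)
    (hw : ∀ x ∈ I, |w x| ≤ 1) (ho : ∀ x ∈ I, |om x| ≤ 1)
    (hi : ∀ x ∈ I, InvM Γ (fun i k => p i k x) ∧ InvM Γ fun i k => q i k x) (a b : Fin 4) (k : ℕ)
    {t : ℝ} (ht : t ∈ I) : pm (cf (reM fun i => fn 0 (p i) (q i)) a b) k t = p (.inl (a, b)) k t ∧
      qm (cf (reM fun i => fn 0 (p i) (q i)) a b) k t = q (.inl (a, b)) k t := by
  have h1 := pm_qm_congr (ev_An hI ht fun x hx =>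
    (fld h hI hτ zero_le_one le_rfl hw ho hi).1 x hx a b) k
  have h2 := pm_fn h hI hτ hw ho 0 (.inl (a, b)) k (t := t) (by rwa [sub_zero])
  rw [sub_zero] at h2
  exact ⟨h1.1.symm.trans h2.1, h1.2.symm.trans h2.2⟩

theorem harm (h : Sol (NZ IX) τ w om η p q F) (hI : IsOpen I) (hτ : ∀ x ∈ I, τ x = 1)
    (hw : ∀ x ∈ I, |w x| ≤ 1) (ho : ∀ x ∈ I, |om x| ≤ 1) {ε : ℝ} (hε : cB 2 0 * (12 * η * 1) ≤ ε)
    (i : IX) {x : E4} (hx : x ∈ An I) :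
    J.PB 2 (fn 0 (p i) (q i)) x ε ∧ Lp2 (fn 0 (p i) (q i)) x = 0 := by
  obtain ⟨-, h1, h2⟩ := h.real hI hτ zero_le_one le_rfl hw ho 0
  rw [show (· - (0 : ℝ)) ⁻¹' I = I by simp] at h1 h2
  have h0 := (h.bp i).nn
  exact ⟨⟨(h1 i).contDiffAt (An_mem_nhds hI hx), fun j hj => ((h2 x hx).1 i j hj).trans
    ((mul_le_mul_of_nonneg_right (cB_le hj) (by positivity)).trans hε)⟩,
    congrFun (h2 x hx).2.2.2 i⟩

/-- uniqueness on the outer collar -/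
def UO (ε : ℝ) : Prop :=
  ∀ (Γ : Subgroup Iso4) (y : CB.DD) (u β : MetricField 4)
    (l : Fin 4 → Fin 4 → E4 → ℂ), SB (An (Ioo 1 3)) ε u →
    (∀ x ∈ An (Ioo 1 3), redM fl1 (fl1 + u) x = 0) →
    (∀ a b k, Tendsto (qm (cf u a b) k) (𝓝[>] 1) (𝓝 (trD 1 (y (a, b)) k))) →
    (∀ a b, ∀ x ∈ An (Ioo 2 3), J.PB 2 (l a b) x ε ∧ Lp2 (l a b) x = 0) →
    (∀ a b k, ∀ t ∈ Ioo (2 : ℝ) 3, pm (l a b) k t = 0) → Inv Γ ∞ {x | x ≠ 0} β →
    (∀ x : E4, Real.log ‖x‖ ≤ 22 / 10 ∨ 29 / 10 ≤ Real.log ‖x‖ → β x = 0) →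
    (∀ x ∈ An (Ioo 1 (285 / 100)), ∀ a b, cf β a b x =
      (stp (22 / 10) (24 / 10) (Real.log ‖x‖) : ℝ) * (cf u a b x - l a b x)) →
    ∀ ε' ≤ ε, ColO Γ ε' y u β

/-- uniqueness on the inner collar -/
def UI (ε : ℝ) : Prop :=
  ∀ (Γ : Subgroup Iso4) (y : CB.DD) (u β : MetricField 4)
    (l : Fin 4 → Fin 4 → E4 → ℂ), SB (An (Ioo (-3) (-1))) ε u →
    (∀ x ∈ An (Ioo (-3) (-1)), redM fl1 (fl1 + u) x = 0) →
    (∀ a b k, k ≠ 0 → Tendsto (pm (cf u a b) k) (𝓝[<] (-1)) (𝓝 (trD 1 (y (a, b)) k))) →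
    (∀ a b, ∀ x ∈ An (Ioo (-3) (-2)), J.PB 2 (l a b) x ε ∧ Lp2 (l a b) x = 0) →
    (∀ a b, ∀ t ∈ Ioo (-3 : ℝ) (-2), pm (l a b) 0 t = 0 ∧ ∀ k, qm (l a b) k t = 0) →
    Inv Γ ∞ {x | x ≠ 0} β →
    (∀ x : E4, -Real.log ‖x‖ ≤ 22 / 10 ∨ 29 / 10 ≤ -Real.log ‖x‖ → β x = 0) →
    (∀ x ∈ An (Ioo (-(285 / 100)) (-1)), ∀ a b, cf β a b x =
      (stp (22 / 10) (24 / 10) (-Real.log ‖x‖) : ℝ) * (cf u a b x - l a b x)) →
    ∀ ε' ≤ ε, ColI Γ ε' y u β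

theorem uo : ∃ ε : ℝ, 0 < ε ∧ UO ε := colO

theorem ui : ∃ ε : ℝ, 0 < ε ∧ UI ε := colI

theorem aux {χ s : ℝ} {A A' B : ℂ} (h1 : χ = s) (h2 : A = A') :
    (χ : ℂ) * (A - B) = s * (A' - B) := by rw [h1, h2]

theorem aux0 {χ : ℝ} {A : ℂ} (h : χ = 0) : ((χ : ℂ) * A).re = 0 := by simp [h]

theorem tru_zero (σ : ℕ) (g om : ℝ → ℝ) (k : ℕ) (x : ℝ) : tru σ g om 0 k x = 0 := by simp [tru]

variable {κ ε e : ℝ} {v : L.DD IX} {y : CB.DD}

/-- **the outer collar** -/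
theorem colO_of (hU : UO ε) (h0 : 0 ≤ κ) (h1 : κ ≤ 1 / 8) (hv : ‖v‖ ≤ NQ.eta 10 (Real.exp (-κ)))
    (hε : cB 2 0 * (24 * ‖v‖) ≤ min ε (1 / 100)) (he : e ≤ ε)
    (hi : ∀ x ∈ Icc (1 : ℝ) 4, InvM Γ (fun i k => (SL NQ κ v).p (colL κ) i k x) ∧
      InvM Γ fun i k => (SL NQ κ v).q (colL κ) i k x)
    (hy : ∀ ab k, trD 1 (v.1 (.inl ab)) k = trD 1 (y ab) k)
    (hu : ∀ x ∈ An (Ioo 1 2),
      u x = reM (fun i => fn 0 ((SL NQ κ v).p (colL κ) i) ((SL NQ κ v).q (colL κ) i)) x)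
    (sm : ∀ i, ContDiffOn ℝ ∞ (EF NQ 10 (Real.exp (-κ)) (colL κ) (bcut 1) v (QO v) i)
      {x | x ≠ 0}) :
    ColO Γ e y u (reM (EF NQ 10 (Real.exp (-κ)) (colL κ) (bcut 1) v (QO v))) ∧
      ∀ x, x ≠ 0 → ∀ a b, EF NQ 10 (Real.exp (-κ)) (colL κ) (bcut 1) v (QO v) (.inl (a, b)) x =
        cf (reM (EF NQ 10 (Real.exp (-κ)) (colL κ) (bcut 1) v (QO v))) a b x := by
  have ok := (fam_colL h0 h1).base
  have o0 := Real.exp_pos (-κ)
  have hτ : ∀ x ∈ Ioo (1 : ℝ) 4, (colL κ).τ x = 1 := fun x hx => by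
    change ((ind 1 (1 + 3) x : ℝ) : ℂ) = 1
    rw [ind_of_mem hx.1.le (by linarith [hx.2]), Complex.ofReal_one]
  have hw : ∀ x ∈ Ioo (1 : ℝ) 4, |(colL κ).w x| ≤ 1 := fun x _ => by rw [colL_w, abs_one]
  have ho : ∀ x ∈ Ioo (1 : ℝ) 4, |(colL κ).om x| ≤ 1 := fun x _ => by
    rw [abs_of_pos (ok.om0 o0 x)]; exact ok.o1 x
  have hs := NL.sol_sol (N := NQ) ok o0 hv
  have hd : ∀ i k, (SL NQ κ v).q (colL κ) i k 1 = trD 1 (v.1 i) k := fun i k => by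
    refine ((NQ.sol_dat ok o0 v).hq i k).trans ?_
    rw [colL_w, Complex.ofReal_one, one_smul]
    exact congrArg (trD · _ k) (omL_left 1)
  have hl := sol_L0 ok o0 (QO v)
  have lp : ∀ i k x, ((colL κ).L0 (QO v)).p (colL κ) i k x = 0 := fun i k x => by
    change tru 6 _ _ ((colL κ).EP 0) k x = 0
    rw [map_zero, tru_zero]
  have li : ∀ x ∈ Ioo (1 : ℝ) 4, InvM Γ (fun i k => ((colL κ).L0 (QO v)).p (colL κ) i k x) ∧
      InvM Γ fun i k => ((colL κ).L0 (QO v)).q (colL κ) i k x := fun x _ => by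
    refine ⟨InvM.zero.congr fun i k => lp i k x, ((hi 1 (by norm_num)).2.smul fun k =>
      Real.exp (-(k + 2) * (cl 1 (1 + 3) x - cl 1 (1 + 3) 1))).congr fun i k => ?_⟩
    refine (ok.tru_EM o0 (v.1 i) k x).trans ?_
    rw [← (NQ.sol_dat ok o0 v).hq i k]
    push_cast
    rfl
  have hi' := fun x (hx : x ∈ Ioo (1 : ℝ) 4) => hi x (Ioo_subset_Icc_self hx)
  obtain ⟨a1, a2, a3⟩ := fld hs isOpen_Ioo hτ zero_le_one le_rfl hw ho hi'
  obtain ⟨b1, b2, -⟩ := fld hl isOpen_Ioo hτ zero_le_one le_rfl hw ho li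
  obtain ⟨c1, -, c3⟩ := cut_inv (χ := bcut 1) (fun t ht => bcut_zero (by
    rcases not_and_or.1 ht with h | h <;> [left; right] <;> linarith [not_lt.1 h])) a2 b2 a1 b1
    (fun _ _ => rfl) sm
  have n0 := norm_nonneg v
  have n1 : ‖QO v‖ ≤ ‖v‖ := (norm_pr0 v.1).trans_le (norm_fst_le v)
  have c0 := cB_pos 2 0
  have s1 : Ioo (1 : ℝ) 3 ⊆ Ioo 1 4 := Ioo_subset_Ioo le_rfl (by norm_num)
  have s2 : Ioo (2 : ℝ) 3 ⊆ Ioo 1 4 := Ioo_subset_Ioo (by norm_num) (by norm_num)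
  have e1 := hε.trans (min_le_left _ _)
  have e2 := hε.trans (min_le_right _ _)
  have k := hU Γ y _ _ (fun a b => fn 0 (((colL κ).L0 (QO v)).p (colL κ) (.inl (a, b)))
      (((colL κ).L0 (QO v)).q (colL κ) (.inl (a, b))))
    ⟨fun a b => (a2.sm a b).mono (An_mono s1), fun x hx => a2.symm x (An_mono s1 hx),
      b2_mono a3 (An_mono s1) (by linarith)⟩
    (fun x hx => red0 hs isOpen_Ioo hτ hw ho hi' (by linarith) (An_mono s1 hx)) (fun a b k => ?_)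
    (fun a b x hx => harm hl isOpen_Ioo hτ hw ho (by nlinarith) _ (An_mono s2 hx))
    (fun a b k t ht => (pm_fn hl isOpen_Ioo hτ hw ho 0 _ k (by simpa using s2 ht)).1.trans
      (lp _ _ _)) c1 (fun x hx => ?_) (fun x hx a b => ?_) e he
  · exact ⟨⟨k.inv, k.supp, fun W w1 w2 w3 w4 w5 x hx =>
      (k.unq W w1 w2 w3 w4 w5 x hx).trans (hu x hx).symm⟩, c3⟩
  · rw [← hy, ← hd]
    refine (((hs.bq _).cont k).continuousAt.tendsto.mono_left nhdsWithin_le_nhds).congr' ?_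
    filter_upwards [Ioo_mem_nhdsGT (show (1 : ℝ) < 4 by norm_num)] with t ht
    exact (pm_re hs isOpen_Ioo hτ hw ho hi' a b k ht).2.symm
  · ext a b
    exact aux0 (bcut_zero (by rwa [one_mul]))
  · exact (c3 x hx.1 a b).symm.trans (aux ((bcut_eq (by linarith [hx.2.2])).trans
      (by rw [one_mul])) (a1 x ⟨hx.1, hx.2.1, by linarith [hx.2.2]⟩ a b))

/-- **the inner collar** -/
theorem colI_of (hU : UI ε) (h0 : 0 ≤ κ) (h1 : κ ≤ 1 / 8) (hv : ‖v‖ ≤ NQ.eta 10 (Real.exp (-κ)))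
    (hε : cB 2 0 * (24 * ‖v‖) ≤ min ε (1 / 100)) (he : e ≤ ε)
    (hi : ∀ x ∈ Icc (-4 : ℝ) (-1), InvM Γ (fun i k => (SR NQ κ v).p (colR κ) i k x) ∧
      InvM Γ fun i k => (SR NQ κ v).q (colR κ) i k x)
    (hy : ∀ ab k, k ≠ 0 → trD 1 (v.2 (.inl ab)) k = trD 1 (y ab) k)
    (hu : ∀ x ∈ An (Ioo (-2) (-1)),
      u x = reM (fun i => fn 0 ((SR NQ κ v).p (colR κ) i) ((SR NQ κ v).q (colR κ) i)) x)
    (sm : ∀ i, ContDiffOn ℝ ∞ (EF NQ 10 (Real.exp (-κ)) (colR κ) (bcut (-1)) v (QI v) i)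
      {x | x ≠ 0}) :
    ColI Γ e y u (reM (EF NQ 10 (Real.exp (-κ)) (colR κ) (bcut (-1)) v (QI v))) ∧
      ∀ x, x ≠ 0 → ∀ a b, EF NQ 10 (Real.exp (-κ)) (colR κ) (bcut (-1)) v (QI v) (.inl (a, b)) x =
        cf (reM (EF NQ 10 (Real.exp (-κ)) (colR κ) (bcut (-1)) v (QI v))) a b x := by
  have ok := (fam_colR h0 h1).base
  have o0 := Real.exp_pos (-κ)
  have hτ : ∀ x ∈ Ioo (-4 : ℝ) (-1), (colR κ).τ x = 1 := fun x hx => by
    change ((ind (-4) (-4 + 3) x : ℝ) : ℂ) = 1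
    rw [ind_of_mem hx.1.le (by linarith [hx.2]), Complex.ofReal_one]
  have hw : ∀ x ∈ Ioo (-4 : ℝ) (-1), |(colR κ).w x| ≤ 1 := fun x _ => by rw [colR_w, abs_one]
  have ho : ∀ x ∈ Ioo (-4 : ℝ) (-1), |(colR κ).om x| ≤ 1 := fun x _ => by
    rw [abs_of_pos (ok.om0 o0 x)]; exact ok.o1 x
  have hs := NL.sol_sol (N := NQ) ok o0 hv
  have pt : ∀ k, k ≠ 0 → (colR κ).pt k = -4 + 3 := fun k hk => if_neg hk
  have hd : ∀ i k, k ≠ 0 → (SR NQ κ v).p (colR κ) i k (-4 + 3) = trD 1 (v.2 i) k :=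
    fun i k hk => by
      rw [← pt k hk]
      refine ((NQ.sol_dat ok o0 v).hp rfl i k).trans ?_
      rw [colR_w, Complex.ofReal_one, one_smul]
      exact congrArg (trD · _ k) (omR_right _)
  have hl := sol_L0 ok o0 (QI v)
  have lq : ∀ i k x, ((colR κ).L0 (QI v)).q (colR κ) i k x = 0 := fun i k x => by
    change tru 6 _ _ ((colR κ).EM 0) k x = 0
    rw [map_zero, tru_zero]
  have lp : ∀ i k x, ((colR κ).L0 (QI v)).p (colR κ) i k x = if k = 0 then 0 else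
      ((Real.exp (k * (cl (-4) (-4 + 3) x - cl (-4) (-4 + 3) (-4 + 3))) : ℝ) : ℂ) •
        (SR NQ κ v).p (colR κ) i k (-4 + 3) := fun i k x => by
    refine (ok.tru_EP o0 rfl (kill (v.2 i)) k x).trans ?_
    rw [trD_kill]
    split_ifs with hk
    · simp
    · rw [hd i k hk, pt k hk, colR_w, Complex.ofReal_one, one_smul,
        show (colR κ).om (-4 + 3) = 1 from omR_right _]
      push_cast
      rfl
  have li : ∀ x ∈ Ioo (-4 : ℝ) (-1), InvM Γ (fun i k => ((colR κ).L0 (QI v)).p (colR κ) i k x) ∧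
      InvM Γ fun i k => ((colR κ).L0 (QI v)).q (colR κ) i k x := fun x _ =>
    ⟨((hi (-4 + 3) (by norm_num)).1.smul _).kill.congr fun i k => lp i k x,
      InvM.zero.congr fun i k => lq i k x⟩
  have hi' := fun x (hx : x ∈ Ioo (-4 : ℝ) (-1)) => hi x (Ioo_subset_Icc_self hx)
  obtain ⟨a1, a2, a3⟩ := fld hs isOpen_Ioo hτ zero_le_one le_rfl hw ho hi'
  obtain ⟨b1, b2, -⟩ := fld hl isOpen_Ioo hτ zero_le_one le_rfl hw ho li
  obtain ⟨c1, -, c3⟩ := cut_inv (χ := bcut (-1)) (fun t ht => bcut_zero (by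
    rcases not_and_or.1 ht with h | h <;> [right; left] <;> linarith [not_lt.1 h])) a2 b2 a1 b1
    (fun _ _ => rfl) sm
  have n0 := norm_nonneg v
  have n1 : ‖QI v‖ ≤ ‖v‖ := max_le (by simp [QI_apply])
    ((norm_piL_le norm_kill_le _).trans (norm_snd_le v))
  have c0 := cB_pos 2 0
  have s1 : Ioo (-3 : ℝ) (-1) ⊆ Ioo (-4) (-1) := Ioo_subset_Ioo (by norm_num) le_rfl
  have s2 : Ioo (-3 : ℝ) (-2) ⊆ Ioo (-4) (-1) := Ioo_subset_Ioo (by norm_num) (by norm_num)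
  have e1 := hε.trans (min_le_left _ _)
  have e2 := hε.trans (min_le_right _ _)
  have k := hU Γ y _ _ (fun a b => fn 0 (((colR κ).L0 (QI v)).p (colR κ) (.inl (a, b)))
      (((colR κ).L0 (QI v)).q (colR κ) (.inl (a, b))))
    ⟨fun a b => (a2.sm a b).mono (An_mono s1), fun x hx => a2.symm x (An_mono s1 hx),
      b2_mono a3 (An_mono s1) (by linarith)⟩
    (fun x hx => red0 hs isOpen_Ioo hτ hw ho hi' (by linarith) (An_mono s1 hx))
    (fun a b k hk => ?_)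
    (fun a b x hx => harm hl isOpen_Ioo hτ hw ho (by nlinarith) _ (An_mono s2 hx))
    (fun a b t ht => ⟨(pm_fn hl isOpen_Ioo hτ hw ho 0 _ 0 (by simpa using s2 ht)).1.trans
      ((lp _ _ _).trans (if_pos rfl)), fun k =>
        (pm_fn hl isOpen_Ioo hτ hw ho 0 _ k (by simpa using s2 ht)).2.trans (lq _ _ _)⟩)
    c1 (fun x hx => ?_) (fun x hx a b => ?_) e he
  · exact ⟨⟨k.inv, k.supp, fun W w1 w2 w3 w4 w5 w6 x hx =>
      (k.unq W w1 w2 w3 w4 w5 w6 x hx).trans (hu x hx).symm⟩, c3⟩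
  · rw [← hy _ _ hk, ← hd _ _ hk, show (-4 + 3 : ℝ) = -1 by norm_num]
    refine (((hs.bp _).cont k).continuousAt.tendsto.mono_left nhdsWithin_le_nhds).congr' ?_
    filter_upwards [Ioo_mem_nhdsLT (show (-4 : ℝ) < -1 by norm_num)] with t ht
    exact (pm_re hs isOpen_Ioo hτ hw ho hi' a b k ht).1.symm
  · ext a b
    exact aux0 (bcut_zero (by rwa [neg_one_mul]))
  · exact (c3 x hx.1 a b).symm.trans (aux ((bcut_eq (by linarith [hx.2.1])).trans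
      (by rw [neg_one_mul])) (a1 x ⟨hx.1, by linarith [hx.2.1], hx.2.2⟩ a b))

end Crest.Agent.N207.L.Xh

end
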