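import Crest.Agent.N207.L.Xh2
import Crest.Agent.N207.L.As1
import Crest.Agent.N207.CB.Nl2
import Crest.Agent.N207.CB.Nl4

/-! # N207/L/Xh3 (helper80): the root end, `xhs : XHS` -/

set_option autoImplicit false

open scoped ContDiff InnerProductSpace
open Metric Set Filter Topology MeasureTheory
open Crest.GeometryTopology.CoordMetric
open Crest.Agent.N207.J Crest.Agent.N207.CB Crest.Agent.N207.I

noncomputable section

namespace Crest.Agent.N207.L.Xh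

variable {κ : ℝ}

theorem hnk_w_abs {x : ℝ} (hx : x ∈ Ioi (1 : ℝ)) :
    |(hnk κ).w x| ≤ Real.exp (-(3 / 2) * (x - 1)) := by
  rw [hnk_w, Real.abs_exp, max_eq_right (le_of_lt hx)]

/-- the action on the half line is a continuous linear form of the stored source -/
theorem exists_en (h0 : 0 ≤ κ) (h1 : κ ≤ 1 / 8) : ∃ E : CL →L[ℂ] ℂ, ∀ X, E X =
    ∫ s in Ioi (1 : ℝ), ((Real.exp (2 * (s + 0)) : ℝ) : ℂ) *
      ⟪toH 1, tru 4 (fun x => (hnk κ).w x ^ 2) (hnk κ).om X 0 s⟫_ℂ := by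
  set g : CL → ℝ → ℂ := fun X s => ((Real.exp (2 * (s + 0)) : ℝ) : ℂ) *
    ⟪toH 1, tru 4 (fun x => (hnk κ).w x ^ 2) (hnk κ).om X 0 s⟫_ℂ with hg
  have hb : ∀ X, ∀ᵐ s ∂volume.restrict (Ioi (1 : ℝ)),
      ‖g X s‖ ≤ ‖toH 1‖ * Real.exp 3 * ‖X‖ * Real.exp (-1 * s) := fun X => by
    refine (ae_restrict_iff' measurableSet_Ioi).2 (ae_of_all _ fun s hs => ?_)
    have a1 : ‖tru 4 (fun x => (hnk κ).w x ^ 2) (hnk κ).om X 0 s‖ ≤
        Real.exp (-(3 / 2) * (s - 1)) ^ 2 * ‖X‖ := by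
      rw [tru, norm_smul, wt_nat, Complex.norm_real]
      refine mul_le_mul ?_ ((norm_P_le _ _).trans (((X 0).norm_coe_le_norm s).trans
        (CL.norm_apply_le X 0))) (norm_nonneg _) (by positivity)
      simpa using pow_le_pow_left₀ (abs_nonneg _) (hnk_w_abs (κ := κ) hs) 2
    simp only [hg, norm_mul, Complex.norm_real, Real.norm_eq_abs, Real.abs_exp]
    refine (mul_le_mul_of_nonneg_left ((norm_inner_le_norm _ _).trans
      (mul_le_mul_of_nonneg_left a1 (norm_nonneg _))) (Real.exp_pos _).le).trans (le_of_eq ?_)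
    have : Real.exp (2 * (s + 0)) * Real.exp (-(3 / 2) * (s - 1)) ^ 2 =
        Real.exp 3 * Real.exp (-1 * s) := by
      rw [← Real.exp_nat_mul, ← Real.exp_add, ← Real.exp_add]
      congr 1; push_cast; ring
    linear_combination (‖toH 1‖ * ‖X‖) * this
  have hi : ∀ X, IntegrableOn (g X) (Ioi 1) := fun X =>
    ((exp_neg_integrableOn_Ioi 1 one_pos).const_mul _).mono' (Continuous.aestronglyMeasurable
      ((by fun_prop : Continuous fun s : ℝ => ((Real.exp (2 * (s + 0)) : ℝ) : ℂ)).mul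
        (continuous_const.inner (((ok_hnk h0 h1).bd4 (Real.exp_pos _) X).cont 0)))) (hb X)
  refine ⟨LinearMap.mkContinuous
    { toFun := fun X => ∫ s in Ioi (1 : ℝ), g X s
      map_add' := fun X Y => by
        rw [← integral_add (hi X) (hi Y)]
        simp only [hg, tru_add, inner_add_right, mul_add]
      map_smul' := fun c X => by
        rw [RingHom.id_apply, ← integral_smul]
        simp only [hg, tru_smul, inner_smul_right, smul_eq_mul, mul_left_comm c] }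
    (‖toH 1‖ * Real.exp 3 * ∫ s in Ioi (1 : ℝ), Real.exp (-1 * s)) fun X => ?_, fun X => rfl⟩
  refine (norm_integral_le_of_norm_le ((exp_neg_integrableOn_Ioi 1 one_pos).const_mul _)
    (hb X)).trans (le_of_eq ?_)
  rw [integral_const_mul]; ring

/-- no data for the action component -/
def emb : CB.DD →L[ℂ] (IX → D) :=
  ContinuousLinearMap.pi (Sum.rec (fun ab => ContinuousLinearMap.proj ab) fun _ => 0)

theorem emb_eq (y : CB.DD) : emb y = Sum.elim y 0 := funext fun i => by cases i <;> rfl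

theorem norm_emb (y : CB.DD) : ‖emb y‖ ≤ ‖y‖ :=
  (pi_norm_le_iff_of_nonneg (norm_nonneg _)).2 fun i => by
    rcases i with i | i
    · exact norm_le_pi_norm y i
    · exact norm_zero.trans_le (norm_nonneg y)

theorem fn_cmp {c c' : ℝ} {p q : Md} {φ : ℝ → ℝ} {x : E4}
    (h : φ (Real.log ‖x‖ - c') = Real.log ‖x‖ - c) :
    fn c p q x = fn c' (cmpM p φ) (cmpM q φ) x := by
  simp only [fn, ann, val, cmpM, h]

theorem uS_cmp {c c' : ℝ} {p q p' q' : IX → Md} {φ : ℝ → ℝ} (m2 : cmpV p φ = p')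
    (m3 : cmpV q φ = q') {x : E4} (h : φ (Real.log ‖x‖ - c') = Real.log ‖x‖ - c) :
    uS c p q x = reM (fun i => fn c' (p' i) (q' i)) x := by
  subst m2 m3
  ext a b
  exact congrArg Complex.re (fn_cmp h)

theorem invM_cmp {Γ : Subgroup Iso4} {p p' : IX → Md} {φ : ℝ → ℝ} (m : cmpV p φ = p') {x : ℝ}
    (h : InvM Γ fun i k => p i k (φ x)) : InvM Γ fun i k => p' i k x := by
  subst m; exact h

theorem asol_mono {Γ : Subgroup Iso4} {I : Set ℝ} {η η' en : ℝ} {u : MetricField 4}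
    (h : ASol Γ I η en u) (e : η ≤ η') : ASol Γ I η' en u :=
  ⟨h.inv, h.pos, h.eq, b2_mono h.bd subset_rfl e, h.int, h.en⟩

/-- the real solution on the half line -/
theorem half_real {εU ε : ℝ} (hU : UO εU) (h0 : 0 ≤ κ) (h1 : κ ≤ 1 / 8) {Γ : Subgroup Iso4}
    {y : CB.DD} {hc : MetricField 4} (i1 : Inv Γ 2 (An (Ioo (1 / 2) (3 / 2))) hc)
    (i2 : DatQ hc 1 y) (n1 : ‖emb y‖ ≤ ε) (e1 : 34 * ε ≤ NQ.eta 10 (Real.exp (-κ)))
    (e2 : cS * (2 * ε) ≤ 1 / 8) (e3 : cB 2 0 * (24 * (2 * ε)) ≤ min εU (1 / 100)) (e4 : ε ≤ εU)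
    {v : L.DD IX} (hv : v = (emb y, uH NQ κ (emb y)))
    (b3 : ∀ i, ContDiffOn ℝ ∞ (EF NQ 10 (Real.exp (-κ)) (colL κ) (bcut 1) v (QO v) i)
      {x | x ≠ 0}) :
    ∃ (u : MetricField 4) (en : ℝ), ASol Γ (Ioi 1) (cS * (2 * ‖emb y‖)) en u ∧
      ColO Γ ε y u (reM (EF NQ 10 (Real.exp (-κ)) (colL κ) (bcut 1) v (QO v))) ∧
      (∀ x, x ≠ 0 → ∀ a b, EF NQ 10 (Real.exp (-κ)) (colL κ) (bcut 1) v (QO v) (.inl (a, b)) x =
        cf (reM (EF NQ 10 (Real.exp (-κ)) (colL κ) (bcut 1) v (QO v))) a b x) ∧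
      (en : ℂ) = ∫ s in Ioi (1 : ℝ), ((Real.exp (2 * (s + 0)) : ℝ) : ℂ) *
        ⟪toH 1, (HS NQ κ (emb y)).F (hnk κ) (.inr ()) 0 s⟫_ℂ ∧
      ∀ x ∈ An (Ioi 1), ∀ j ≤ 2, ∀ a b, ‖x‖ ^ j * ‖iteratedFDeriv ℝ j (fun z => u z a b) x‖ ≤
        cS * (2 * ‖emb y‖) * (Real.exp 4 / ‖x‖) ^ (3 / 2 : ℝ) := by
  have o0 := Real.exp_pos (-κ)
  have ok := ok_hnk h0 h1
  have n0 := norm_nonneg (emb y)
  have c0 := cB_pos 2 0
  have c1 := one_le_cS
  obtain ⟨m1, m2, m3, -⟩ := hnk_match (N := NQ) h0 h1 (y := emb y) (by linarith)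
  rw [← hv] at m1 m2 m3
  have hs := HS_sol (N := NQ) h0 h1 (y := emb y) (by linarith)
  have hi := hs.sym (Γ := Γ) ok o0 (fun x => by
      change ∃ r : ℝ, (if 1 ≤ x then 1 else 0 : ℂ) = r
      split_ifs
      exacts [⟨1, rfl⟩, ⟨0, rfl⟩]) (by linarith) (HS_dat NQ h0 h1 _)
    (emb_eq y ▸ dinv_datQ isOpen_Ioo i1 (by norm_num) (by norm_num) i2) (fun h => by cases h)
  have hτ : ∀ x ∈ Ioi (1 : ℝ), (hnk κ).τ x = 1 := fun x hx => if_pos (le_of_lt hx)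
  have ho : ∀ x ∈ Ioi (1 : ℝ), |(hnk κ).om x| ≤ 1 := fun x _ => by
    rw [abs_of_pos (ok.om0 o0 x)]; exact ok.o1 x
  have hw : ∀ x ∈ Ioi (1 : ℝ), |(hnk κ).w x| ≤ 1 := fun x _ => by
    rw [abs_of_pos (ok.w0 x)]; exact ok.w1 x
  have jj := hs.energy_half (a := 1) (fun x hx => hnk_w_abs hx) ho ok.wc.continuousOn 0 (.inr ())
  rw [show (1 : ℝ) + 0 = 1 from add_zero 1] at jj
  obtain ⟨en, s1, s2⟩ := hs.asol (J := Ioi 1) isOpen_Ioi hτ (fun t => by rw [sub_zero]) ho hw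
    (fun t _ => (hi t).1) (fun t _ => (hi t).2.1)
    ((mul_le_mul_of_nonneg_left (by linarith) (by linarith)).trans e2) jj.1
  obtain ⟨r1, r2⟩ := colO_of (Γ := Γ) (y := y)
    (u := uS 0 ((HS NQ κ (emb y)).p (hnk κ)) ((HS NQ κ (emb y)).q (hnk κ))) hU h0 h1
    (v := v) (by linarith) ((mul_le_mul_of_nonneg_left (by linarith) c0.le).trans e3) e4
    (fun x _ => ⟨invM_cmp m2 (hi _).1, invM_cmp m3 (hi _).2.1⟩) (fun _ _ => by rw [hv]; rfl)
    (fun x hx => uS_cmp m2 m3 (cl_of_mem (by linarith [hx.2.1]) (by linarith [hx.2.2])))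
    b3
  exact ⟨_, en, s1, r1, r2, s2.trans jj.2,
    fun x hx j hj a b => hs.uS_dec hτ ho (fun x => hnk_w_abs) hx hj a b⟩

end Xh

open Xh in
theorem xhs : XHS := fun k => by
  obtain ⟨κ, h0, h1⟩ : ∃ κ : ℝ, 0 < κ ∧ κ ≤ 1 / 8 := ⟨1 / 8, by norm_num, le_rfl⟩
  have o0 := Real.exp_pos (-κ)
  have ok := ok_hnk h0.le h1
  have η0 := NQ.eta_pos ok o0
  obtain ⟨εU, u0, hU⟩ := uo
  obtain ⟨E, hE⟩ := exists_en h0.le h1
  obtain ⟨K, B, K0, dB, hB⟩ := (col_L 1 h0 h1 (C := 10) (by norm_num)).e2M supp_bcut_L k NQ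
    Sum.inl QO (γ := colL κ) rfl
  have k2 := NQ.K2_pos (ok.wts o0)
  have c1 := one_le_cS
  have e0 := norm_nonneg E
  obtain ⟨ε, ε0, e1, e2, e3, e4, e5⟩ : ∃ ε : ℝ, 0 < ε ∧ 34 * ε ≤ NQ.eta 10 (Real.exp (-κ)) ∧
      cS * (2 * ε) ≤ 1 / 8 ∧ cB 2 0 * (24 * (2 * ε)) ≤ min εU (1 / 100) ∧ ε ≤ εU ∧ ε ≤ 1 := by
    have t : ∀ {a b : ℝ}, 0 < b → ∀ᶠ ε in 𝓝[>] (0 : ℝ), a * ε ≤ b := fun {a b} hb =>
      nhdsWithin_le_nhds (((continuous_const.mul continuous_id).tendsto' 0 0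
        (by simp)).eventually (ge_mem_nhds hb))
    obtain ⟨ε, a0, a1, a2, a3, a4, a5⟩ := ((eventually_mem_nhdsWithin (a := (0 : ℝ))).and
      ((t (a := 34) η0).and ((t (a := cS * 2) (b := 1 / 8) (by norm_num)).and
        ((t (a := cB 2 0 * 48) (lt_min u0 (show (0 : ℝ) < 1 / 100 by norm_num))).and
          ((t (a := 1) u0).and (t (a := 1) one_pos)))))).exists
    exact ⟨ε, a0, a1, by linarith, by linarith, by linarith, by linarith⟩
  have ny : ∀ y ∈ ball (0 : CB.DD) ε, ‖emb y‖ < ε := fun y hy =>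
    (norm_emb y).trans_lt (mem_ball_zero_iff.1 hy)
  have hm := fun y hy => (hnk_match (N := NQ) h0.le h1 (y := emb y) (by linarith [ny y hy])).1
  have hv : ∀ y ∈ ball (0 : CB.DD) ε, ((emb y, uH NQ κ (emb y)) : L.DD IX) ∈
      ball 0 (NQ.eta 10 (Real.exp (-κ)) / 2) := fun y hy =>
    mem_ball_zero_iff.2 ((hm y hy).trans_lt (by linarith [ny y hy]))
  have mp : MapsTo emb (ball 0 ε) (ball 0 (NQ.eta 10 (Real.exp (-κ)))) := fun y hy =>
    mem_ball_zero_iff.2 (by linarith [ny y hy])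
  have de : DifferentiableOn ℂ emb (ball 0 ε) := emb.differentiable.differentiableOn
  obtain ⟨C, hC⟩ : ∃ C, C = K * (81 * NQ.K2 (Real.exp (-κ)) + 4) + 2 * ‖E‖ + 2 * cS := ⟨_, rfl⟩
  have k3 : 0 ≤ K * (81 * NQ.K2 (Real.exp (-κ)) + 4) := mul_nonneg K0.le (by linarith)
  have d1 := (diffOn_uH (N := NQ) h0.le h1).comp de mp
  have d2 := dB.comp (de.prodMk d1) hv
  have d3 := E.differentiable.comp_differentiableOn (differentiableOn_pi.1
    ((diffOn_HS (N := NQ) h0.le h1).comp de mp).snd.snd (.inr ()))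
  refine ⟨⟨ε, C, ε0, fun y => (B (emb y, uH NQ κ (emb y)), E ((HS NQ κ (emb y)).2.2 (.inr ()))),
    d2.prodMk d3, fun y hy => ⟨?_, ?_⟩, fun y hy => (hB _ (hv y hy)).2.1,
    fun Γ y hy hc i1 i2 => ?_⟩⟩
  · have a0 := (hB _ (hv y hy)).1.trans_eq (congrArg (fun t => K * (t + _)) (norm_sub_QO _))
    have a1 := norm_uH_le (N := NQ) h0.le h1 (y := emb y) (by linarith [ny y hy])
    have a2 := pow_le_pow_left₀ (norm_nonneg _) (hm y hy) 2
    have a3 := pow_le_pow_left₀ (norm_nonneg _) (norm_emb y) 2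
    refine a0.trans ?_
    calc _ ≤ K * ((81 * NQ.K2 (Real.exp (-κ)) + 4) * ‖emb y‖ ^ 2) :=
          mul_le_mul_of_nonneg_left (by linarith) K0.le
      _ ≤ K * ((81 * NQ.K2 (Real.exp (-κ)) + 4) * ‖y‖ ^ 2) :=
          mul_le_mul_of_nonneg_left (mul_le_mul_of_nonneg_left a3 (by linarith)) K0.le
      _ ≤ _ := (mul_assoc _ _ _).symm.trans_le
          (mul_le_mul_of_nonneg_right (by linarith) (sq_nonneg _))
  · have a1 := (Tr.norm_F (HS NQ κ (emb y)) (.inr ())).trans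
      (NL.norm_sol ok o0 ((norm_pr0 _).trans_le (by linarith [ny y hy])))
    have a2 := norm_pr0 (emb y)
    exact (E.le_opNorm _).trans ((mul_le_mul_of_nonneg_left (a1.trans
      (show _ ≤ 2 by linarith [ny y hy])) e0).trans (by linarith))
  have sz : cS * (2 * ‖emb y‖) ≤ C * ‖y‖ :=
    calc _ ≤ cS * (2 * ‖y‖) := mul_le_mul_of_nonneg_left (by linarith [norm_emb y]) (by linarith)
      _ = 2 * cS * ‖y‖ := by ring
      _ ≤ _ := mul_le_mul_of_nonneg_right (by linarith) (norm_nonneg _)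
  obtain ⟨-, -, b3, b4⟩ := hB _ (hv y hy)
  obtain ⟨u, en, s1, r1, r2, s2, s3⟩ := half_real hU h0.le h1 i1 i2 (ny y hy).le e1 e2 e3 e4 rfl b3
  exact ⟨u, _, en, asol_mono s1 sz, r1, lfJ_of r2 b4, (hE _).trans s2.symm,
    fun x hx j hj a b => (s3 x hx j hj a b).trans (mul_le_mul_of_nonneg_right sz
      (Real.rpow_nonneg (div_nonneg (Real.exp_pos 4).le (norm_nonneg x)) _))⟩

end Crest.Agent.N207.L

end
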