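import Crest.Agent.N207.CB.E2e
import Crest.Agent.N207.CB.Nl2
import Crest.Agent.N207.CB.Nl1
import Crest.Agent.N207.CB.Dsh
import Crest.Agent.N207.L.Inv2
import Crest.Agent.N207.L.Lp3
import Crest.Agent.N207.L.Nk3
import Crest.Agent.N207.L.Pol7

/-! # N207/L/Xn1 (helper59): the extended neck, holomorphic part -/

set_option autoImplicit false
set_option maxHeartbeats 1600000

open scoped ContDiff InnerProductSpace
open Metric Set Filter Topology MeasureTheory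
open Crest.GeometryTopology.CoordMetric
open Crest.Agent.N207.I Crest.Agent.N207.J Crest.Agent.N207.CB Crest.Agent.N207.Lg

noncomputable section

namespace Crest.Agent.N207.L

/-- no energy data -/
def em1 : CB.DD →L[ℂ] (IX → D) :=
  ContinuousLinearMap.pi (Sum.rec (fun e => ContinuousLinearMap.proj e) fun _ => 0)

theorem em1_apply (y : CB.DD) : em1 y = Sum.elim y 0 := by
  funext i; cases i <;> rfl

theorem norm_em1_le (y : CB.DD) : ‖em1 y‖ ≤ ‖y‖ :=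
  (pi_norm_le_iff_of_nonneg (norm_nonneg _)).2 fun i => by
    cases i with
    | inl e => exact norm_le_pi_norm y e
    | inr _ => exact (norm_zero (E := D)).le.trans (norm_nonneg _)

/-- no energy data -/
def em2 : CB.DD × CB.DD →L[ℂ] DD IX := em1.prodMap em1

theorem norm_em2_le (y : CB.DD × CB.DD) : ‖em2 y‖ ≤ ‖y‖ :=
  max_le ((norm_em1_le _).trans (norm_fst_le y)) ((norm_em1_le _).trans (norm_snd_le y))

/-- the analytic weight -/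
abbrev o8 : ℝ := Real.exp (-(1 / 8))

/-- the action of the extended neck, read in the parent collar -/
def enL : Tr IX →L[ℂ] ℂ :=
  ((-2 * Real.exp (-2) : ℝ) : ℂ) • (innerSL ℂ (toH 1)) ∘L
    truL (colR (1 / 8)).w (colR (1 / 8)).om 0 (-4 + 3) ∘L ContinuousLinearMap.proj (.inr ()) ∘L
      ContinuousLinearMap.fst ℂ _ _ ∘L ContinuousLinearMap.snd ℂ _ _

theorem enL_apply (S : Tr IX) : enL S =
    ((-2 * Real.exp (-2) : ℝ) : ℂ) * ⟪toH 1, S.q (colR (1 / 8)) (.inr ()) 0 (-4 + 3)⟫_ℂ := by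
  have := truL_apply (colR (1 / 8)).w (colR (1 / 8)).om 0 (-4 + 3) (S.2.1 (.inr ()))
  exact congrArg (fun v => ((-2 * Real.exp (-2) : ℝ) : ℂ) * ⟪toH 1, v⟫_ℂ) this

theorem keep_kill (A : D) : keep (kill A) = 0 := CL.ext fun k => by
  rw [keep_apply, kill_apply]; split_ifs <;> rfl

theorem kill_keep (A : D) : kill (keep A) = 0 := CL.ext fun k => by
  rw [kill_apply, keep_apply]; split_ifs <;> rfl

theorem kill_kill (A : D) : kill (kill A) = kill A := CL.ext fun k => by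
  rw [kill_apply, kill_apply]; split_ifs <;> rfl

section
variable {ι : Type} [Fintype ι]

theorem sub_QO_dL (y : DD ι) (u : D3 ι) : ‖dL y u - QO (dL y u)‖ ≤ ‖u‖ := by
  rw [norm_sub_QO]; exact norm_fst_le u

theorem sub_QI_dR (y : DD ι) (u : D3 ι) : ‖dR y u - QI (dR y u)‖ ≤ ‖u‖ := by
  rw [norm_sub_QI]
  refine max_le ((norm_fst_le u.2).trans (norm_snd_le u)) ?_
  have : piL keep (dR y u).2 = piL keep u.2.2 := by
    funext i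
    change keep (u.2.2 i + kill (y.2 i)) = keep (u.2.2 i)
    rw [map_add, keep_kill, add_zero]
  rw [this]
  exact (norm_piL_le norm_keep_le _).trans ((norm_snd_le u.2).trans (norm_snd_le u))

end

theorem xn_num {K C a δ u d e r : ℝ} (hK : 0 ≤ K) (hC : 0 ≤ C) (a0 : 0 ≤ a) (δ0 : 0 ≤ δ)
    (d0 : 0 ≤ d) (u0 : 0 ≤ u) (a1 : a < r) (δ1 : δ < r) (r1 : r ≤ 1) (hu : u ≤ C * (a ^ 2 + δ))
    (hd : d ≤ a + u) (he : e ≤ u) :
    d ≤ (1 + 2 * C) * r ∧ K * (e + d ^ 2) ≤ K * (C + 2 + 4 * C ^ 2) * (a ^ 2 + δ) := by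
  have m1 : a ^ 2 + δ ≤ 2 * r := by nlinarith
  have m2 : C * (a ^ 2 + δ) ≤ C * (2 * r) := mul_le_mul_of_nonneg_left m1 hC
  refine ⟨by nlinarith, ?_⟩
  rw [mul_assoc]
  refine mul_le_mul_of_nonneg_left ?_ hK
  have h1 : d ^ 2 ≤ (a + u) ^ 2 := pow_le_pow_left₀ d0 hd 2
  have h2 : u * u ≤ C * (a ^ 2 + δ) * (C * 2) :=
    mul_le_mul hu (by nlinarith) u0 (by positivity)
  nlinarith [sq_nonneg (a - u)]

/-- the holomorphic data of the extended neck -/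
structure XD (k : ℕ) (r0 : ℝ) (E : Type) [NormedAddCommGroup E] [NormedSpace ℂ E] (N : ℂ → E)
    (n0 : E) (ε C ℓ0 : ℝ) (X : E × CB.DD × CB.DD → MJ k × MJ k × ℂ) : Prop where
  hol : DifferentiableOn ℂ X (ball (n0, 0) ε)
  bd : ∀ p ∈ ball ((n0, 0) : E × CB.DD × CB.DD) ε,
    ‖(X p).1‖ ≤ C * (‖p.2‖ ^ 2 + ‖p.1 - n0‖) ∧ ‖(X p).2.1‖ ≤ C * (‖p.2‖ ^ 2 + ‖p.1 - n0‖) ∧
      ‖(X p).2.2‖ ≤ C
  cpx : ∀ p ∈ ball ((n0, 0) : E × CB.DD × CB.DD) ε, Cpx 1 (X p).1 ∧ Cpx (-1) (X p).2.1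
  real : ∀ ℓ : ℝ, ℓ0 ≤ ℓ → ∀ y : CB.DD × CB.DD,
    (N ℓ, y) ∈ ball ((n0, 0) : E × CB.DD × CB.DD) ε → ∃ u : D3 IX, 1 ≤ (ℓ - 8) / 2 ∧
      Idn NQ (1 / 8) ((ℓ - 8) / 2) (em2 y) u ∧ piL keep u.2.2 = u.2.2 ∧
      ‖em2 y‖ ≤ r0 ∧ ‖dL (em2 y) u‖ ≤ r0 ∧ ‖dR (em2 y) u‖ ≤ r0 ∧
      (∀ (x : J0) a b, ∀ z ∈ B1, ((X (N ℓ, y)).1 a b).val x z =
        EF NQ 10 o8 (colL (1 / 8)) (bcut 1) (dL (em2 y) u) (QO (dL (em2 y) u)) (.inl (a, b))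
          (x.1 + (‖x.1‖ / 8) • z)) ∧
      (∀ (x : J0) a b, ∀ z ∈ B1, ((X (N ℓ, y)).2.1 a b).val x z =
        EF NQ 10 o8 (colR (1 / 8)) (bcut (-1)) (dR (em2 y) u) (QI (dR (em2 y) u)) (.inl (a, b))
          (x.1 + (‖x.1‖ / 8) • z)) ∧
      (X (N ℓ, y)).2.2 = enL (SR NQ (1 / 8) (dR (em2 y) u))

theorem o8_pos : 0 < o8 := Real.exp_pos _

theorem eta8_pos : 0 < NQ.eta 10 o8 :=
  NQ.eta_pos' (by norm_num) o8_pos (Real.exp_le_one_iff.2 (by norm_num))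

theorem xd_of (k : ℕ) {r0 : ℝ} (hr : 0 < r0) {E : Type} [NormedAddCommGroup E] [NormedSpace ℂ E]
    {N : ℂ → E} {n0 : E} {ε' C L0 : ℝ} {u : E × DD IX → D3 IX} (hε' : 0 < ε') (hC : 0 < C)
    (diff : DifferentiableOn ℂ u (ball (n0, 0) ε'))
    (le : ∀ z ∈ ball ((n0, 0) : E × DD IX) ε', ‖u z‖ ≤ C * (‖z.2‖ ^ 2 + ‖z.1 - n0‖))
    (eta : ∀ z ∈ ball ((n0, 0) : E × DD IX) ε', ‖z.2‖ + ‖u z‖ < NQ.eta 10 o8)
    (kp : ∀ z, piL keep (u z).2.2 = (u z).2.2)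
    (hI : ∀ l : ℝ, L0 ≤ l → ∀ y : DD IX,
      (N ((2 * l : ℝ) : ℂ), y) ∈ ball ((n0, 0) : E × DD IX) ε' →
        1 ≤ l ∧ Idn NQ (1 / 8) l y (u (N ((2 * l : ℝ) : ℂ), y))) :
    ∃ (ε C' : ℝ) (X : (E × ℂ) × CB.DD × CB.DD → MJ k × MJ k × ℂ), 0 < ε ∧ ε ≤ r0 ∧ 0 < C' ∧
      XD k r0 (E × ℂ) (fun L => (N (L - (8 : ℝ)), Complex.exp (-2 * L))) (n0, 0) ε C'
        (2 * L0 + 8) X := by
  have k0 : (0 : ℝ) ≤ 1 / 8 := by norm_num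
  obtain ⟨KO, BO, hKO, dO, hO⟩ := (col_L 1 (κ := 1 / 8) (C := 10) (by norm_num) le_rfl
    (by norm_num)).e2M supp_bcut_L k NQ Sum.inl QO (γ := colL (1 / 8)) rfl
  obtain ⟨KI, BI, hKI, dI, hI'⟩ := (col_R (-4) (κ := 1 / 8) (C := 10) (by norm_num) le_rfl
    (by norm_num)).e2M supp_bcut_R k NQ Sum.inl QI (γ := colR (1 / 8)) rfl
  have η0 := eta8_pos
  obtain ⟨ρ, ρ0, ρ1, ρ2, ρ3⟩ : ∃ ρ : ℝ, 0 < ρ ∧ ρ ≤ 1 ∧ ρ ≤ r0 ∧ ρ ≤ NQ.eta 10 o8 / 4 :=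
    ⟨min 1 (min r0 (NQ.eta 10 o8 / 4)), by positivity, min_le_left _ _,
      (min_le_right _ _).trans (min_le_left _ _), (min_le_right _ _).trans (min_le_right _ _)⟩
  obtain ⟨r, r0', r1, r2⟩ : ∃ r : ℝ, 0 < r ∧ r ≤ ε' ∧ (1 + 2 * C) * r ≤ ρ :=
    ⟨min ε' (ρ / (1 + 2 * C)), by positivity, min_le_left _ _, by
      rw [← le_div_iff₀' (by positivity)]; exact min_le_right _ _⟩
  have r3 : r ≤ ρ := by nlinarith
  have hz : ∀ p ∈ ball (((n0, 0), 0) : (E × ℂ) × CB.DD × CB.DD) r,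
      ‖p.1.1 - n0‖ ≤ ‖p.1 - (n0, 0)‖ ∧ ‖p.1 - (n0, 0)‖ < r ∧ ‖p.2‖ < r ∧
        (p.1.1, em2 p.2) ∈ ball ((n0, 0) : E × DD IX) ε' := fun p hp => by
    obtain ⟨h1, h2⟩ := mem_ball_pr hp
    have h3 : ‖p.1.1 - n0‖ ≤ ‖p.1 - (n0, 0)‖ := norm_fst_le (p.1 - (n0, 0))
    refine ⟨h3, h1, h2, ?_⟩
    rw [mem_ball, Prod.dist_eq, dist_eq_norm, dist_zero_right]
    exact max_lt (by linarith) (by linarith [norm_em2_le p.2])
  have hn : ∀ p ∈ ball (((n0, 0), 0) : (E × ℂ) × CB.DD × CB.DD) r, ∀ {K d e : ℝ}, 0 ≤ K →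
      0 ≤ d → d ≤ ‖em2 p.2‖ + ‖u (p.1.1, em2 p.2)‖ → e ≤ ‖u (p.1.1, em2 p.2)‖ → d ≤ ρ ∧
        K * (e + d ^ 2) ≤ K * (C + 2 + 4 * C ^ 2) * (‖p.2‖ ^ 2 + ‖p.1 - (n0, 0)‖) := by
    intro p hp K d e hK d0 hd he
    obtain ⟨h1, h2, h3, h4⟩ := hz p hp
    have h5 := norm_em2_le p.2
    have h6 : ‖em2 p.2‖ ^ 2 ≤ ‖p.2‖ ^ 2 := pow_le_pow_left₀ (norm_nonneg _) h5 2
    have h7 : ‖u (p.1.1, em2 p.2)‖ ≤ C * (‖p.2‖ ^ 2 + ‖p.1 - (n0, 0)‖) :=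
      (le _ h4).trans (mul_le_mul_of_nonneg_left (add_le_add h6 h1) hC.le)
    obtain ⟨a, b⟩ := xn_num hK hC.le (norm_nonneg _) (norm_nonneg _) d0 (norm_nonneg _) h3 h2
      (r3.trans ρ1) h7 (hd.trans (by linarith)) he
    exact ⟨a.trans r2, b⟩
  have hl : ∀ p ∈ ball (((n0, 0), 0) : (E × ℂ) × CB.DD × CB.DD) r,
      ‖dL (em2 p.2) (u (p.1.1, em2 p.2))‖ ≤ ρ ∧ ‖dR (em2 p.2) (u (p.1.1, em2 p.2))‖ ≤ ρ :=
    fun p hp => ⟨(hn p hp le_rfl (norm_nonneg _) (norm_dL_le _ _) le_rfl).1,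
      (hn p hp le_rfl (norm_nonneg _) (norm_dR_le _ _) le_rfl).1⟩
  have mb : ∀ {d : DD IX}, ‖d‖ ≤ ρ → d ∈ ball (0 : DD IX) (NQ.eta 10 o8 / 2) := fun h =>
    mem_ball_zero_iff.2 (by linarith)
  have dy : DifferentiableOn ℂ (fun p : (E × ℂ) × CB.DD × CB.DD => em2 p.2)
      (ball ((n0, 0), 0) r) := (em2.differentiable.comp differentiable_snd).differentiableOn
  have du : DifferentiableOn ℂ (fun p : (E × ℂ) × CB.DD × CB.DD => u (p.1.1, em2 p.2))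
      (ball ((n0, 0), 0) r) :=
    diff.comp (differentiable_fst.fst.differentiableOn.prodMk dy) fun p hp => (hz p hp).2.2.2
  obtain ⟨C1, hC1⟩ : ∃ C1, C1 = C + 2 + 4 * C ^ 2 := ⟨_, rfl⟩
  rw [← hC1] at hn
  have C10 : 0 < C1 := by rw [hC1]; positivity
  have nE := norm_nonneg enL
  refine ⟨r, KO * C1 + KI * C1 + ‖enL‖ * 2, fun p => (BO (dL (em2 p.2) (u (p.1.1, em2 p.2))),
      BI (dR (em2 p.2) (u (p.1.1, em2 p.2))),
      enL (SR NQ (1 / 8) (dR (em2 p.2) (u (p.1.1, em2 p.2))))), r0',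
    r3.trans ρ2, by positivity, ?_, fun p hp => ?_, fun p hp => ?_, fun ℓ hℓ y hy => ?_⟩
  · refine (dO.comp (diffOn_dL dy du) fun p hp => mb (hl p hp).1).prodMk
      ((dI.comp (diffOn_dR dy du) fun p hp => mb (hl p hp).2).prodMk
        (enL.differentiable.comp_differentiableOn (diffOn_SR k0 le_rfl dy du fun p hp => ?_)))
    have := eta _ (hz p hp).2.2.2
    dsimp only at this ⊢
    exact this
  · have m0 : 0 ≤ ‖p.2‖ ^ 2 + ‖p.1 - (n0, 0)‖ := add_nonneg (sq_nonneg _) (norm_nonneg _)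
    have a1 := (hO _ (mb (hl p hp).1)).1.trans
      (hn p hp hKO.le (norm_nonneg _) (norm_dL_le _ _) (sub_QO_dL _ _)).2
    have a2 := (hI' _ (mb (hl p hp).2)).1.trans
      (hn p hp hKI.le (norm_nonneg _) (norm_dR_le _ _) (sub_QI_dR _ _)).2
    have a3 : ‖SR NQ (1 / 8) (dR (em2 p.2) (u (p.1.1, em2 p.2)))‖ ≤ 2 :=
      (NL.norm_sol (fam_colR k0 le_rfl).base o8_pos (by linarith [(hl p hp).2])).trans
        (by linarith [(hl p hp).2])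
    have b1 : 0 ≤ KO * C1 := by positivity
    have b2 : 0 ≤ KI * C1 := by positivity
    refine ⟨a1.trans (mul_le_mul_of_nonneg_right (by linarith) m0),
      a2.trans (mul_le_mul_of_nonneg_right (by linarith) m0), ?_⟩
    exact (enL.le_opNorm _).trans ((mul_le_mul_of_nonneg_left a3 nE).trans (by linarith))
  · exact ⟨(hO _ (mb (hl p hp).1)).2.1, (hI' _ (mb (hl p hp).2)).2.1⟩
  · have e1 : (ℓ : ℂ) - (8 : ℝ) = ((2 * ((ℓ - 8) / 2) : ℝ) : ℂ) := by push_cast; ring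
    generalize he : ((N (ℓ - (8 : ℝ)), Complex.exp (-2 * ℓ)) : E × ℂ) = n at hy ⊢
    have e2 : N (ℓ - (8 : ℝ)) = n.1 := by rw [← he]
    have h3 : ‖y‖ < r := (hz (n, y) hy).2.2.1
    have h4 : (n.1, em2 y) ∈ ball ((n0, 0) : E × DD IX) ε' := (hz (n, y) hy).2.2.2
    have l1 : ‖dL (em2 y) (u (n.1, em2 y))‖ ≤ ρ := (hl (n, y) hy).1
    have l2 : ‖dR (em2 y) (u (n.1, em2 y))‖ ≤ ρ := (hl (n, y) hy).2
    have h5 := hI ((ℓ - 8) / 2) (by linarith) (em2 y)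
    rw [← e1, e2] at h5
    obtain ⟨h6, h7⟩ := h5 h4
    exact ⟨_, h6, h7, kp _, by linarith [norm_em2_le y], l1.trans ρ2, l2.trans ρ2,
      (hO _ (mb l1)).2.2.2, (hI' _ (mb l2)).2.2.2, rfl⟩

theorem exists_XD (k : ℕ) {r0 : ℝ} (hr : 0 < r0) :
    ∃ (E : Type) (_ : NormedAddCommGroup E) (_ : NormedSpace ℂ E) (_ : CompleteSpace E) (Cd : ℝ)
      (N : ℂ → E) (co : ℕ → ℕ → E) (ε C ℓ0 : ℝ) (X : E × CB.DD × CB.DD → MJ k × MJ k × ℂ),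
      Dul Cd N co ∧ 0 < ε ∧ ε ≤ r0 ∧ 0 < C ∧ XD k r0 E N (co 0 0) ε C ℓ0 X := by
  obtain ⟨ε, R0, Cd, ε', C, Nm, co, u, -, hε', hC, hD, hL, L0, hI⟩ :=
    neck_loop (κ := 1 / 8) (neckStmt (piece NQ) (polyStmt NQ)) (by norm_num) le_rfl
  obtain ⟨C', co', hD', e0, -⟩ := dsh _ Cd _ co hD 8 (by norm_num)
  obtain ⟨r, C1, X, h1, h2, h3, h4⟩ := xd_of k hr hε' hC hL.diff hL.le hL.eta hL.keep hI
  exact ⟨HN IX ε × ℂ, inferInstance, inferInstance, inferInstance, C', _, co', r, C1, _, X, hD',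
    h1, h2, h3, e0 ▸ h4⟩

end Crest.Agent.N207.L
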