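import Crest.Agent.N207.L.Xn1
import Crest.Agent.N207.L.As1
import Crest.Agent.N207.L.Xh2
import Crest.Agent.N207.CB.Nl4

/-! # N207/L/Xn2 (helper59): the extended neck at real points -/

set_option autoImplicit false
set_option maxHeartbeats 800000

open scoped ContDiff InnerProductSpace
open Metric Set Filter Topology MeasureTheory
open Crest.GeometryTopology.CoordMetric
open Crest.Agent.N207.I Crest.Agent.N207.J Crest.Agent.N207.CB Crest.Agent.N207.Lg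

noncomputable section

namespace Crest.Agent.N207.L

/-- invariance of the solutions on the extended neck -/
def SymX (η1 : ℝ) : Prop :=
  ∀ (R : ℝ) (Γ : Subgroup Iso4) (η : ℝ) (p q F : IX → Md) (A B : IX → D), 1 ≤ R → η ≤ η1 →
    Sol NQ (xnk R (1 / 8)).τ (xnk R (1 / 8)).w (xnk R (1 / 8)).om η p q F →
    Dat (xnk R (1 / 8)) p q A B → (InvM Γ fun i => trD 1 (A i)) → (InvM Γ fun i => trD 1 (B i)) →
    ∀ x, (InvM Γ fun i k => p i k x) ∧ InvM Γ fun i k => q i k x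

theorem fn_cmp {p q : Md} {φ : ℝ → ℝ} {c s : ℝ} {x : J.E4} (hx : x ≠ 0)
    (h : φ (Real.log ‖x‖) = Real.log ‖x‖ + s - c) :
    fn c p q (Real.exp s • x) = fn 0 (cmpM p φ) (cmpM q φ) x := by
  have e : Real.log ‖Real.exp s • x‖ = Real.log ‖x‖ + s := by
    rw [norm_smul, Real.norm_of_nonneg (Real.exp_pos s).le,
      Real.log_mul (Real.exp_pos s).ne' (norm_ne_zero_iff.2 hx), Real.log_exp, add_comm]
  simp only [fn, ann, val, cmpM, e, prj_smul (Real.exp_pos s) hx, sub_zero, h]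

theorem uS_cmp {p q : IX → Md} {φ : ℝ → ℝ} {c s : ℝ} {x : J.E4} (hx : x ≠ 0)
    (h : φ (Real.log ‖x‖) = Real.log ‖x‖ + s - c) :
    uS c p q (Real.exp s • x) = reM (fun i => fn 0 (cmpV p φ i) (cmpV q φ i)) x := by
  ext a b
  exact congrArg Complex.re (fn_cmp hx h)

theorem asol_mono {Γ : Subgroup Iso4} {I : Set ℝ} {η η' en : ℝ} {u : MetricField 4}
    (h : ASol Γ I η en u) (hη : η ≤ η') : ASol Γ I η' en u :=
  { h with bd := Xh.b2_mono h.bd Subset.rfl hη }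

theorem xnk_tau {R κ x : ℝ} (hx : x ∈ Ioo (-R) R) : (xnk R κ).τ x = 1 := by
  simp [xnk, neck, ind_of_mem hx.1.le hx.2]

theorem kill_em1 (y : CB.DD) : piL kill (em1 y) = Sum.elim (fun e => kill (y e)) 0 := by
  funext i
  cases i with
  | inl e => rfl
  | inr _ => exact map_zero kill

/-- the collar input of the child -/
def bO (v : DD IX) : IX → J.E4 → ℂ := EF NQ 10 o8 (colL (1 / 8)) (bcut 1) v (QO v)

/-- the collar input of the parent -/
def bI (v : DD IX) : IX → J.E4 → ℂ := EF NQ 10 o8 (colR (1 / 8)) (bcut (-1)) v (QI v)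

theorem xn_core {η1 εO εI r0 l e η : ℝ} (hS : SymX η1) (hO : Xh.UO εO) (hI : Xh.UI εI)
    (r1 : 2 * r0 ≤ η1) (r2 : cS * (2 * r0) ≤ 1 / 8) (r3 : 2 * r0 < NQ.eta 10 o8)
    (r4 : cB 2 0 * (24 * r0) ≤ min εO (1 / 100)) (r5 : cB 2 0 * (24 * r0) ≤ min εI (1 / 100))
    (eO : e ≤ εO) (eI : e ≤ εI) {Γ : Subgroup Iso4} {y1 y2 : CB.DD} {p q F : IX → Md}
    {A B : IX → D} {v v' : DD IX} (hl : 1 ≤ l) (hη : η ≤ 2 * r0)
    (hs : Sol NQ (xnk (l + 3) (1 / 8)).τ (xnk (l + 3) (1 / 8)).w (xnk (l + 3) (1 / 8)).om η p q F)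
    (hdat : Dat (xnk (l + 3) (1 / 8)) p q A B) (iA : InvM Γ fun i => trD 1 (A i))
    (iB : InvM Γ fun i => trD 1 (B i)) (A0 : A (.inr ()) = 0)
    (pL : cmpV p (phL l) = (SL NQ (1 / 8) v).p (colL (1 / 8)))
    (qL : cmpV q (phL l) = (SL NQ (1 / 8) v).q (colL (1 / 8)))
    (pR : cmpV p (phR l) = (SR NQ (1 / 8) v').p (colR (1 / 8)))
    (qR : cmpV q (phR l) = (SR NQ (1 / 8) v').q (colR (1 / 8)))
    (n2 : ‖v‖ ≤ r0) (n3 : ‖v'‖ ≤ r0) (d1 : ∀ ab k, trD 1 (v.1 (.inl ab)) k = trD 1 (y1 ab) k)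
    (d2 : ∀ ab k, k ≠ 0 → trD 1 (v'.2 (.inl ab)) k = trD 1 (y2 ab) k) :
    ∃ (U : MetricField 4) (en : ℝ), ASol Γ (Ioo 1 (2 * l + 8 - 1)) (cS * η) en U ∧
      (ColO Γ e y1 U (reM (bO v)) ∧
        ∀ x, x ≠ 0 → ∀ a b, bO v (.inl (a, b)) x = cf (reM (bO v)) a b x) ∧
      (ColI Γ e y2 (fun x => U (Real.exp (2 * l + 8) • x)) (reM (bI v')) ∧
        ∀ x, x ≠ 0 → ∀ a b, bI v' (.inl (a, b)) x = cf (reM (bI v')) a b x) ∧
      enL (SR NQ (1 / 8) v') = ((Real.exp (-2 * (2 * l + 8)) * en : ℝ) : ℂ) := by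
  have k0 : (0 : ℝ) ≤ 1 / 8 := by norm_num
  have ok := ok_xnk (R := l + 3) (by linarith) k0 le_rfl
  have hi := hS _ Γ _ p q F _ _ (by linarith) (by linarith) hs hdat iA iB
  have hw : ∀ x, |(xnk (l + 3) (1 / 8)).w x| ≤ 1 := fun x => by
    rw [abs_of_pos (ok.w0 x)]; exact ok.w1 x
  have ho : ∀ x, |(xnk (l + 3) (1 / 8)).om x| ≤ 1 := fun x => by
    rw [abs_of_pos (o8_pos.trans_le (ok.o0 x))]; exact ok.o1 x
  obtain ⟨hint, hen⟩ := hs.energy (a := -(l + 3)) (b := l + 3) (by linarith)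
    (fun x hx => xnk_tau hx) ok.wc.continuousOn (fun x _ => hw x) (fun x _ => ho x) (l + 4)
    (.inr ())
  rw [show -(l + 3) + (l + 4) = 1 by ring, show l + 3 + (l + 4) = 2 * l + 8 - 1 by ring]
    at hint hen
  have cS0 : 0 < cS := one_pos.trans_le one_le_cS
  obtain ⟨en, hA, he⟩ := hs.asol (Γ := Γ) (I := Ioo (-(l + 3)) (l + 3)) (c := l + 4)
    (J := Ioo 1 (2 * l + 8 - 1)) isOpen_Ioo (fun x hx => xnk_tau hx)
    (fun t => by simp only [mem_Ioo]; constructor <;> rintro ⟨a, b⟩ <;> constructor <;> linarith)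
    (fun x _ => ho x) (fun x _ => hw x) (fun t _ => (hi t).1) (fun t _ => (hi t).2)
    ((mul_le_mul_of_nonneg_left hη cS0.le).trans r2) hint
  have cB0 := (cB_pos 2 0).le
  refine ⟨uS (l + 4) p q, en, hA, ?_, ?_, ?_⟩
  · refine Xh.colO_of hO k0 le_rfl (by linarith [norm_nonneg v])
      ((mul_le_mul_of_nonneg_left (by linarith) cB0).trans r4) eO (fun x _ => ?_)
      d1 (fun x hx => ?_) fun i => (col_L 1 (κ := 1 / 8) (C := 10) (by norm_num)
        le_rfl (by norm_num)).EF_smooth (contDiff_bcut 1) supp_bcut_L NQ rfl (by linarith) _ i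
    · rw [← pL, ← qL]; exact hi _
    · rw [← pL, ← qL, ← uS_cmp (s := 0) (c := l + 4) hx.1, Real.exp_zero, one_smul]
      rw [phL, cl_of_mem hx.2.1.le (by linarith [hx.2.2])]; ring
  · refine Xh.colI_of hI k0 le_rfl (by linarith [norm_nonneg v'])
      ((mul_le_mul_of_nonneg_left (by linarith) cB0).trans r5) eI (fun x _ => ?_)
      d2 (fun x hx => ?_) fun i => (col_R (-4) (κ := 1 / 8) (C := 10)
        (by norm_num) le_rfl (by norm_num)).EF_smooth (contDiff_bcut (-1)) supp_bcut_R NQ rfl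
        (by linarith) _ i
    · rw [← pR, ← qR]; exact hi _
    · rw [← pR, ← qR, ← uS_cmp (s := 2 * l + 8) (c := l + 4) hx.1]
      rw [phR, cl_of_mem (by linarith [hx.2.1]) (by linarith [hx.2.2])]; ring
  · have q0 : q (.inr ()) 0 (-(l + 3)) = 0 := by
      have := hdat.hq (.inr ()) 0
      rw [A0] at this
      exact this.trans (by simp [trD])
    have q1 : (SR NQ (1 / 8) v').q (colR (1 / 8)) (.inr ()) 0 (-4 + 3) =
        q (.inr ()) 0 (l + 3) := by rw [← qR, ← phR_b l]; rfl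
    have e3 : Real.exp (-2 * (2 * l + 8)) * Real.exp (2 * (2 * l + 8 - 1)) = Real.exp (-2) := by
      rw [← Real.exp_add]; congr 1; ring
    rw [enL_apply, q1, Complex.ofReal_mul (Real.exp _), he, hen, q0, inner_zero_right, ← e3]
    push_cast; ring

theorem symX : SymX (NQ.eta 10 o8 / 17) := fun R Γ η p q F A B hR hη hs hd hA hB x => by
  have := hs.sym (ok_xnk hR (by norm_num) le_rfl) o8_pos
    (fun x => ⟨ind (-R) R x, by simp [xnk, neck]⟩) (by linarith) hd hA (fun _ => hB) x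
  exact ⟨this.1, this.2.1⟩

theorem dR_dat (y : CB.DD × CB.DD) {u : D3 IX} (hk : piL keep u.2.2 = u.2.2) (ab : Fin 4 × Fin 4)
    {k : ℕ} (hk0 : k ≠ 0) : trD 1 ((dR (em2 y) u).2 (.inl ab)) k = trD 1 (y.2 ab) k := by
  have e1 : (dR (em2 y) u).2 (.inl ab) = keep (u.2.2 (.inl ab)) + kill (y.2 ab) := by
    rw [← piL_apply keep, hk]; rfl
  simp only [e1, trD, lp.coeFn_add, Pi.add_apply, keep_apply, kill_apply, if_neg hk0, zero_add]

/-- **the extended neck** -/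
theorem xns_of {εO εI : ℝ} (hεO : 0 < εO) (hO : Xh.UO εO) (hεI : 0 < εI) (hI : Xh.UI εI) :
    XNS := fun k => by
  have η0 := eta8_pos
  have cS0 : 0 < cS := one_pos.trans_le one_le_cS
  have cB0 := cB_pos 2 0
  obtain ⟨r0, r00, r1, r2, r4, r5, r6, r7⟩ : ∃ r0 : ℝ, 0 < r0 ∧ 2 * r0 ≤ NQ.eta 10 o8 / 17 ∧
      cS * (2 * r0) ≤ 1 / 8 ∧ cB 2 0 * (24 * r0) ≤ min εO (1 / 100) ∧
      cB 2 0 * (24 * r0) ≤ min εI (1 / 100) ∧ r0 ≤ εO ∧ r0 ≤ εI := by
    have t : ∀ a b : ℝ, 0 < b → ∀ᶠ r in 𝓝[>] (0 : ℝ), a * r ≤ b := fun a b hb =>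
      nhdsWithin_le_nhds (((continuous_const.mul continuous_id).tendsto' 0 0 (by simp)).eventually
        (eventually_le_nhds hb))
    obtain ⟨r, ⟨⟨⟨⟨⟨a1, a2⟩, a3⟩, a4⟩, a5⟩, a6⟩, a7⟩ := (((((((t 2 _ (by positivity :
      0 < NQ.eta 10 o8 / 17)).and (t (cS * 2) (1 / 8) (by norm_num))).and (t (cB 2 0 * 24) _
      (lt_min hεO (by norm_num : (0 : ℝ) < 1 / 100)))).and (t (cB 2 0 * 24) _
      (lt_min hεI (by norm_num : (0 : ℝ) < 1 / 100)))).and (t 1 _ hεO)).and (t 1 _ hεI)).and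
      self_mem_nhdsWithin).exists
    exact ⟨r, a7, a1, by linarith, by linarith, by linarith, by linarith, by linarith⟩
  obtain ⟨E, i1, i2, i3, Cd, N, co, ε, C, ℓ0, X, hD, ε0, ε1, C0, hX⟩ := exists_XD k r00
  have m : ∀ {a b : ℝ}, 0 ≤ b → a ≤ C * b → a ≤ (C + 2 * cS) * b := fun hb h =>
    h.trans (mul_le_mul_of_nonneg_right (by linarith) hb)
  refine ⟨⟨E, Cd, N, co, hD, ε, C + 2 * cS, ℓ0, ε0, X, hX.hol, fun p hp => ?_, hX.cpx,
    fun Γ ℓ hℓ y hy hc hp c1 c2 p1 p2 => ?_⟩⟩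
  · obtain ⟨a, b, c⟩ := hX.bd p hp
    exact ⟨m (by positivity) a, m (by positivity) b, by linarith⟩
  obtain ⟨u, hl, hd, hk, n1, n2, n3, v1, v2, v3⟩ := hX.real ℓ hℓ y hy
  have k0 : (0 : ℝ) ≤ 1 / 8 := by norm_num
  have iA : InvM Γ fun i => trD 1 ((em2 y).1 i) := by
    have := dinv_datQ isOpen_Ioo c1 (by norm_num) (t := 1) (by norm_num) c2
    rwa [← em1_apply] at this
  have iB : InvM Γ fun i => trD 1 (piL kill (em2 y).2 i) := by
    have := dinv_datP isOpen_Ioo p1 (by norm_num) (t := -1) (by norm_num) p2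
      (y' := fun e => kill (y.2 e)) fun ab k => trD_kill _ _ _
    rwa [← kill_em1] at this
  have n4 : ‖em2 y‖ ≤ NQ.eta 10 o8 := by linarith
  obtain ⟨U, en, hA, ⟨cO, fO⟩, ⟨cI, fI⟩, he⟩ := xn_core symX hO hI r1 r2 (by linarith) r4 r5
    (ε1.trans r6) (ε1.trans r7) (y1 := y.1) (y2 := y.2) hl (by linarith)
    (XS_sol k0 le_rfl hl n4) (XS_dat NQ k0 le_rfl hl (em2 y)) iA iB rfl hd.pL hd.qL hd.pR hd.qR
    n2 n3 (fun _ _ => rfl) fun ab k hk0 => dR_dat y hk ab hk0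
  rw [show 2 * ((ℓ - 8) / 2) + 8 = ℓ by ring] at hA cI he
  refine ⟨U, _, _, en, asol_mono hA ?_, cO, cI, Xh.lfJ_of fO v1, Xh.lfJ_of fI v2, v3.trans he⟩
  have a1 := mul_le_mul_of_nonneg_left (norm_em2_le y) cS0.le
  have a2 := norm_nonneg y
  have a3 := norm_nonneg (N ℓ - co 0 0)
  nlinarith [mul_nonneg C0.le a2, mul_nonneg C0.le a3, mul_nonneg cS0.le a3]

/-- **leaf XNS** -/
theorem xns : XNS := by
  obtain ⟨εO, hεO, hO⟩ := Xh.uo
  obtain ⟨εI, hεI, hI⟩ := Xh.ui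
  exact xns_of hεO hO hεI hI

end Crest.Agent.N207.L
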