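import Crest.Agent.N207.L.Xn2
import Crest.Agent.N207.L.Lp4

/-! # N207/L/Xy (helper59): the root end -/

set_option autoImplicit false
set_option maxHeartbeats 800000

open scoped ContDiff InnerProductSpace
open Metric Set Filter Topology MeasureTheory
open Crest.GeometryTopology.CoordMetric
open Crest.Agent.N207.I Crest.Agent.N207.J Crest.Agent.N207.CB Crest.Agent.N207.Lg

noncomputable section

namespace Crest.Agent.N207.L.Xy

/-- the integrand of the action -/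
def gg (X : CL) (s : ℝ) : ℂ := ((Real.exp (2 * (s + 0)) : ℝ) : ℂ) *
  ⟪toH 1, tru 4 (fun x => (hnk (1 / 8)).w x ^ 2) (hnk (1 / 8)).om X 0 s⟫_ℂ

theorem okH : (hnk (1 / 8)).Ok 10 o8 := ok_hnk (by norm_num) le_rfl

theorem gg_le (X : CL) {s : ℝ} (hs : s ∈ Ioi (1 : ℝ)) :
    ‖gg X s‖ ≤ Real.exp 3 * ‖toH 1‖ * ‖X‖ * Real.exp (-1 * s) := by
  have h1 : ‖tru 4 (fun x => (hnk (1 / 8)).w x ^ 2) (hnk (1 / 8)).om X 0 s‖ ≤
      Real.exp (-3 * (s - 1)) * ‖X‖ := by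
    have e : (hnk (1 / 8)).w s ^ 2 = Real.exp (-3 * (s - 1)) := by
      rw [hnk_w, max_eq_right (le_of_lt hs), pow_two, ← Real.exp_add]; congr 1; ring
    have h2 : ‖P 0 (X 0 s)‖ ≤ ‖X‖ := (norm_P_le _ _).trans
      (((X 0).norm_coe_le_norm s).trans (lp.norm_apply_le_norm (by norm_num) X 0))
    simp only [tru, e, wt, pow_zero, mul_one, Nat.cast_zero, zero_add, Real.one_rpow, div_one,
      norm_smul, Complex.norm_real, Real.norm_of_nonneg (Real.exp_pos _).le]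
    gcongr
  have e2 : Real.exp (2 * (s + 0)) * Real.exp (-3 * (s - 1)) = Real.exp 3 * Real.exp (-1 * s) := by
    rw [← Real.exp_add, ← Real.exp_add]; congr 1; ring
  rw [gg, norm_mul, Complex.norm_real, Real.norm_of_nonneg (Real.exp_pos _).le]
  calc _ ≤ Real.exp (2 * (s + 0)) * (‖toH 1‖ * (Real.exp (-3 * (s - 1)) * ‖X‖)) := by
        gcongr
        exact (norm_inner_le_norm _ _).trans (by gcongr)
    _ = Real.exp (2 * (s + 0)) * Real.exp (-3 * (s - 1)) * (‖toH 1‖ * ‖X‖) := by ring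
    _ = _ := by rw [e2]; ring

theorem gg_int (X : CL) : IntegrableOn (gg X) (Ioi 1) := by
  have hc : Continuous (gg X) := by
    have := cont_tru (σ := 4) (okH.wc.pow 2) okH.oc X 0
    unfold gg; fun_prop
  refine Integrable.mono' (((exp_neg_integrableOn_Ioi 1 one_pos).const_mul
    (Real.exp 3 * ‖toH 1‖ * ‖X‖))) hc.aestronglyMeasurable ?_
  exact (ae_restrict_iff' measurableSet_Ioi).2 (Eventually.of_forall fun s hs => gg_le X hs)

/-- the action of the half line -/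
def enH : CL →L[ℂ] ℂ :=
  LinearMap.mkContinuous
    { toFun := fun X => ∫ s in Ioi 1, gg X s
      map_add' := fun X Y => by
        rw [← integral_add (gg_int X) (gg_int Y)]
        simp only [gg, tru_add, inner_add_right, mul_add]
      map_smul' := fun c X => by
        rw [RingHom.id_apply, ← integral_smul]
        simp only [gg, tru_smul, inner_smul_right, smul_eq_mul, mul_left_comm] }
    (Real.exp 3 * ‖toH 1‖ * ∫ s in Ioi (1 : ℝ), Real.exp (-1 * s)) fun X => by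
      refine (norm_integral_le_of_norm_le ((exp_neg_integrableOn_Ioi 1 one_pos).const_mul
        (Real.exp 3 * ‖toH 1‖ * ‖X‖)) ((ae_restrict_iff' measurableSet_Ioi).2
          (Eventually.of_forall fun s hs => gg_le X hs))).trans_eq ?_
      rw [integral_const_mul]; ring

theorem tauH {x : ℝ} (hx : x ∈ Ioi (1 : ℝ)) : (hnk (1 / 8)).τ x = 1 := if_pos (le_of_lt hx)

theorem core {εO r0 e η : ℝ} (hO : Xh.UO εO) (r1 : 17 * (2 * r0) ≤ NQ.eta 10 o8)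
    (r2 : cS * (2 * r0) ≤ 1 / 8) (r4 : cB 2 0 * (24 * r0) ≤ min εO (1 / 100)) (eO : e ≤ εO)
    {Γ : Subgroup Iso4} {y : CB.DD} {p q F : IX → Md} {A : IX → D} {v : DD IX} (hη : η ≤ 2 * r0)
    (hs : Sol NQ (hnk (1 / 8)).τ (hnk (1 / 8)).w (hnk (1 / 8)).om η p q F)
    (hdat : Dat (hnk (1 / 8)) p q A 0) (iA : InvM Γ fun i => trD 1 (A i))
    (pL : cmpV p (cl 1 (1 + 3)) = (SL NQ (1 / 8) v).p (colL (1 / 8)))
    (qL : cmpV q (cl 1 (1 + 3)) = (SL NQ (1 / 8) v).q (colL (1 / 8)))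
    (n2 : ‖v‖ ≤ r0) (d1 : ∀ ab k, trD 1 (v.1 (.inl ab)) k = trD 1 (y ab) k) :
    ∃ (U : MetricField 4) (en : ℝ), ASol Γ (Ioi 1) (cS * η) en U ∧
      (ColO Γ e y U (reM (bO v)) ∧
        ∀ x, x ≠ 0 → ∀ a b, bO v (.inl (a, b)) x = cf (reM (bO v)) a b x) ∧
      (en : ℂ) = ∫ s in Ioi 1, ((Real.exp (2 * (s + 0)) : ℝ) : ℂ) * ⟪toH 1, F (.inr ()) 0 s⟫_ℂ ∧
      ∀ x ∈ An (Ioi 1), ∀ j ≤ 2, ∀ a b, ‖x‖ ^ j * ‖iteratedFDeriv ℝ j (fun z => U z a b) x‖ ≤
        cS * η * (Real.exp 4 / ‖x‖) ^ (3 / 2 : ℝ) := by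
  have k0 : (0 : ℝ) ≤ 1 / 8 := by norm_num
  have η0 := eta8_pos
  have hi := hs.sym (Γ := Γ) okH o8_pos (fun x => ⟨if 1 ≤ x then 1 else 0, by
    change (if 1 ≤ x then (1 : ℂ) else 0) = _; split_ifs <;> simp⟩) (by linarith) hdat iA
    fun h => by cases h
  have hw : ∀ x, |(hnk (1 / 8)).w x| ≤ 1 := fun x => by
    rw [abs_of_pos (okH.w0 x)]; exact okH.w1 x
  have hw' : ∀ x ∈ Ioi (1 : ℝ), |(hnk (1 / 8)).w x| ≤ Real.exp (-(3 / 2) * (x - 1)) :=
    fun x hx => by rw [abs_of_pos (okH.w0 x), hnk_w, max_eq_right (le_of_lt hx)]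
  have ho : ∀ x, |(hnk (1 / 8)).om x| ≤ 1 := fun x => by
    rw [abs_of_pos (o8_pos.trans_le (okH.o0 x))]; exact okH.o1 x
  obtain ⟨hint, hen⟩ := hs.energy_half hw' (fun x _ => ho x) okH.wc.continuousOn 0 (.inr ())
  rw [add_zero] at hint hen
  have cS0 : 0 < cS := one_pos.trans_le one_le_cS
  obtain ⟨en, hA, he⟩ := hs.asol (Γ := Γ) (I := Ioi 1) (c := 0) (J := Ioi 1) isOpen_Ioi
    (fun x hx => tauH hx) (fun t => by rw [sub_zero]) (fun x _ => ho x) (fun x _ => hw x)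
    (fun t _ => (hi t).1) (fun t _ => (hi t).2.1)
    ((mul_le_mul_of_nonneg_left hη cS0.le).trans r2) hint
  have cB0 := (cB_pos 2 0).le
  refine ⟨uS 0 p q, en, hA, ?_, he.trans hen, fun x hx j hj a b =>
    hs.uS_dec (fun x hx => tauH hx) (fun x _ => ho x) hw' hx hj a b⟩
  refine Xh.colO_of hO k0 le_rfl (by linarith [norm_nonneg v])
    ((mul_le_mul_of_nonneg_left (by linarith) cB0).trans r4) eO (fun x _ => ?_)
    d1 (fun x hx => ?_) fun i => (col_L 1 (κ := 1 / 8) (C := 10) (by norm_num)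
      le_rfl (by norm_num)).EF_smooth (contDiff_bcut 1) supp_bcut_L NQ rfl
        (by linarith [norm_nonneg v]) _ i
  · rw [← pL, ← qL]; exact ⟨(hi _).1, (hi _).2.1⟩
  · rw [← pL, ← qL, ← uS_cmp (s := 0) (c := 0) hx.1, Real.exp_zero, one_smul]
    rw [cl_of_mem hx.2.1.le (by linarith [hx.2.2])]; ring

/-- **leaf XHS** -/
theorem xhs : XHS := fun k => by
  obtain ⟨εO, hεO, hO⟩ := Xh.uo
  have k0 : (0 : ℝ) ≤ 1 / 8 := by norm_num
  have η0 := eta8_pos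
  have cS0 : 0 < cS := one_pos.trans_le one_le_cS
  have cB0 := cB_pos 2 0
  obtain ⟨r0, r00, r1, r2, r4, r6, r7⟩ : ∃ r0 : ℝ, 0 < r0 ∧ 17 * (2 * r0) ≤ NQ.eta 10 o8 ∧
      cS * (2 * r0) ≤ 1 / 8 ∧ cB 2 0 * (24 * r0) ≤ min εO (1 / 100) ∧ r0 ≤ εO ∧ r0 ≤ 1 := by
    have t : ∀ a b : ℝ, 0 < b → ∀ᶠ r in 𝓝[>] (0 : ℝ), a * r ≤ b := fun a b hb =>
      nhdsWithin_le_nhds (((continuous_const.mul continuous_id).tendsto' 0 0 (by simp)).eventually
        (eventually_le_nhds hb))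
    obtain ⟨r, ⟨⟨⟨⟨a1, a2⟩, a3⟩, a5⟩, a6⟩, a7⟩ := ((((((t 34 _ η0).and
      (t (cS * 2) (1 / 8) (by norm_num))).and (t (cB 2 0 * 24) _
      (lt_min hεO (by norm_num : (0 : ℝ) < 1 / 100)))).and (t 1 _ hεO)).and (t 1 _ one_pos)).and
      self_mem_nhdsWithin).exists
    exact ⟨r, a7, by linarith, by linarith, by linarith, by linarith, by linarith⟩
  obtain ⟨KO, BO, hKO, dO, hB⟩ := (col_L 1 (κ := 1 / 8) (C := 10) (by norm_num) le_rfl
    (by norm_num)).e2M supp_bcut_L k NQ Sum.inl QO (γ := colL (1 / 8)) rfl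
  have K2 := NQ.K2_pos (okH.wts o8_pos)
  have nE := norm_nonneg enH
  have hy : ∀ y ∈ ball (0 : CB.DD) (r0 / 2), ‖em1 y‖ ≤ ‖y‖ ∧ ‖y‖ < r0 / 2 := fun y h =>
    ⟨norm_em1_le y, mem_ball_zero_iff.1 h⟩
  have hm : ∀ y ∈ ball (0 : CB.DD) (r0 / 2), 2 * ‖em1 y‖ ≤ NQ.eta 10 o8 := fun y h => by
    linarith [(hy y h).1, (hy y h).2]
  have he : ∀ y ∈ ball (0 : CB.DD) (r0 / 2), ‖em1 y‖ < NQ.eta 10 o8 := fun y h => by
    linarith [(hy y h).1, (hy y h).2]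
  have hv : ∀ y ∈ ball (0 : CB.DD) (r0 / 2), ‖((em1 y, uH NQ (1 / 8) (em1 y)) : DD IX)‖ ≤ 2 * ‖y‖ :=
    fun y h => (hnk_match k0 le_rfl (hm y h)).1.trans (by linarith [(hy y h).1])
  have mb : ∀ y ∈ ball (0 : CB.DD) (r0 / 2), ((em1 y, uH NQ (1 / 8) (em1 y)) : DD IX) ∈
      ball (0 : DD IX) (NQ.eta 10 o8 / 2) := fun y h =>
    mem_ball_zero_iff.2 ((hv y h).trans_lt (by linarith [(hy y h).2]))
  have me : MapsTo em1 (ball (0 : CB.DD) (r0 / 2)) (ball 0 (NQ.eta 10 o8)) := fun y h =>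
    mem_ball_zero_iff.2 (he y h)
  obtain ⟨C1, hC1⟩ : ∃ C1, C1 = KO * (81 * NQ.K2 o8 + 4) := ⟨_, rfl⟩
  have C10 : 0 < C1 := by rw [hC1]; positivity
  refine ⟨⟨r0 / 2, C1 + ‖enH‖ + 2 * cS, by positivity, fun y =>
    (BO (em1 y, uH NQ (1 / 8) (em1 y)), enH ((HS NQ (1 / 8) (em1 y)).2.2 (.inr ()))), ?_,
    fun y h => ⟨?_, ?_⟩, fun y h => (hB _ (mb y h)).2.1, fun Γ y h hc c1 c2 => ?_⟩⟩
  · have d0 := (diffOn_uH (N := NQ) k0 le_rfl).comp em1.differentiableOn me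
    have d1 : DifferentiableOn ℂ (fun y : CB.DD => ((em1 y, uH NQ (1 / 8) (em1 y)) : DD IX))
        (ball 0 (r0 / 2)) := em1.differentiableOn.prodMk d0
    have d2 := (diffOn_HS (N := NQ) k0 le_rfl).comp em1.differentiableOn me
    have d3 : DifferentiableOn ℂ (fun y : CB.DD => (HS NQ (1 / 8) (em1 y)).2.2 (.inr ()))
        (ball 0 (r0 / 2)) := differentiableOn_pi.1 d2.snd.snd (.inr ())
    have d4 : DifferentiableOn ℂ (fun y : CB.DD => BO (em1 y, uH NQ (1 / 8) (em1 y)))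
        (ball 0 (r0 / 2)) := dO.comp d1 mb
    have d5 : DifferentiableOn ℂ (fun y : CB.DD => enH ((HS NQ (1 / 8) (em1 y)).2.2 (.inr ())))
        (ball 0 (r0 / 2)) := enH.differentiable.comp_differentiableOn d3
    exact d4.prodMk d5
  · have a1 := (hB _ (mb y h)).1
    rw [norm_sub_QO] at a1
    have a2 := (norm_uH_le k0 le_rfl (he y h).le).trans (mul_le_mul_of_nonneg_left
      (pow_le_pow_left₀ (norm_nonneg _) (hy y h).1 2) (by positivity))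
    have a3 := pow_le_pow_left₀ (norm_nonneg _) (hv y h) 2
    refine (a1.trans (mul_le_mul_of_nonneg_left (add_le_add a2 a3) hKO.le)).trans ?_
    have : 0 ≤ (‖enH‖ + 2 * cS) * ‖y‖ ^ 2 := by positivity
    rw [hC1]; nlinarith
  · have a1 : ‖(HS NQ (1 / 8) (em1 y)).2.2 (.inr ())‖ ≤ 1 :=
      (Tr.norm_F _ _).trans ((NL.norm_sol okH o8_pos ((norm_pr0 _).trans_le (he y h).le)).trans (by
        rw [norm_pr0]; linarith [(hy y h).1, (hy y h).2]))
    refine (enH.le_opNorm _).trans ((mul_le_mul_of_nonneg_left a1 nE).trans (by linarith))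
  · have iA : InvM Γ fun i => trD 1 (em1 y i) := by
      have := dinv_datQ isOpen_Ioo c1 (by norm_num) (t := 1) (by norm_num) c2
      rwa [← em1_apply] at this
    obtain ⟨-, pL, qL, -⟩ := hnk_match (N := NQ) k0 le_rfl (hm y h)
    obtain ⟨U, en, hA, ⟨cO, fO⟩, hen, hd⟩ := core hO r1 r2 r4 (e := r0 / 2) (by linarith) (y := y)
      (by linarith [(hy y h).1, (hy y h).2]) (HS_sol k0 le_rfl (he y h).le)
      (HS_dat NQ k0 le_rfl (em1 y)) iA pL qL ((hv y h).trans (by linarith [(hy y h).2]))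
      fun _ _ => rfl
    have a1 : cS * (2 * ‖em1 y‖) ≤ (C1 + ‖enH‖ + 2 * cS) * ‖y‖ := by
      nlinarith [mul_le_mul_of_nonneg_left (hy y h).1 cS0.le, mul_nonneg C10.le (norm_nonneg y),
        mul_nonneg nE (norm_nonneg y)]
    refine ⟨U, _, en, asol_mono hA a1, cO, Xh.lfJ_of fO (hB _ (mb y h)).2.2.2, hen.symm,
      fun x hx j hj a b => (hd x hx j hj a b).trans ?_⟩
    exact mul_le_mul_of_nonneg_right a1 (by positivity)

end Crest.Agent.N207.L.Xy
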